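import Vale.Agent.P231Z.I7.Htpy2
import Vale.Agent.P231.X3.Frame

/-!
# P231, multiplicity seven, integrality: the deformations of the unit tangent bundle
-/

set_option maxSynthPendingDepth 3
set_option linter.unusedSectionVars false
set_option linter.unusedVariables false

open Bundle Manifold Set Filter Module
open scoped ContDiff Manifold Topology

namespace Vale.Agent.P231Z.I7

noncomputable section

open Vale.Agent.P234 Vale.Agent.P231 Vale.Agent.P231.Fm Vale.Agent.P231.W Vale.Agent.P231.CoC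
  Vale.Agent.P231.WE Vale.Agent.P231.H775 Vale.Agent.P231.X3

variable {E : Type*} [NormedAddCommGroup E] [NormedSpace ℝ E] [FiniteDimensional ℝ E]
  {M : Type*} [MetricSpace M] [ChartedSpace E M] [IsManifold 𝓘(ℝ, E) ∞ M]
  [RiemannianBundle (fun x : M => TangentSpace 𝓘(ℝ, E) x)]
  [IsContMDiffRiemannianBundle 𝓘(ℝ, E) ∞ E (fun x : M => TangentSpace 𝓘(ℝ, E) x)]
  {e : ∀ x : M, TangentSpace 𝓘(ℝ, E) x → M}
  [CompactSpace M] [ConnectedSpace M] [IsRiemannianManifold 𝓘(ℝ, E) M] {D : ℝ}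

section Frame

variable {K : ℕ} (P : PF E M K)

/-- the vector with given coefficients -/
def pv (x : M) (a : Fin K → ℝ) : TangentSpace 𝓘(ℝ, E) x := ∑ i, a i • P.X i x

/-- the coefficients of a vector -/
def io (x : M) (ξ : TangentSpace 𝓘(ℝ, E) x) : Fin K → ℝ := fun i => inner ℝ (P.X i x) ξ

/-- the Gram matrix of the frame -/
def Qm (x : M) : (Fin K → ℝ) →L[ℝ] (Fin K → ℝ) :=
  ∑ i, ∑ j, (inner ℝ (P.X i x) (P.X j x) : ℝ) •
    (ContinuousLinearMap.proj j : (Fin K → ℝ) →L[ℝ] ℝ).smulRight (Pi.single i (1 : ℝ))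

theorem pv_io (x : M) (ξ : TangentSpace 𝓘(ℝ, E) x) : pv P x (io P x ξ) = ξ := P.parseval x ξ

theorem pv_smul (x : M) (c : ℝ) (a : Fin K → ℝ) : pv P x (c • a) = c • pv P x a := by
  simp only [pv, Finset.smul_sum, Pi.smul_apply, smul_eq_mul, mul_smul]

theorem Qm_apply (x : M) (a : Fin K → ℝ) : Qm P x a = io P x (pv P x a) := by
  ext k
  simp [Qm, io, pv, inner_sum, inner_smul_right, Pi.single_apply, mul_comm]

theorem Qm_idem (x : M) (a : Fin K → ℝ) : Qm P x (Qm P x a) = Qm P x a := by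
  rw [Qm_apply, Qm_apply, pv_io]

theorem Qm_rank (x : M) :
    finrank ℝ E + finrank ℝ (LinearMap.ker (Qm P x : (Fin K → ℝ) →ₗ[ℝ] (Fin K → ℝ))) =
      finrank ℝ (Fin K → ℝ) :=
  finrank_ker_comp (T := TangentSpace 𝓘(ℝ, E) x)
    (P := ⟨⟨pv P x, fun a b => by simp only [pv, Pi.add_apply, add_smul, Finset.sum_add_distrib]⟩,
      pv_smul P x⟩)
    (I := ⟨⟨io P x, fun a b => funext fun i => inner_add_right _ _ _⟩,
      fun c a => funext fun i => inner_smul_right _ _ _⟩) (pv_io P x) (Qm_apply P x)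

theorem pv_ne {x : M} {a : Fin K → ℝ} (h : Qm P x a ≠ 0) : pv P x a ≠ 0 := fun h1 => h (by
  rw [Qm_apply, h1]
  exact funext fun i => inner_zero_right _)

open Classical in
/-- the direction of the vector with given coefficients -/
def sec (d : UT E M) (x : M) (a : Fin K → ℝ) : UT E M :=
  if h : pv P x a ≠ 0 then mk x (‖pv P x a‖⁻¹ • pv P x a : TangentSpace 𝓘(ℝ, E) x) (by
    show ‖‖pv P x a‖⁻¹ • pv P x a‖ = 1
    rw [norm_smul, norm_inv, norm_norm, inv_mul_cancel₀ (norm_ne_zero_iff.2 h)]) else d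

/-- the coefficients of a unit vector -/
def co (v : UT E M) : Fin K → ℝ := io P (foot v) v.1.snd

theorem sec_val {x : M} {a : Fin K → ℝ} (h : pv P x a ≠ 0) (d : UT E M) :
    (sec P d x a).1 = ⟨x, ‖pv P x a‖⁻¹ • pv P x a⟩ := by
  rw [sec, dif_pos h]
  rfl

theorem sec_congr {x : M} {a : Fin K → ℝ} (h : pv P x a ≠ 0) (d d' : UT E M) :
    sec P d x a = sec P d' x a := UT.ext' ((sec_val P h d).trans (sec_val P h d').symm)

theorem norm_pv_co (v : UT E M) : ‖pv P (foot v) (co P v)‖ = 1 :=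
  (congrArg norm (pv_io P (foot v) v.1.snd)).trans v.2

theorem pv_co (v : UT E M) : pv P (foot v) (co P v) ≠ 0 := by
  rw [← norm_ne_zero_iff, norm_pv_co]
  exact one_ne_zero

theorem sec_co (d v : UT E M) : sec P d (foot v) (co P v) = v := UT.ext' (by
  rw [sec_val P (pv_co P v), norm_pv_co, inv_one, one_smul]
  exact congrArg (TotalSpace.mk (foot v)) (pv_io P (foot v) v.1.snd))

variable {V : Type} [NormedAddCommGroup V] [NormedSpace ℝ V] [FiniteDimensional ℝ V]

theorem smV_X {f : V → M} {y : V} (hf : ContMDiffAt 𝓘(ℝ, V) 𝓘(ℝ, E) ∞ f y) (i : Fin K) :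
    SmV f (fun s => P.X i (f s)) y := ContMDiffAt.comp y (P.smooth i (f y)) hf

theorem smV_pv {f : V → M} {c : V → Fin K → ℝ} {x : V} (hf : (dM E M).At f x) (hc : Sm c x) :
    ∀ᶠ y in 𝓝 x, SmV f (fun s => pv P (f s) (c s)) y := by
  filter_upwards [hf, hc] with y h1 h2
  exact SmV.sum Finset.univ (u := fun i s => c s i • P.X i (f s)) h1 fun i _ =>
    (smV_X P h1 i).smul (contDiffAt_pi.1 h2 i)

theorem sm_Qm {f : V → M} {x : V} (hf : (dM E M).At f x) : Sm (fun y => Qm P (f y)) x := by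
  filter_upwards [hf] with y h
  exact ContDiffAt.sum fun i _ => ContDiffAt.sum fun j _ =>
    ((smV_X P h i).inner (smV_X P h j)).smul contDiffAt_const

theorem sm_co {u : V → UT E M} {x : V} (hu : (dUT E M).At u x) : Sm (fun y => co P (u y)) x := by
  filter_upwards [hu] with y h
  have h1 : SmV (fun s => foot (u s)) (fun s => (u s).1.snd) y := h
  exact contDiffAt_pi.2 fun i => (smV_X P h1.base i).inner h1

theorem eventually_pv {f : V → M} {c : V → Fin K → ℝ} {x : V} (hf : (dM E M).At f x)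
    (hc : Sm c x) (h : pv P (f x) (c x) ≠ 0) : ∀ᶠ y in 𝓝 x, pv P (f y) (c y) ≠ 0 := by
  filter_upwards [(smV_pv P hf hc).self_of_nhds.norm_sq.continuousAt.eventually
    (isOpen_ne.mem_nhds (pow_ne_zero 2 (norm_ne_zero_iff.2 h)))] with y h1 h2
  exact h1 (by rw [h2, norm_zero, zero_pow two_ne_zero])

theorem at_sec {f : V → M} {c : V → Fin K → ℝ} {x : V} (hf : (dM E M).At f x)
    (hc : Sm c x) (h : pv P (f x) (c x) ≠ 0) (d : V → UT E M) :
    (dUT E M).At (fun y => sec P (d y) (f y) (c y)) x := by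
  filter_upwards [smV_pv P hf hc, eventually_eventually_nhds.2 (eventually_pv P hf hc h)]
    with y h1 h2
  have h3 : ‖pv P (f y) (c y)‖ ≠ 0 := norm_ne_zero_iff.2 h2.self_of_nhds
  have h4 : ContDiffAt ℝ ∞ (fun s => ‖pv P (f s) (c s)‖) y := by
    simpa only [Real.sqrt_sq (norm_nonneg _)] using h1.norm_sq.sqrt (pow_ne_zero 2 h3)
  refine ContMDiffAt.congr_of_eventuallyEq (h1.smul (h4.inv h3)) ?_
  filter_upwards [h2] with s hs using sec_val P hs (d s)

/-- the coefficients along the deformation -/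
def cf (a : Fin K → ℝ) (p : UT E M × ℝ) : Fin K → ℝ := (1 - tau p.2) • co P p.1 + tau p.2 • a

theorem sm_cf (a : Fin K → ℝ) {u : V → UT E M × ℝ} {x : V}
    (hu : ((dUT E M).prod (Dif.lin ℝ)).At u x) : Sm (fun y => cf P a (u y)) x := by
  filter_upwards [sm_co P hu.1, sm_tau hu.2] with y h1 h2
  exact ((contDiffAt_const.sub h2).smul h1).add (h2.smul contDiffAt_const)

theorem cf_nonpos (a : Fin K → ℝ) (v : UT E M) {t : ℝ} (ht : t ≤ 0) : cf P a (v, t) = co P v := by
  simp [cf, tau, Real.smoothTransition.zero_of_nonpos ht]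

theorem cf_one (a : Fin K → ℝ) (v : UT E M) {t : ℝ} (ht : 1 ≤ t) : cf P a (v, t) = a := by
  simp [cf, tau, Real.smoothTransition.one_of_one_le ht]

/-- the lift of a deformation of the manifold -/
theorem htpy_lift {m : ℕ} {O : Set M} {b : M × ℝ → M} (hb : Htpy (dM E M) m O b)
    (a : Fin K → ℝ) :
    Htpy (dUT E M) m {v | foot v ∈ O ∧ ∀ t, pv P (b (foot v, t)) (cf P a (v, t)) ≠ 0}
      (fun p => sec P p.1 (b (foot p.1, p.2)) (cf P a p)) where
  po {V} _ _ _ {u x} hu hx := by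
    have h1 : ∀ᶠ y in 𝓝 x, foot (u y) ∈ O := hb.po (map_foot hu) hx.1
    have h2 : ∀ t ∈ Icc (0 : ℝ) 1, ∀ᶠ z : V × ℝ in 𝓝 (x, t),
        pv P (b (foot (u z.1), z.2)) (cf P a (u z.1, z.2)) ≠ 0 := fun t _ => by
      have h3 : (dUT E M).At (fun z : V × ℝ => u z.1) (x, t) :=
        (dUT E M).comp (u := u) (g := Prod.fst) (x := (x, t)) hu (Sm.of_contDiff contDiff_fst _)
      exact eventually_pv P (hb.map (u := fun z : V × ℝ => (foot (u z.1), z.2))
        ⟨⟨map_foot h3, (continuousAt_fst (p := (x, t))).eventually h1⟩,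
          Sm.of_contDiff contDiff_snd _⟩)
        (sm_cf P a (u := fun z : V × ℝ => (u z.1, z.2)) ⟨h3, Sm.of_contDiff contDiff_snd _⟩)
        (hx.2 t)
    filter_upwards [h1, isCompact_Icc.eventually_forall_of_forall_eventually
      (P := fun y t => pv P (b (foot (u y), t)) (cf P a (u y, t)) ≠ 0) h2] with y k1 k2
    refine ⟨k1, fun t => ?_⟩
    rcases le_total t 0 with h | h
    · rw [hb.zero _ k1 t h, cf_nonpos P a _ h]
      exact pv_co P _
    · rcases le_total t 1 with h' | h'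
      · exact k2 t ⟨h, h'⟩
      · have k3 := k2 1 ⟨zero_le_one, le_rfl⟩
        rw [cf_one P a _ le_rfl] at k3
        rwa [hb.one _ k1 t h', cf_one P a _ h']
  map {V} _ _ _ {u x} hu :=
    at_sec P (hb.map (u := fun y => (foot (u y).1, (u y).2))
      ⟨⟨map_foot hu.1.1, hu.1.2.mono fun y hy => hy.1⟩, hu.2⟩) (sm_cf P a ⟨hu.1.1, hu.2⟩)
      (hu.1.2.self_of_nhds.2 _) fun y => (u y).1
  zero v hv t ht := by
    show sec P v (b (foot v, t)) (cf P a (v, t)) = v
    rw [hb.zero _ hv.1 t ht, cf_nonpos P a v ht, sec_co]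
  one v hv t ht := by
    show sec P v (b (foot v, t)) (cf P a (v, t)) = sec P v (b (foot v, 1)) (cf P a (v, 1))
    rw [hb.one _ hv.1 t ht, cf_one P a v ht, cf_one P a v le_rfl]
  thin {V} _ _ _ {u x} hu := by
    obtain ⟨G, _, _, _, v, g, hG, hg, hv, h⟩ := hb.thin (u := fun y => foot (u y))
      ⟨map_foot hu.1, hu.2.mono fun y hy => hy.1⟩
    have h1 : ∀ᶠ y in 𝓝 x, pv P (v (g y)) a ≠ 0 := by
      filter_upwards [h, hu.2] with y k1 k2
      have k3 := k2.2 1
      rwa [cf_one P a _ le_rfl, show b (foot (u y), 1) = v (g y) from k1] at k3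
    refine ⟨G, _, _, ‹_›, fun k => sec P (u x) (v k) a, g, hG, hg,
      at_sec P hv (Sm.of_contDiff contDiff_const _) h1.self_of_nhds _, ?_⟩
    filter_upwards [h, h1] with y k1 k2
    show sec P (u y) (b (foot (u y), 1)) (cf P a (u y, 1)) = sec P (u x) (v (g y)) a
    rw [cf_one P a _ le_rfl, show b (foot (u y), 1) = v (g y) from k1]
    exact sec_congr P k2 _ _

end Frame

variable {V : Type} [NormedAddCommGroup V] [NormedSpace ℝ V] [FiniteDimensional ℝ V]

/-- **The deformations of the unit tangent bundle.** -/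
theorem exists_htpy (F : Facts e) (hD : 0 < D) (hB : InjGE e D)
    (hdiam : ∀ p q : M, dist p q ≤ D)
    (hl : ∀ x y : M, dist x y = D → finrank ℝ (H775.Pl e D x y) = 2 * 3 + 2)
    (hE : finrank ℝ E = 16) {m : ℕ} (hV : finrank ℝ V = m) (h0 : 0 < m) (h8 : m ≠ 8)
    (hm : m + 1 < 16) {T : Set V} {s : V → UT E M} (hs : ∀ z ∈ T, (dUT E M).At s z) :
    ∃ W H, Htpy (dUT E M) m W H ∧ ∀ z ∈ T, s z ∈ W := by
  obtain ⟨O, b, hb, hO⟩ := exists_base F hD hB hdiam hl hE hV h0 h8 (by omega)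
    (f := fun z => foot (s z)) fun z hz => map_foot (hs z hz)
  obtain ⟨K, ⟨P⟩⟩ := exists_pf (E := E) (M := M)
  have h1 : ∀ z : V × ℝ, z.1 ∈ T → (dUT E M).At (fun z : V × ℝ => s z.1) z := fun z hz =>
    (dUT E M).comp (u := s) (g := Prod.fst) (hs _ hz) (Sm.of_contDiff contDiff_fst _)
  obtain ⟨a, ha⟩ := exists_generic (T := {z : V × ℝ | z.1 ∈ T ∧ 0 < z.2})
    (Q := fun z => Qm P (b (foot (s z.1), z.2)))
    (c := fun z => -((1 - tau z.2) / tau z.2) • co P (s z.1))
    (fun z hz => (sm_Qm P (hb.map (u := fun z : V × ℝ => (foot (s z.1), z.2))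
      ⟨⟨map_foot (h1 z hz.1), hb.po (map_foot (h1 z hz.1)) (hO _ hz.1)⟩,
        Sm.of_contDiff contDiff_snd _⟩)).differentiableAt)
    (fun z hz => by
      have h2 : DifferentiableAt ℝ (fun z : V × ℝ => tau z.2) z :=
        (sm_tau (Sm.of_contDiff contDiff_snd z)).differentiableAt
      have h3 : DifferentiableAt ℝ (fun z : V × ℝ => -((1 - tau z.2) / tau z.2)) z := by
        simp only [div_eq_mul_inv]
        exact ((h2.const_sub 1).mul (h2.inv (Real.smoothTransition.pos_of_pos hz.2).ne')).neg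
      exact h3.smul (sm_co P (h1 z hz.1)).differentiableAt)
    (fun z _ => Qm_idem P _) fun z _ => by
      rw [← Qm_rank P (b (foot (s z.1), z.2)), finrank_prod, finrank_self]
      omega
  refine ⟨_, _, htpy_lift P hb a, fun z hz => ⟨hO z hz, fun t => ?_⟩⟩
  rcases le_or_gt t 0 with h | h
  · rw [hb.zero _ (hO z hz) t h, cf_nonpos P a _ h]
    exact pv_co P _
  · have h2 : tau t ≠ 0 := (Real.smoothTransition.pos_of_pos h).ne'
    have h3 : cf P a (s z, t) = tau t • (a - -((1 - tau t) / tau t) • co P (s z)) := by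
      rw [neg_smul, sub_neg_eq_add, smul_add, smul_smul, mul_div_cancel₀ _ h2, add_comm]
      rfl
    rw [h3, pv_smul]
    exact smul_ne_zero h2 (pv_ne P (ha (z, t) ⟨hz, h⟩))

/-- **Lifting a plot of small dimension to the unit tangent bundle.** -/
theorem exists_lift8 (hE : finrank ℝ E = 16) (hV : finrank ℝ V < 16) {l : V → M}
    (hl' : ∀ z, (dM E M).At l z) : ∃ s : V → UT E M, (∀ z, (dUT E M).At s z) ∧
      (∀ z, foot (s z) = l z) ∧ ∀ z z', l z = l z' → s z = s z' := by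
  obtain ⟨K, ⟨P⟩⟩ := exists_pf (E := E) (M := M)
  obtain ⟨a, ha⟩ := exists_generic (T := univ) (Q := fun z => Qm P (l z)) (c := fun _ => 0)
    (fun z _ => (sm_Qm P (hl' z)).differentiableAt) (fun z _ => differentiableAt_const _)
    (fun z _ => Qm_idem P _) fun z _ => by
      rw [← Qm_rank P (l z)]
      omega
  have h1 : ∀ z, pv P (l z) a ≠ 0 := fun z => pv_ne P (sub_zero a ▸ ha z (mem_univ z))
  have d : UT E M := mk (l 0) (‖pv P (l 0) a‖⁻¹ • pv P (l 0) a : TangentSpace 𝓘(ℝ, E) (l 0)) (by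
    show ‖‖pv P (l 0) a‖⁻¹ • pv P (l 0) a‖ = 1
    rw [norm_smul, norm_inv, norm_norm, inv_mul_cancel₀ (norm_ne_zero_iff.2 (h1 0))])
  exact ⟨fun z => sec P d (l z) a,
    fun z => at_sec P (hl' z) (Sm.of_contDiff contDiff_const _) (h1 z) _,
    fun z => congrArg TotalSpace.proj (sec_val P (h1 z) d), fun z z' h => congrArg (sec P d · a) h⟩

end

end Vale.Agent.P231Z.I7
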