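import Vale.Agent.P231Z.I7.IntB
import Vale.Agent.P231.H584.Ops

/-!
# P231, multiplicity seven, integrality: the integrality theorem for triple products
-/

set_option linter.unusedSectionVars false
set_option linter.unusedVariables false

open Bundle Manifold Set Filter Module MeasureTheory Metric
open scoped ContDiff Manifold Topology

namespace Vale.Agent.P231Z.I7

noncomputable section

open Vale.Agent.P231 Vale.Agent.P231.Fm Vale.Agent.P231.W Vale.Agent.P231.H584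

section Bump

variable {W : Type} [NormedAddCommGroup W] [NormedSpace ℝ W] [FiniteDimensional ℝ W]
  [MeasurableSpace W] [BorelSpace W]

theorem exists_bump {k : ℕ} (b : Basis (Fin k) ℝ W) (y : W) {ε : ℝ} (hε : 0 < ε) :
    ∃ v : W → Lam W, ContDiff ℝ ∞ v ∧ (∀ z, WA.prt k (v z) = v z) ∧ tsupport v ⊆ ball y ε ∧
      TW.JJ b v ≠ 0 := by
  obtain ⟨τ, h1, h2⟩ := exists_top b
  let f : ContDiffBump y := ⟨ε / 4, ε / 2, by positivity, by linarith⟩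
  refine ⟨fun z => f z • τ, f.contDiff.smul contDiff_const,
    fun z => DegC.q_iff_prt.1 (h2.smul _), ?_, ?_⟩
  · refine (tsupport_smul_subset_left (fun z => f z) fun _ => τ).trans ?_
    have h3 : tsupport (fun z => f z) = closedBall y (ε / 2) := f.tsupport_eq
    rw [h3]
    exact closedBall_subset_ball (half_lt_self hε)
  · have h3 : TW.JJ b (fun z => f z • τ) = ∫ z, f z ∂b.addHaar := by
      refine integral_congr_ae (Eventually.of_forall fun z => ?_)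
      have h4 : evalForm (f z • τ) b = f z * evalForm τ b := map_smul (evalL b) _ _
      change evalForm (f z • τ) b = f z
      rw [h4, h1, mul_one]
    rw [h3]
    exact (f.integral_pos (μ := b.addHaar)).ne'

end Bump

variable {E : Type*} [NormedAddCommGroup E] [NormedSpace ℝ E]
  {M : Type*} [MetricSpace M] [ChartedSpace E M]
  {A W : Type} [NormedAddCommGroup A] [NormedSpace ℝ A] [FiniteDimensional ℝ A]
  [NormedAddCommGroup W] [NormedSpace ℝ W] [FiniteDimensional ℝ W]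
  [MeasurableSpace W] [BorelSpace W]
  {G : Form (dM E M)} {κ : ℝ} {bW : Basis (Fin 8) ℝ W} {q : M} {O O' : Set M}
  {N : M → W} {L : M → A} {Ψ : A × M → M} {δ : ℝ}

namespace Model

variable (hM : Model G κ bW q O O' N L Ψ δ)
include hM

theorem dimW : finrank ℝ W = 8 := by
  rw [finrank_eq_card_basis bW, Fintype.card_fin]

theorem map_a (a : A) : (dM E M).Map (dM E M) (fun x => Ψ (a, x)) := fun h =>
  hM.mΨ ⟨Sm.of_contDiff contDiff_const _, h⟩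

theorem map_t (a : A) :
    ((dM E M).prod (Dif.lin ℝ)).Map (dM E M) (fun p : M × ℝ => Ψ (p.2 • a, p.1)) := by
  intro V _ _ _ u x h
  have h2 : Sm (fun y => (u y).2) x := h.2
  have h3 : Sm (fun y => (u y).2 • a) x := by
    filter_upwards [h2] with y hy using hy.smul contDiffAt_const
  exact hM.mΨ (u := fun y => ((u y).2 • a, (u y).1)) ⟨h3, h.1⟩

/-- the perturbations do not change the classes -/
theorem pull_a (a : A) {w : Form (dM E M)} (hw : w.d = 0) :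
    ∃ η : Form (dM E M), Form.pull (fun x => Ψ (a, x)) (hM.map_a a) w = w + η.d := by
  have h1 := homotopy' (Form.pull _ (hM.map_t a) w)
  rw [← Form.pull_d, hw, at_pull_of, at_pull_of] at h1
  have h2 : Form.pull (fun x => Ψ ((1 : ℝ) • a, x)) (map_at (hM.map_t a) 1) w =
      Form.pull (fun x => Ψ (a, x)) (hM.map_a a) w := by
    congr 1
    funext x
    rw [one_smul]
  have h3 : Form.pull (fun x => Ψ ((0 : ℝ) • a, x)) (map_at (hM.map_t a) 0) w = w := by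
    refine Eq.trans ?_ (Form.pull_id (fun h => h) w)
    congr 1
    funext x
    rw [zero_smul, hM.Ψ0]
    rfl
  have h4 : Form.pull (fun p : M × ℝ => Ψ (p.2 • a, p.1)) (hM.map_t a) 0 = 0 :=
    map_zero (Form.pullA _ (hM.map_t a))
  rw [h2, h3, h4, K_zero, zero_add] at h1
  exact ⟨_, (sub_eq_iff_eq_add'.1 h1)⟩

variable {V : Type} [NormedAddCommGroup V] [NormedSpace ℝ V] [FiniteDimensional ℝ V]
  {K : Set V} {u : V → M}

theorem res_Q (hu : ∀ z ∈ K, (dM E M).At u z) :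
    Res (fun z (a : A) (y : W) => z ∈ K ∧ ‖a‖ < δ ∧ Ψ (a, u z) = q) 8 := by
  refine ⟨W, inferInstance, inferInstance, inferInstance, fun p => (L (u p.1), p.2),
    {p | p.1 ∈ K ∧ u p.1 ∈ O'}, hM.dimW, fun p hp => ?_, fun z a y h => ?_⟩
  · have h1 : Sm (L ∘ u) p.1 := hM.mL (at_on (hu _ hp.1) hM.oO' hp.2)
    exact (h1.differentiableAt.comp p differentiableAt_fst).prodMk differentiableAt_snd
  · obtain ⟨h1, h2⟩ := hM.Ψq a (u z) h.2.1 h.2.2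
    exact ⟨y, ⟨h.1, h1⟩, Prod.ext h2 rfl⟩

theorem res_F (hu : ∀ z ∈ K, (dM E M).At u z) :
    Res (fun z (a : A) (y : W) => z ∈ K ∧ Ψ (a, u z) ∈ O ∧ N (Ψ (a, u z)) = y) 16 := by
  refine ⟨A, inferInstance, inferInstance, inferInstance, fun p => (p.2, N (Ψ (p.2, u p.1))),
    {p | p.1 ∈ K ∧ Ψ (p.2, u p.1) ∈ O}, hM.dimA, fun p hp => ?_, fun z a y h => ?_⟩
  · have h0 : (dM E M).At (u ∘ (Prod.fst : V × A → V)) p :=
      (dM E M).comp (u := u) (g := Prod.fst) (hu _ hp.1) (Sm.of_contDiff contDiff_fst _)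
    have h1 : (dM E M).At (Ψ ∘ fun p : V × A => (p.2, u p.1)) p :=
      hM.mΨ (u := fun p : V × A => (p.2, u p.1)) ⟨Sm.of_contDiff contDiff_snd _, h0⟩
    have h2 : Sm (N ∘ (Ψ ∘ fun p : V × A => (p.2, u p.1))) p := hM.mN (at_on h1 hM.oO hp.2)
    exact differentiableAt_snd.prodMk h2.differentiableAt
  · exact ⟨a, ⟨h.1, h.2.1⟩, by rw [← h.2.2]⟩

/-- generic parameters -/
theorem exists_gen {ι : Type} [Finite ι] {K : ι → Set (W × W × W)}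
    {u₁ u₂ u₃ : ι → W × W × W → M} (h₁ : ∀ i, ∀ z ∈ K i, (dM E M).At (u₁ i) z)
    (h₂ : ∀ i, ∀ z ∈ K i, (dM E M).At (u₂ i) z) (h₃ : ∀ i, ∀ z ∈ K i, (dM E M).At (u₃ i) z)
    (hK : ∀ i, IsCompact (K i))
    (hf : ∀ i, (TW.pB bW (TW.pB bW bW)).addHaar (frontier (K i)) = 0) :
    ∃ (a : A × A × A) (y : W × W × W), y ∈ ball (0 : W × W × W) δ ∧ ∀ i, ∀ z ∈ K i,
      (Ψ (a.1, u₁ i z) = q ∨ (Ψ (a.1, u₁ i z) ∈ O ∧ N (Ψ (a.1, u₁ i z)) = y.2.2)) →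
      (Ψ (a.2.1, u₂ i z) = q ∨ (Ψ (a.2.1, u₂ i z) ∈ O ∧ N (Ψ (a.2.1, u₂ i z)) = y.2.1)) →
      (Ψ (a.2.2, u₃ i z) = q ∨ (Ψ (a.2.2, u₃ i z) ∈ O ∧ N (Ψ (a.2.2, u₃ i z)) = y.1)) →
      z ∉ frontier (K i) ∧ Ψ (a.1, u₁ i z) ≠ q ∧ Ψ (a.2.1, u₂ i z) ≠ q ∧
        Ψ (a.2.2, u₃ i z) ≠ q := by
  borelize A
  let μA : Measure (A × A × A) := Measure.addHaar
  let μW : Measure (W × W × W) := (TW.pB bW (TW.pB bW bW)).addHaar
  have hV : finrank ℝ (W × W × W) = 24 := by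
    simp only [finrank_prod, hM.dimW]
  have h1 := ae_all_iff.2 fun i => null_bad (μA.prod μW) hV hM.dimA hM.dimW
    (hM.res_Q (h₁ i)) (hM.res_Q (h₂ i)) (hM.res_Q (h₃ i))
    (hM.res_F (h₁ i)) (hM.res_F (h₂ i)) (hM.res_F (h₃ i))
  obtain ⟨a, ha, ha'⟩ := (Measure.dense_of_ae (Measure.ae_ae_of_ae_prod h1)).exists_mem_open
    isOpen_ball ⟨0, mem_ball_self hM.pos⟩
  rw [mem_ofPred_eq] at ha
  let S : ι → Set (W × W × W) := fun i => {z | z ∈ frontier (K i) ∧ Ψ (a.1, u₁ i z) ∈ O ∧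
    Ψ (a.2.1, u₂ i z) ∈ O ∧ Ψ (a.2.2, u₃ i z) ∈ O}
  let f : ι → W × W × W → W × W × W := fun i z =>
    (N (Ψ (a.2.2, u₃ i z)), N (Ψ (a.2.1, u₂ i z)), N (Ψ (a.1, u₁ i z)))
  have h2 : ∀ i, μW (f i '' S i) = 0 := fun i => by
    refine addHaar_image_eq_zero_of_differentiableOn_of_addHaar_eq_zero μW (fun z hz => ?_)
      (measure_mono_null (fun z hz => hz.1) (hf i))
    have hzK : z ∈ K i := (hK i).isClosed.frontier_subset hz.1
    have k₁ : Sm (N ∘ ((fun x => Ψ (a.1, x)) ∘ u₁ i)) z :=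
      hM.mN (at_on (hM.map_a _ (h₁ i z hzK)) hM.oO hz.2.1)
    have k₂ : Sm (N ∘ ((fun x => Ψ (a.2.1, x)) ∘ u₂ i)) z :=
      hM.mN (at_on (hM.map_a _ (h₂ i z hzK)) hM.oO hz.2.2.1)
    have k₃ : Sm (N ∘ ((fun x => Ψ (a.2.2, x)) ∘ u₃ i)) z :=
      hM.mN (at_on (hM.map_a _ (h₃ i z hzK)) hM.oO hz.2.2.2)
    exact (k₃.differentiableAt.prodMk
      (k₂.differentiableAt.prodMk k₁.differentiableAt)).differentiableWithinAt
  have h3 := ae_all_iff.2 fun i => measure_eq_zero_iff_ae_notMem.1 (h2 i)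
  obtain ⟨y, hy, hy'⟩ := (Measure.dense_of_ae (ha.and h3)).exists_mem_open
    isOpen_ball ⟨0, mem_ball_self hM.pos⟩
  rw [mem_ball_zero_iff] at ha'
  have n₁ : ‖a.1‖ < δ := (norm_fst_le a).trans_lt ha'
  have n₂ : ‖a.2.1‖ < δ := ((norm_fst_le a.2).trans (norm_snd_le a)).trans_lt ha'
  have n₃ : ‖a.2.2‖ < δ := ((norm_snd_le a.2).trans (norm_snd_le a)).trans_lt ha'
  refine ⟨a, y, hy', fun i z hz e₁ e₂ e₃ => ?_⟩
  obtain ⟨g₁, g₂, g₃⟩ := hy.1 i z (e₁.imp (fun h => ⟨hz, n₁, h⟩) fun h => ⟨hz, h⟩)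
    (e₂.imp (fun h => ⟨hz, n₂, h⟩) fun h => ⟨hz, h⟩)
    (e₃.imp (fun h => ⟨hz, n₃, h⟩) fun h => ⟨hz, h⟩)
  have p₁ : Ψ (a.1, u₁ i z) ≠ q := fun h => g₁ ⟨hz, n₁, h⟩
  have p₂ : Ψ (a.2.1, u₂ i z) ≠ q := fun h => g₂ ⟨hz, n₂, h⟩
  have p₃ : Ψ (a.2.2, u₃ i z) ≠ q := fun h => g₃ ⟨hz, n₃, h⟩
  refine ⟨fun hfr => hy.2 i ⟨z, ⟨hfr, (e₁.resolve_left p₁).1, (e₂.resolve_left p₂).1,
    (e₃.resolve_left p₃).1⟩, ?_⟩, p₁, p₂, p₃⟩
  exact Prod.ext (e₃.resolve_left p₃).2 (Prod.ext (e₂.resolve_left p₂).2 (e₁.resolve_left p₁).2)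

end Model

theorem X3_val {X : Type*} {D : Dif X} (a b c : Form D) {V : Type} [NormedAddCommGroup V]
    [NormedSpace ℝ V] [FiniteDimensional ℝ V] {u : V → X × X × X} {z : V}
    (hu : (D.prod (D.prod D)).At u z) : (X3 a b c).val u z =
      a.val (fun y => (u y).1) z * (b.val (fun y => (u y).2.1) z * c.val (fun y => (u y).2.2) z) := by
  rw [X3, Form.mul_val, Form.mul_val, Form.pull_val _ _ hu, Form.pull_val _ _ hu,
    Form.pull_val _ _ hu]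
  rfl

theorem sign_of_abs {c κ j : ℝ} (hκ : 0 < κ) (h : |c| * κ = |j|) :
    ∃ s : ℤ, j = s * (c * κ) := by
  rw [← abs_of_pos hκ, ← abs_mul] at h
  rcases abs_eq_abs.1 h with h | h
  · exact ⟨1, by rw [← h]; simp⟩
  · exact ⟨-1, by rw [h]; simp⟩

/-- **integrality of the triple products** -/
theorem int3 (hM : Model G κ bW q O O' N L Ψ δ) (hG : G.d = 0) (hκ : 0 < κ)
    {Λ : Form ((dM E M).prod ((dM E M).prod (dM E M))) → ℝ} (hΛ : Rep _ (8 + 8 + 8) Λ) {t : ℝ}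
    (hT : ∀ (w₁ w₂ w₃ η₁ η₂ η₃ : Form (dM E M)) (c₁ c₂ c₃ : ℝ), Form.IsDeg 8 w₁ →
      Form.IsDeg 8 w₂ → Form.IsDeg 8 w₃ → w₁ = c₁ • G + η₁.d → w₂ = c₂ • G + η₂.d →
      w₃ = c₃ • G + η₃.d → Λ (X3 w₁ w₂ w₃) = c₁ * c₂ * c₃ * t) :
    ∃ k : ℤ, t = k * κ ^ 3 := by
  obtain ⟨ι, _, C, s, hC⟩ := hΛ.exists_family
  choose K c hK hf hc hI using fun i => (C i).norm (TW.pB bW (TW.pB bW bW))
  obtain ⟨a, y, hy, hgen⟩ := hM.exists_gen (K := K) (u₁ := fun i z => (c i z).1)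
    (u₂ := fun i z => (c i z).2.1) (u₃ := fun i z => (c i z).2.2) (fun i z hz => (hc i z hz).1)
    (fun i z hz => (hc i z hz).2.1) (fun i z hz => (hc i z hz).2.2) hK hf
  have h1 := eventually_all.2 fun i => deg3 hM.oO hM.mN hM.cl bW (hK i)
    (u₁ := fun z => Ψ (a.1, (c i z).1)) (u₂ := fun z => Ψ (a.2.1, (c i z).2.1))
    (u₃ := fun z => Ψ (a.2.2, (c i z).2.2)) (fun z hz => hM.map_a _ (hc i z hz).1)
    (fun z hz => hM.map_a _ (hc i z hz).2.1) (fun z hz => hM.map_a _ (hc i z hz).2.2) y (hgen i)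
  rw [mem_ball_zero_iff] at hy
  obtain ⟨ε, hd, hε⟩ := (h1.and (Ioo_mem_nhdsGT (sub_pos.2 hy))).exists
  choose d hd using hd
  have hb : ∀ x : W, ‖x‖ ≤ ‖y‖ → ball x ε ⊆ ball 0 δ := fun x hx =>
    ball_subset_ball' (by rw [dist_zero_right]; linarith [hε.2])
  obtain ⟨v₁, a₁, b₁, t₁, j₁⟩ := exists_bump bW y.2.2 hε.1
  obtain ⟨v₂, a₂, b₂, t₂, j₂⟩ := exists_bump bW y.2.1 hε.1
  obtain ⟨v₃, a₃, b₃, t₃, j₃⟩ := exists_bump bW y.1 hε.1
  obtain ⟨w₁, η₁, c₁, g₁, e₁, r₁, l₁⟩ := hM.form ε hε.1 v₁ a₁ b₁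
    (t₁.trans (hb _ ((norm_snd_le y.2).trans (norm_snd_le y))))
  obtain ⟨w₂, η₂, c₂, g₂, e₂, r₂, l₂⟩ := hM.form ε hε.1 v₂ a₂ b₂
    (t₂.trans (hb _ ((norm_fst_le y.2).trans (norm_snd_le y))))
  obtain ⟨w₃, η₃, c₃, g₃, e₃, r₃, l₃⟩ := hM.form ε hε.1 v₃ a₃ b₃
    (t₃.trans (hb _ (norm_fst_le y)))
  have hcl : ∀ {w η : Form (dM E M)} {c : ℝ}, w = c • G + η.d → ∀ a : A, ∃ η' : Form (dM E M),
      Form.pull (fun x => Ψ (a, x)) (hM.map_a a) w = c • G + η'.d := by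
    intro w η c h a
    obtain ⟨η', h'⟩ := hM.pull_a a (w := w) (by
      rw [h, Form.d_add, Form.d_smul, hG, Form.d_d, smul_zero, add_zero])
    exact ⟨η + η', by rw [h', h, Form.d_add, add_assoc]⟩
  obtain ⟨η₁', f₁⟩ := hcl e₁ a.1
  obtain ⟨η₂', f₂⟩ := hcl e₂ a.2.1
  obtain ⟨η₃', f₃⟩ := hcl e₃ a.2.2
  have h2 := hT _ _ _ _ _ _ _ _ _ (g₁.pull _ _) (g₂.pull _ _) (g₃.pull _ _) f₁ f₂ f₃
  have h3 : ∀ i, (C i).I (X3 (Form.pull (fun x => Ψ (a.1, x)) (hM.map_a a.1) w₁)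
      (Form.pull (fun x => Ψ (a.2.1, x)) (hM.map_a a.2.1) w₂)
      (Form.pull (fun x => Ψ (a.2.2, x)) (hM.map_a a.2.2) w₃)) =
      d i * (TW.JJ bW v₁ * TW.JJ bW v₂ * TW.JJ bW v₃) := fun i => by
    refine (hI i _).trans (Eq.trans ?_ (hd i w₁ w₂ w₃ v₁ v₂ v₃ a₁ a₂ a₃ t₁ t₂ t₃ l₁ l₂ l₃))
    refine setIntegral_congr_fun (hK i).measurableSet fun z hz => ?_
    have k := hc i z hz
    have k1 : (dM E M).At (fun y => (c i y).1) z := k.1
    have k2 : (dM E M).At (fun y => (c i y).2.1) z := k.2.1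
    have k3 : (dM E M).At (fun y => (c i y).2.2) z := k.2.2
    have k4 : (X3 (Form.pull (fun x => Ψ (a.1, x)) (hM.map_a a.1) w₁)
        (Form.pull (fun x => Ψ (a.2.1, x)) (hM.map_a a.2.1) w₂)
        (Form.pull (fun x => Ψ (a.2.2, x)) (hM.map_a a.2.2) w₃)).val (c i) z =
        w₁.val (fun z => Ψ (a.1, (c i z).1)) z * (w₂.val (fun z => Ψ (a.2.1, (c i z).2.1)) z *
          w₃.val (fun z => Ψ (a.2.2, (c i z).2.2)) z) := by
      rw [X3_val _ _ _ k, Form.pull_val _ _ k1, Form.pull_val _ _ k2, Form.pull_val _ _ k3]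
      rfl
    rw [k4]
  rw [hC] at h2
  simp only [h3] at h2
  obtain ⟨s₁, q₁⟩ := sign_of_abs hκ r₁
  obtain ⟨s₂, q₂⟩ := sign_of_abs hκ r₂
  obtain ⟨s₃, q₃⟩ := sign_of_abs hκ r₃
  have n₁ : c₁ ≠ 0 := fun h => j₁ (by rw [q₁, h, zero_mul, mul_zero])
  have n₂ : c₂ ≠ 0 := fun h => j₂ (by rw [q₂, h, zero_mul, mul_zero])
  have n₃ : c₃ ≠ 0 := fun h => j₃ (by rw [q₃, h, zero_mul, mul_zero])
  refine ⟨(∑ i, s i * d i) * (s₁ * s₂ * s₃),
    mul_left_cancel₀ (mul_ne_zero (mul_ne_zero n₁ n₂) n₃) ?_⟩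
  rw [← h2, q₁, q₂, q₃]
  push_cast
  simp only [← mul_assoc, Finset.sum_mul, Finset.mul_sum]
  exact Finset.sum_congr rfl fun i _ => by ring

end

end Vale.Agent.P231Z.I7
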