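import Vale.Agent.P231Z.I7.ModelR
import Vale.Agent.P231.TW.Ang
import Vale.Agent.P231.FE.GG

/-!
# P231, multiplicity seven, the affine model (2): two leaves, the integral over a leaf
-/

set_option linter.unusedSectionVars false
set_option linter.unusedVariables false

open Set Filter Metric Module MeasureTheory
open scoped ContDiff Topology

namespace Vale.Agent.P231Z.I7.Md

noncomputable section

open Vale.Agent.P231 Vale.Agent.P231.Fm Vale.Agent.P231.FE

variable {V : Type*} [NormedAddCommGroup V] [InnerProductSpace ℝ V] [FiniteDimensional ℝ V]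
  {m : ℕ} {Pi : V → V →L[ℝ] V}

/-- a linear isometry into a leaf -/
theorem exists_leaf (h : Spread m Pi) {x : V} (hx : x ≠ 0) :
    ∃ S : EuclideanSpace ℝ (Fin m) →ₗᵢ[ℝ] V, ∀ w, Pi x (S w) = S w := by
  let R := LinearMap.range (Pi x : V →ₗ[ℝ] V)
  have hR : finrank ℝ R = m := h.rank x hx
  let S0 : EuclideanSpace ℝ (Fin m) ≃ₗᵢ[ℝ] R :=
    ((stdOrthonormalBasis ℝ R).reindex (finCongr hR)).repr.symm
  refine ⟨R.subtypeₗᵢ.comp S0.toLinearIsometry, fun w => ?_⟩
  obtain ⟨v, hv⟩ := (S0 w).2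
  have h1 : Pi x v = (R.subtypeₗᵢ.comp S0.toLinearIsometry) w := hv
  rw [← h1, h.idem x hx]

/-- two complementary leaves, and the projection onto the first along the second -/
theorem exists_split (h : Spread m Pi) (hm : 0 < m) (hV : finrank ℝ V = m + m) :
    ∃ (u₀ u₁ : V) (ι : EuclideanSpace ℝ (Fin m) →ₗᵢ[ℝ] V) (Q : V →L[ℝ] EuclideanSpace ℝ (Fin m)),
      ‖u₀‖ = 1 ∧ ‖u₁‖ = 1 ∧ (∀ w, Pi u₀ (ι w) = ι w) ∧ (∀ w, Q (ι w) = w) ∧
      (∀ v, Q v = 0 → Pi u₁ v = v) ∧ ∀ w, Pi u₁ (ι w) = ι w → w = 0 := by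
  have : Nontrivial V := Module.nontrivial_of_finrank_pos (R := ℝ) (by omega)
  obtain ⟨u₀, hu₀⟩ := exists_norm_eq V zero_le_one
  have h0 : u₀ ≠ 0 := by
    rw [← norm_ne_zero_iff, hu₀]
    exact one_ne_zero
  have hR : finrank ℝ (LinearMap.range (Pi u₀ : V →ₗ[ℝ] V)) = m := h.rank u₀ h0
  obtain ⟨v, hv⟩ : ∃ v, v ∉ LinearMap.range (Pi u₀ : V →ₗ[ℝ] V) := by
    by_contra hc
    have h1 : LinearMap.range (Pi u₀ : V →ₗ[ℝ] V) = ⊤ :=
      eq_top_iff.2 fun v _ => not_not.1 fun h2 => hc ⟨v, h2⟩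
    rw [h1, finrank_top] at hR
    omega
  have hv0 : v ≠ 0 := by
    rintro rfl
    exact hv (Submodule.zero_mem _)
  have hvn : 0 < ‖v‖ := norm_pos_iff.2 hv0
  set u₁ : V := ‖v‖⁻¹ • v with hu₁
  have hn1 : ‖u₁‖ = 1 := by
    rw [hu₁, norm_smul, norm_inv, norm_norm, inv_mul_cancel₀ hvn.ne']
  have h1 : u₁ ≠ 0 := by
    rw [← norm_ne_zero_iff, hn1]
    exact one_ne_zero
  have hdis : ∀ z, Pi u₀ z = z → Pi u₁ z = z → z = 0 := by
    intro z k0 k1
    by_contra hz
    have k2 : Pi u₀ = Pi u₁ := (h.rel _ _ h0 hz k0).symm.trans (h.rel _ _ h1 hz k1)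
    refine hv ⟨v, ?_⟩
    have k3 : v = ‖v‖ • u₁ := by rw [hu₁, smul_inv_smul₀ hvn.ne']
    change Pi u₀ v = v
    rw [k2, k3, map_smul, h.self _ h1]
  obtain ⟨ι, hι⟩ := exists_leaf h h0
  obtain ⟨S, hS⟩ := exists_leaf h h1
  let Φ : (EuclideanSpace ℝ (Fin m) × EuclideanSpace ℝ (Fin m)) →ₗ[ℝ] V :=
    ι.toLinearMap.coprod S.toLinearMap
  have hΦ : ∀ x y, Φ (x, y) = ι x + S y := fun x y => rfl
  have hinj : Function.Injective Φ := by
    refine (injective_iff_map_eq_zero Φ).2 ?_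
    rintro ⟨x, y⟩ hxy
    rw [hΦ] at hxy
    have k1 : ι x = -S y := eq_neg_of_add_eq_zero_left hxy
    have k2 : ι x = 0 := hdis _ (hι x) (by rw [k1, map_neg, hS])
    have k3 : S y = 0 := by rwa [k2, zero_add] at hxy
    have k4 : x = 0 := ι.injective (by rw [k2, map_zero])
    have k5 : y = 0 := S.injective (by rw [k3, map_zero])
    rw [k4, k5]
    rfl
  have hdim : finrank ℝ (EuclideanSpace ℝ (Fin m) × EuclideanSpace ℝ (Fin m)) = finrank ℝ V := by
    rw [Module.finrank_prod, finrank_euclideanSpace_fin, hV]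
  let Φ' := LinearMap.linearEquivOfInjective Φ hinj hdim
  have hΦ' : ∀ z, Φ' z = Φ z := fun z => rfl
  let Q : V →L[ℝ] EuclideanSpace ℝ (Fin m) := LinearMap.toContinuousLinearMap
    ((LinearMap.fst ℝ (EuclideanSpace ℝ (Fin m)) (EuclideanSpace ℝ (Fin m))) ∘ₗ
      Φ'.symm.toLinearMap)
  have hQ : ∀ z, Q z = (Φ'.symm z).1 := fun z => rfl
  refine ⟨u₀, u₁, ι, Q, hu₀, hn1, hι, fun w => ?_, fun z hz => ?_, fun w hw => ?_⟩
  · have k1 : ι w = Φ' (w, 0) := by rw [hΦ', hΦ, map_zero, add_zero]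
    rw [hQ, k1, Φ'.symm_apply_apply]
  · rw [hQ] at hz
    have k1 : z = S (Φ'.symm z).2 := by
      have k2 : z = Φ' ((Φ'.symm z).1, (Φ'.symm z).2) := (Φ'.apply_symm_apply z).symm
      rw [hΦ', hΦ, hz, map_zero, zero_add] at k2
      exact k2
    rw [k1, hS]
  · exact ι.injective (by rw [hdis _ (hι w) hw, map_zero])

variable [MeasurableSpace V] [BorelSpace V] {psi : V → Lam V} {κ : ℝ}

/-- the integral of `d (ρ psi)` over the ball of a leaf -/
theorem line_val (h : Spread m Pi) (A : TW.Ang m Pi psi κ) {ρ : V → ℝ} (hρ : ContDiff ℝ ∞ ρ)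
    (h0 : ρ =ᶠ[𝓝 0] 0) {r₀ D : ℝ} (hD : 0 < D) (hr : r₀ < D) (h1 : ∀ v, r₀ < ‖v‖ → ρ v = 1)
    (ι : EuclideanSpace ℝ (Fin m) →ₗᵢ[ℝ] V) {x : V} (hx : x ≠ 0) (hι : ∀ w, Pi x (ι w) = ι w) :
    |TW.JJ (TW.bE m) (pb (fun y => ι (Th D y)) (GG psi ρ))| = κ := by
  set f : EuclideanSpace ℝ (Fin m) → V := fun y => ι (Th D y) with hf
  have hfs : ContDiff ℝ ∞ f := ι.contDiff.comp (contDiff_Th D)
  have hf0 : f 0 = 0 := by
    change ι (Th D 0) = 0
    rw [Th, smul_zero, map_zero]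
  have hw : ContDiff ℝ ∞ (fun v => ρ v • psi v) := by
    refine contDiff_iff_contDiffAt.2 fun v => ?_
    rcases eq_or_ne v 0 with rfl | hv
    · refine contDiffAt_const.congr_of_eventuallyEq (f := fun _ => (0 : Lam V)) ?_
      filter_upwards [h0] with w hw
      have hw' : ρ w = 0 := hw
      rw [hw', zero_smul]
    · exact FE.sm_smul hρ.contDiffAt (A.at hv)
  have hinj : Function.Injective ι.toContinuousLinearMap := ι.injective
  let σ : EuclideanSpace ℝ (Fin m) → Lam (EuclideanSpace ℝ (Fin m)) := pb ι psi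
  have hσ : ContDiffOn ℝ ∞ σ {0}ᶜ := A.smooth_pb (T := ι.toContinuousLinearMap) hinj
  have hσ0 : ∀ y ≠ 0, evalForm (extd σ y) (TW.bE m) = 0 := fun y hy =>
    TW.Ang.extd_pb_lin h A (T := ι.toContinuousLinearMap) hinj hx hι (TW.bE m) hy
  let r : EuclideanSpace ℝ (Fin m) → ℝ := fun y => ρ (f y)
  have hr' : Q.Cut r (closedBall 0 1) :=
    { smooth := hρ.comp hfs
      compact := isCompact_closedBall _ _
      one := fun y hy => by
        rw [mem_closedBall_zero_iff, not_le] at hy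
        refine h1 _ ?_
        change r₀ < ‖ι (Th D y)‖
        rw [ι.norm_map, norm_Th_big hD (by linarith)]
        exact hr
      zero := by
        have k1 : Tendsto f (𝓝 0) (𝓝 0) := by
          have := hfs.continuous.tendsto 0
          rwa [hf0] at this
        exact k1.eventually h0 }
  have e2 : pb f (fun v => ρ v • psi v) = fun y => r y • σ y := by
    funext y
    have k1 : pb f (fun v => ρ v • psi v) y = r y • pb f psi y := map_smul _ _ _
    rw [k1]
    rcases eq_or_ne y 0 with rfl | hy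
    · rw [hr'.zero.self_of_nhds, zero_smul, zero_smul]
    · have k2 : ι y ≠ 0 := fun k3 => hy (ι.injective (by rw [k3, map_zero]))
      have k4 : ∀ z, f z = (D * th z) • ι z := fun z => map_smul ι _ _
      have k5 : f y ≠ 0 := by
        rw [k4]
        exact smul_ne_zero (mul_pos hD (th_pos y)).ne' k2
      rw [TW.Hom.pb_smul A.hom (g := ι) (hfs.differentiable (by simp) y)
        ι.toContinuousLinearMap.differentiableAt k5 (Eventually.of_forall fun z => by
          rw [k4]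
          exact rad_smul _ (mul_pos hD (th_pos z))) k2]
  have e3 : ∀ z, evalForm (pb f (GG psi ρ) z) (TW.bE m) =
      evalForm (Q.dR r z * σ z) (TW.bE m) := by
    intro z
    have k1 : pb f (GG psi ρ) z = extd (fun y => r y • σ y) z := by
      rw [← e2]
      exact (extd_pb (hfs.contDiffAt.of_le two_le_infty) (hw.differentiable (by simp) _)).symm
    rw [k1]
    rcases eq_or_ne z 0 with rfl | hz
    · have k2 : (fun y => r y • σ y) =ᶠ[𝓝 0] fun _ => 0 := by
        filter_upwards [hr'.zero] with y hy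
        rw [hy, zero_smul]
      rw [extd_congr k2, extd_const, hr'.dR_near.self_of_nhds, zero_mul]
    · rw [extd_smul (hr'.smooth.differentiable (by simp) z)
        ((hσ.contDiffAt (isOpen_compl_singleton.mem_nhds hz)).differentiableAt (by simp)),
        Q.evalForm_add, Q.evalForm_smul, hσ0 z hz, mul_zero, add_zero]
      rfl
  have e4 := cut_indep (TW.bE m).addHaar (TW.bE m) hσ hσ0 hr' cut_rst
  unfold TW.JJ
  simp only [e3]
  rw [e4]
  exact A.kappa ι x hx hι

end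

end Vale.Agent.P231Z.I7.Md
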