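import Vale.Agent.P231.TW.Prod
import Vale.Agent.P231.Q.Base
import Vale.Agent.P231.Co.On
import Vale.Agent.P231.WA.Deg

/-!
# P231, multiplicity seven, the affine model (3): extension by zero, correction near a point,
integrals over a line
-/

set_option linter.unusedSectionVars false
set_option linter.unusedVariables false

open Set Filter Metric Module MeasureTheory
open scoped ContDiff Topology

namespace Vale.Agent.P231Z.I7.Md

noncomputable section

open Vale.Agent.P231 Vale.Agent.P231.Fm Vale.Agent.P231.WA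

section Top

variable {W : Type*} [NormedAddCommGroup W] [NormedSpace ℝ W] [FiniteDimensional ℝ W]

/-- forms of top degree are closed -/
theorem extd_top {k : ℕ} (hk : finrank ℝ W ≤ k) {w₀ : W → Lam W} (hw : ContDiff ℝ ∞ w₀)
    (hd : ∀ y, prt k (w₀ y) = w₀ y) (y : W) : extd w₀ y = 0 := by
  have h1 : HasFDerivAt w₀ (prtL k ∘L fderiv ℝ w₀ y) y := by
    have h2 : HasFDerivAt (fun x => prtL k (w₀ x)) (prtL k ∘L fderiv ℝ w₀ y) y :=
      (prtL (E := W) k).hasFDerivAt.comp y (hw.differentiable (by simp) y).hasFDerivAt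
    have h3 : (fun x => prtL k (w₀ x)) = w₀ := funext hd
    rwa [h3] at h2
  rw [extd_of h1, ← prt_succ_dLin, prt_eq_zero (by omega)]

end Top

section Ext

variable {X : Type*} [TopologicalSpace X] {DX : Dif X}
  {W : Type} [NormedAddCommGroup W] [NormedSpace ℝ W] [FiniteDimensional ℝ W]

/-- the data for the extension by zero of a pull-back -/
structure EData (DX : Dif X) (O S P : Set X) (N : X → W) (w₀ : W → Lam W) : Prop where
  cont : ∀ {V : Type} [NormedAddCommGroup V] [NormedSpace ℝ V] [FiniteDimensional ℝ V]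
    {u : V → X} {x : V}, DX.At u x → ContinuousAt u x
  oO : IsOpen O
  cS : IsClosed S
  mN : (DX.on O).Map (Dif.lin W) N
  sm : ContDiff ℝ ∞ w₀
  cov : ∀ x ∈ P, x ∉ O → x ∉ S
  van : ∀ x ∈ O, x ∉ S → w₀ (N x) = 0

open Classical in
/-- the value of the extension on plots -/
def ev (O : Set X) (N : X → W) (w₀ : W → Lam W) {V : Type} [NormedAddCommGroup V]
    [NormedSpace ℝ V] [FiniteDimensional ℝ V] (u : V → X) (x : V) : Lam V :=
  if u x ∈ O then pb (N ∘ u) w₀ x else 0

variable {O S P : Set X} {N : X → W} {w₀ : W → Lam W}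
  {V : Type} [NormedAddCommGroup V] [NormedSpace ℝ V] [FiniteDimensional ℝ V]

theorem ev_in {u : V → X} {x : V} (hx : u x ∈ O) : ev O N w₀ u x = pb (N ∘ u) w₀ x := by
  unfold ev
  rw [if_pos hx]

theorem ev_out {u : V → X} {x : V} (hx : u x ∉ O) : ev O N w₀ u x = 0 := by
  unfold ev
  rw [if_neg hx]

theorem EData.sm_N (h : EData DX O S P N w₀) {u : V → X} {x : V} (hu : DX.At u x)
    (hx : u x ∈ O) : Sm (N ∘ u) x :=
  h.mN ⟨hu, (h.cont hu).eventually (h.oO.mem_nhds hx)⟩

theorem EData.loc (h : EData DX O S P N w₀) {u : V → X} {x : V} (hu : (DX.on P).At u x) :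
    (Sm (N ∘ u) x ∧ ev O N w₀ u =ᶠ[𝓝 x] pb (N ∘ u) w₀) ∨ ev O N w₀ u =ᶠ[𝓝 x] fun _ => 0 := by
  have hc := h.cont hu.1
  by_cases hx : u x ∈ O
  · left
    refine ⟨h.sm_N hu.1 hx, ?_⟩
    filter_upwards [hc.eventually (h.oO.mem_nhds hx)] with y hy using ev_in hy
  · right
    have h1 : u x ∈ Sᶜ := h.cov _ hu.2.self_of_nhds hx
    filter_upwards [hc.eventually (h.cS.isOpen_compl.mem_nhds h1)] with y hy
    by_cases h2 : u y ∈ O
    · rw [ev_in h2, pb]
      have h3 : w₀ ((N ∘ u) y) = 0 := h.van _ h2 hy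
      rw [h3, map_zero]
    · exact ev_out h2

/-- the extension by zero -/
def EData.form (h : EData DX O S P N w₀) : Form (DX.on P) :=
  Form.mk' (fun {V} _ _ _ u x => ev O N w₀ u x)
    (fun {V} _ _ _ {u x} hu => by
      rcases h.loc hu with ⟨h1, h2⟩ | h2
      · exact (contDiffAt_pb (m := ∞) (n := ∞) h1.contDiffAt h.sm.contDiffAt
          (by simp)).congr_of_eventuallyEq h2
      · exact contDiffAt_const.congr_of_eventuallyEq h2)
    (fun {V V'} _ _ _ _ _ _ {u g x} hu hg => by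
      by_cases hx : u (g x) ∈ O
      · rw [ev_in hx, ev_in (u := u ∘ g) hx]
        exact pb_comp (f := g) (g := N ∘ u) w₀ (h.sm_N hu.1 hx).differentiableAt
          hg.differentiableAt
      · rw [ev_out hx, ev_out (u := u ∘ g) hx, map_zero])
    (fun {V} _ _ _ {u v x} hu huv => by
      have h1 : u x = v x := huv.self_of_nhds
      by_cases hx : u x ∈ O
      · rw [ev_in hx, ev_in (u := v) (h1 ▸ hx)]
        exact pb_congr w₀ (huv.fun_comp N)
      · rw [ev_out hx, ev_out (u := v) (h1 ▸ hx)])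

theorem EData.form_val (h : EData DX O S P N w₀) {u : V → X} {x : V} (hu : (DX.on P).At u x) :
    h.form.val u x = ev O N w₀ u x := Form.mk'_val (D := DX.on P) hu

theorem EData.form_deg (h : EData DX O S P N w₀) {k : ℕ} (hk : ∀ y, prt k (w₀ y) = w₀ y) :
    Form.IsDeg k h.form := Form.ext_val fun V _ _ _ u x hu => by
  rw [Form.part_val, h.form_val hu]
  by_cases hx : u x ∈ O
  · rw [ev_in hx, pb, prt_pull, hk]
  · rw [ev_out hx, map_zero]

theorem EData.form_d (h : EData DX O S P N w₀) (hd : ∀ y, extd w₀ y = 0) : h.form.d = 0 :=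
  Form.ext_val fun V _ _ _ u x hu => by
    rw [Form.d_val _ hu, Form.zero_val]
    have h0 : h.form.val u =ᶠ[𝓝 x] ev O N w₀ u := by
      filter_upwards [(DX.on P).open' hu] with y hy using h.form_val hy
    rcases h.loc hu with ⟨h1, h2⟩ | h2
    · rw [extd_congr (h0.trans h2), extd_pb (h1.contDiffAt.of_le two_le_infty)
        (h.sm.differentiable (by simp) _), pb, hd, map_zero]
    · rw [extd_congr (h0.trans h2), extd_const]

end Ext

section Corr

variable {X : Type*} {DX : Dif X}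

/-- a closed form on `P` which is exact on `B` is cut off to a closed form on the space -/
theorem exists_corr {P B : Set X} (hBP : B ⊆ P) {θ : Form DX} (h1 : θ.Supp P)
    (h2 : θ.d.Supp B) (h0 : Form.IsDeg 0 θ) {σ : Form (DX.on P)} {k : ℕ}
    (hσ : Form.IsDeg (k + 1) σ) (hd : σ.d = 0) {ν : Form (DX.on B)}
    (hν : Form.pull id (Dif.map_on_mono hBP) σ = ν.d) :
    ∃ w : Form DX, Form.IsDeg (k + 1) w ∧ w.d = 0 ∧
      ∀ {V : Type} [NormedAddCommGroup V] [NormedSpace ℝ V] [FiniteDimensional ℝ V]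
        {u : V → X} {x : V}, DX.At u x → (∀ᶠ y in 𝓝 x, θ.val u y = 1) →
        w.val u x = σ.val u x := by
  have hν' : (Form.part k ν).d = Form.pull id (Dif.map_on_mono hBP) σ := by
    rw [← Form.part_succ_d, ← hν]
    exact (hσ.pull id (Dif.map_on_mono hBP)).part_eq
  have hsg : θ.sg = θ := h0.sg_of_even ⟨0, rfl⟩
  refine ⟨Form.mx θ h1 σ + Form.mx θ.d h2 (Form.part k ν), ?_, ?_, ?_⟩
  · refine Form.ext_val fun V _ _ _ u x hu => ?_
    rw [Form.part_val, Form.add_val, Form.mx_val, Form.mx_val, map_add]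
    have k1 : prt 0 (θ.val u x) = θ.val u x := by rw [← Form.part_val, h0.part_eq]
    have k2 : prt (k + 1) (σ.val u x) = σ.val u x := by rw [← Form.part_val, hσ.part_eq]
    have k3 : prt (0 + 1) (θ.d.val u x) = θ.d.val u x := by rw [← Form.part_val, h0.d.part_eq]
    have k4 : prt k ((Form.part k ν).val u x) = (Form.part k ν).val u x := by
      rw [← Form.part_val, Form.part_part_self]
    have k5 := prt_mul_of_eq k1 k2
    have k6 := prt_mul_of_eq k3 k4
    rw [Nat.zero_add] at k5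
    rw [Nat.zero_add, Nat.add_comm 1 k] at k6
    rw [k5, k6]
  · refine Form.ext_val fun V _ _ _ u x hu => ?_
    rw [Form.d_add, Form.mx_d, Form.mx_d, Form.add_val, Form.add_val, Form.add_val, Form.mx_val,
      Form.mx_val, Form.mx_val, Form.mx_val, hd, Form.d_d, Form.sg_d_of_even hsg, hν',
      Form.zero_val, Form.zero_val, Form.neg_val, mul_zero, zero_mul, add_zero,
      zero_add]
    rcases h2.out hu with k1 | k1
    · rw [Form.pull_val _ _ (D := DX.on B) ⟨hu, k1⟩, neg_mul]
      exact add_neg_cancel _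
    · rw [k1.self_of_nhds, neg_zero, zero_mul, zero_mul, add_zero]
  · intro V _ _ _ u x hu hθ
    rw [Form.add_val, Form.mx_val, Form.mx_val, hθ.self_of_nhds, one_mul, Form.d_val _ hu,
      extd_congr (v := fun _ => 1) hθ, extd_const, zero_mul, add_zero]

end Corr

section Line

variable {X : Type*} {DX : Dif X}
  {W : Type} [NormedAddCommGroup W] [NormedSpace ℝ W] [FiniteDimensional ℝ W]
  [MeasurableSpace W] [BorelSpace W] {ℓ : W → X} {x₀ : X}

theorem prt_out (hp : ∀ z, DX.At ℓ z) (hc : ∀ z, 1 ≤ ‖z‖ → ℓ z = x₀) (a : Form DX) (j : ℕ)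
    {z : W} (hz : z ∉ closedBall (0 : W) 1) : prt (j + 1) (a.val ℓ z) = 0 := by
  rw [mem_closedBall_zero_iff, not_le] at hz
  have h1 : ℓ =ᶠ[𝓝 z] ℓ ∘ fun _ : W => z := by
    filter_upwards [continuous_norm.continuousAt.eventually (lt_mem_nhds hz)] with y hy
    exact (hc y hy.le).trans (hc z hz.le).symm
  rw [a.congr (hp z) h1, a.nat (u := ℓ) (g := fun _ : W => z) (x := z) (hp z)
    (Sm.of_contDiff contDiff_const _)]
  refine TW.prt_pull_eq_zero ?_ _
  have h2 : fderiv ℝ (fun _ : W => z) z = 0 := by simp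
  rw [h2, TW.rk]
  have h3 : LinearMap.range ((0 : W →L[ℝ] W) : W →ₗ[ℝ] W) = ⊥ := LinearMap.range_zero
  rw [h3, finrank_bot]
  omega

theorem cd_line (hp : ∀ z, DX.At ℓ z) (a : Form DX) : ContDiff ℝ ∞ (a.val ℓ) :=
  contDiff_iff_contDiffAt.2 fun z => a.smooth (hp z)

theorem intg_line (hp : ∀ z, DX.At ℓ z) (hc : ∀ z, 1 ≤ ‖z‖ → ℓ z = x₀) {k : ℕ}
    (b : Basis (Fin (k + 1)) ℝ W) (a : Form DX) :
    Integrable (fun z => evalForm (a.val ℓ z) b) b.addHaar := by
  refine Continuous.integrable_of_hasCompactSupport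
    ((evalL b).continuous.comp (cd_line hp a).continuous) ?_
  refine HasCompactSupport.intro (isCompact_closedBall (0 : W) 1) fun z hz => ?_
  rw [← evalForm_prt, prt_out hp hc a k hz, Q.evalForm_zero]

/-- Stokes on a line -/
theorem JJ_line (hp : ∀ z, DX.At ℓ z) (hc : ∀ z, 1 ≤ ‖z‖ → ℓ z = x₀) {k : ℕ}
    (b : Basis (Fin (k + 1 + 1)) ℝ W) (G η : Form DX) (c : ℝ) :
    TW.JJ b ((c • G + η.d).val ℓ) = c * TW.JJ b (G.val ℓ) := by
  have h1 : TW.JJ b (η.d.val ℓ) = 0 := by
    rw [TW.JJ_congr b fun z => Form.d_val η (hp z)]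
    exact TW.JJ_extd b ((cd_line hp η).of_le (by simp)) (isCompact_closedBall (0 : W) 1)
      fun z hz => prt_out hp hc η k hz
  have h2 : ∀ z, evalForm ((c • G + η.d).val ℓ z) b =
      c * evalForm (G.val ℓ z) b + evalForm (η.d.val ℓ z) b := fun z => by
    rw [Form.add_val, Form.smul_val, Q.evalForm_add, Q.evalForm_smul]
  unfold TW.JJ at h1 ⊢
  simp only [h2]
  rw [integral_add ((intg_line hp hc b G).const_mul c) (intg_line hp hc b η.d), h1, add_zero,
    integral_const_mul]

end Line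

end

end Vale.Agent.P231Z.I7.Md
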