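import Vale.Agent.P231Z.I7.Defs
import Vale.Agent.P231Z.I7.ModelA
import Vale.Agent.P231Z.I7.ModelB
import Vale.Agent.P231.CoZ.Val
import Vale.Agent.P231.FE.Ang
import Vale.Agent.P231.Co.M3g
import Vale.Agent.P231.Co.M3
import Vale.Agent.P231.Co.Gen

/-!
# P231, multiplicity seven, the affine model (4): the line and the model
-/

set_option maxSynthPendingDepth 3
set_option linter.unusedSectionVars false
set_option linter.unusedVariables false

open Bundle Manifold Set Filter Module MeasureTheory Metric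
open scoped ContDiff Manifold Topology

namespace Vale.Agent.P231Z.I7

noncomputable section

open Vale.Agent.P234 Vale.Agent.P231 Vale.Agent.P231.Fm Vale.Agent.P231.W Vale.Agent.P231.WE

variable {E : Type*} [NormedAddCommGroup E] [NormedSpace ℝ E]
  {M : Type*} [MetricSpace M] [ChartedSpace E M]
  [RiemannianBundle (fun x : M => TangentSpace 𝓘(ℝ, E) x)]
  {e : ∀ x : M, TangentSpace 𝓘(ℝ, E) x → M}
  [FiniteDimensional ℝ E] [IsManifold 𝓘(ℝ, E) ∞ M]
  [IsContMDiffRiemannianBundle 𝓘(ℝ, E) ∞ E (fun x : M => TangentSpace 𝓘(ℝ, E) x)]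
  [CompactSpace M] [ConnectedSpace M] [IsRiemannianManifold 𝓘(ℝ, E) M]

namespace Md

/-! ### the perturbations of the identity -/

/-- the bump function at `q` -/
def chi (q : M) (D : ℝ) (x : M) : ℝ := 1 - Form.prf (dist q x / D)

theorem chi_one {q : M} {D : ℝ} (hD : 0 < D) {x : M} (h : dist q x ≤ D / 3) : chi q D x = 1 := by
  rw [chi, Form.prf_zero (by rw [div_le_iff₀ hD]; linarith), sub_zero]

theorem chi_zero {q : M} {D : ℝ} (hD : 0 < D) {x : M} (h : 2 * D / 3 ≤ dist q x) :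
    chi q D x = 0 := by
  rw [chi, Form.prf_one (by rw [le_div_iff₀ hD]; linarith), sub_self]

theorem abs_chi (q : M) (D : ℝ) (x : M) : ‖chi q D x‖ ≤ 1 := by
  have h1 : 0 ≤ Form.prf (dist q x / D) := Real.smoothTransition.nonneg _
  have h2 : Form.prf (dist q x / D) ≤ 1 := Real.smoothTransition.le_one _
  rw [chi, Real.norm_of_nonneg (by linarith)]
  linarith

open Classical in
/-- translations near `q`, cut off -/
def Psi (e : ∀ x : M, TangentSpace 𝓘(ℝ, E) x → M) (q : M) (D : ℝ) (z : Eu E × M) : M :=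
  if dist q z.2 < D then e q (logMap e q z.2 - chi q D z.2 • CoC.fI (E := E) q z.1) else z.2

/-- the chart at `q` -/
def Lq (e : ∀ x : M, TangentSpace 𝓘(ℝ, E) x → M) (q : M) (x : M) : Eu E :=
  (CoC.fI (E := E) q).symm (logMap e q x)

variable (F : Facts e) {D : ℝ} (hD : 0 < D) (hB : InjGE e D)

theorem Psi_lt {q : M} {z : Eu E × M} (h : dist q z.2 < D) :
    Psi e q D z = e q (logMap e q z.2 - chi q D z.2 • CoC.fI (E := E) q z.1) := by
  unfold Psi
  rw [if_pos h]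

theorem Psi_ge {q : M} {z : Eu E × M} (h : ¬ dist q z.2 < D) : Psi e q D z = z.2 := by
  unfold Psi
  rw [if_neg h]

include F hD hB

theorem Psi_far {q : M} {z : Eu E × M} (h : 2 * D / 3 ≤ dist q z.2) : Psi e q D z = z.2 := by
  by_cases h1 : dist q z.2 < D
  · rw [Psi_lt h1, chi_zero hD h, zero_smul, sub_zero]
    exact (exp_logMap F hB h1).1
  · exact Psi_ge h1

theorem Psi_zero (q x : M) : Psi e q D (0, x) = x := by
  by_cases h1 : dist q x < D
  · rw [Psi_lt (z := (0, x)) h1]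
    change e q (logMap e q x - chi q D x • CoC.fI (E := E) q 0) = x
    rw [map_zero, smul_zero, sub_zero]
    exact (exp_logMap F hB h1).1
  · exact Psi_ge (z := (0, x)) h1

theorem sm_log {V : Type} [NormedAddCommGroup V] [NormedSpace ℝ V] [FiniteDimensional ℝ V]
    {q : M} {u : V → M} {x : V} (h : ((dM E M).on (CoC.bl q D)).At u x) :
    Sm (fun y => logMap e q (u y)) x := by
  have h1 : ∀ᶠ y in 𝓝 x, ContMDiffAt 𝓘(ℝ, V) 𝓘(ℝ, E) ∞ u y := h.1
  have h2 : ∀ᶠ y in 𝓝 x, dist q (u y) < D := h.2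
  filter_upwards [h1, h2] with y k1 k2
  exact ((contMDiffAt_logMap_of_dist F hB k2).comp y k1).contDiffAt

theorem map_Psi (q : M) : ((Dif.lin (Eu E)).prod (dM E M)).Map (dM E M) (Psi e q D) := by
  intro V _ _ _ u x h
  have h1 : Sm (fun y => (u y).1) x := h.1
  have h2 : (dM E M).At (fun y => (u y).2) x := h.2
  have h3 : ∀ᶠ y in 𝓝 x, ContMDiffAt 𝓘(ℝ, V) 𝓘(ℝ, E) ∞ (fun y => (u y).2) y := h2
  have hc : ContinuousAt (fun y => dist q (u y).2) x :=
    continuousAt_const.dist h3.self_of_nhds.continuousAt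
  by_cases hx : dist q (u x).2 < D
  · have h4 : ∀ᶠ y in 𝓝 x, dist q (u y).2 < D := hc.eventually (gt_mem_nhds hx)
    have h5 : Sm (fun y => logMap e q (u y).2) x :=
      sm_log F hD hB (u := fun y => (u y).2) ⟨h2, h4⟩
    have h6 : Sm (fun y => Form.prf (dist q (u y).2 / D)) x := CoC.map_prf_dist F hD hB q h2
    have h7 : Sm (fun y => logMap e q (u y).2 - chi q D (u y).2 • CoC.fI (E := E) q (u y).1) x := by
      filter_upwards [h1, h5, h6] with y k1 k5 k6
      exact k5.sub ((contDiffAt_const.sub k6).smul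
        ((CoC.fI (E := E) q).contDiff.contDiffAt.comp y k1))
    refine (dM E M).congr (at_exp F h7) ?_
    filter_upwards [h4] with y hy
    exact (Psi_lt hy).symm
  · have h4 : ∀ᶠ y in 𝓝 x, 2 * D / 3 < dist q (u y).2 := by
      refine hc.eventually (lt_mem_nhds ?_)
      have := not_lt.1 hx
      show 2 * D / 3 < dist q (u x).2
      linarith
    refine (dM E M).congr h2 ?_
    filter_upwards [h4] with y hy
    exact (Psi_far F hD hB hy.le).symm

theorem map_Lq (q : M) : ((dM E M).on (CoC.bl q D)).Map (Dif.lin (Eu E)) (Lq e q) := by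
  intro V _ _ _ u x h
  have h1 : Sm (fun y => (CoC.fI (E := E) q).symm (logMap e q (u y))) x := by
    filter_upwards [sm_log F hD hB h] with y hy
    exact (CoC.fI (E := E) q).symm.contDiff.contDiffAt.comp y hy
  exact h1

theorem Psi_eq {q : M} {a : Eu E} {x : M} (ha : ‖a‖ < D / 3) (h : Psi e q D (a, x) = q) :
    x ∈ CoC.bl q D ∧ Lq e q x = a := by
  have h1 : dist q x < 2 * D / 3 := by
    by_contra h2
    have h3 := not_lt.1 h2
    have h4 : x = q := (Psi_far F hD hB (z := (a, x)) h3).symm.trans h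
    rw [h4, dist_self] at h3
    linarith
  have h2 : dist q x < D := by linarith
  refine ⟨h2, ?_⟩
  rw [Psi_lt (z := (a, x)) h2] at h
  have h3 := (exp_logMap F hB h2).2
  have h4 : ‖chi q D x • CoC.fI (E := E) q a‖ ≤ ‖a‖ := by
    rw [norm_smul, LinearIsometryEquiv.norm_map]
    exact mul_le_of_le_one_left (norm_nonneg _) (abs_chi q D x)
  have h5 : ‖logMap e q x - chi q D x • CoC.fI (E := E) q a‖ ≤ D := by
    have := norm_sub_le (logMap e q x) (chi q D x • CoC.fI (E := E) q a)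
    linarith
  have h6 := hB q _ h5
  have h7 : e q (logMap e q x - chi q D x • CoC.fI (E := E) q a) = q := h
  rw [h7, dist_self] at h6
  have h8 : logMap e q x = chi q D x • CoC.fI (E := E) q a :=
    sub_eq_zero.1 (norm_eq_zero.1 h6.symm)
  have h9 : dist q x ≤ D / 3 := by
    rw [← h3, h8]
    linarith
  rw [chi_one hD h9, one_smul] at h8
  rw [Lq, h8, LinearIsometryEquiv.symm_apply_apply]

end Md

open Md

variable (F : Facts e) {D : ℝ} (hD : 0 < D) (hB : InjGE e D) (hdiam : ∀ p q : M, dist p q ≤ D)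
  (hl : ∀ x y : M, dist x y = D → finrank ℝ (H775.Pl e D x y) = 2 * 3 + 2)
  (hE : finrank ℝ E = 16) {p : M}
  {Pi : TangentSpace 𝓘(ℝ, E) p → TangentSpace 𝓘(ℝ, E) p →L[ℝ] TangentSpace 𝓘(ℝ, E) p}
  {o : TangentSpace 𝓘(ℝ, E) p → Fm.Lam (TangentSpace 𝓘(ℝ, E) p)}
  {ρ : TangentSpace 𝓘(ℝ, E) p → ℝ} {r₀ : ℝ}
  (hJ : FE.LineP e D p 3 Pi o) (hρ : WE.Rho e D p ρ r₀) {a : ℝ} (ha : a ≠ 0)

namespace Md

/-- the line of a leaf -/
theorem line_of (a : ℝ) {u₀ : TangentSpace 𝓘(ℝ, E) p} (hu₀ : ‖u₀‖ = 1)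
    (ι : EuclideanSpace ℝ (Fin 8) →ₗᵢ[ℝ] TangentSpace 𝓘(ℝ, E) p)
    (hι : ∀ w, Pi u₀ (ι w) = ι w) :
    Line (FE.FF F hD hB hdiam hl hJ hρ a) (FE.kap 3 a) (TW.bE 8)
      (fun z => e p (ι (Th D z))) := by
  have hs : ∀ z, Sm (fun z => ι (Th D z)) z := fun z =>
    Sm.of_contDiff (ι.contDiff.comp (contDiff_Th D)) z
  refine ⟨fun z => at_exp F (hs z), ⟨e p (D • u₀), fun z hz => ?_⟩, ?_⟩
  · have h1 : ‖ι (‖z‖⁻¹ • z)‖ = 1 := by
      rw [ι.norm_map, norm_smul, norm_inv, norm_norm, inv_mul_cancel₀ (by linarith)]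
    rw [Th_big (by linarith), map_smul]
    exact ((hJ.cut _ _ hu₀ h1).2 (hι _)).symm
  · letI : MeasurableSpace (TangentSpace 𝓘(ℝ, E) p) := borel _
    haveI : BorelSpace (TangentSpace 𝓘(ℝ, E) p) := ⟨rfl⟩
    have hA : TW.Ang 8 Pi (FE.psi 3 a Pi o) (FE.kap 3 a) := hJ.os.ang a
    have hsp : FE.Spread 8 Pi := hJ.os.sp
    rw [← line_val hsp hA hρ.smooth hρ.zero hD hρ.lt hρ.one ι (FE.ne_zero_of_unit hu₀) hι]
    congr 1
    refine TW.JJ_congr _ fun z => ?_
    have h1 : ‖ι (Th D z)‖ ≤ D := by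
      rw [ι.norm_map]
      exact norm_Th_le hD z
    rcases lt_or_eq_of_le h1 with h2 | h2
    · exact FE.FF_exp F hD hB hdiam hl hJ hρ a (hs z) h2
    · have h3 : r₀ < ‖ι (Th D z)‖ := by
        rw [h2]
        exact hρ.lt
      rw [FE.FF_exp' F hD hB hdiam hl hJ hρ a (hs z) h3 (by rw [h2]; linarith [hρ.lt])]
      unfold Fm.pb
      rw [FE.GG_eq_of_one (hρ.eq_one h3)]

/-- the affine coordinate -/
def Nq (e : ∀ x : M, TangentSpace 𝓘(ℝ, E) x → M) (p : M) (D : ℝ)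
    (Q : TangentSpace 𝓘(ℝ, E) p →L[ℝ] EuclideanSpace ℝ (Fin 8)) (x : M) :
    EuclideanSpace ℝ (Fin 8) := La D (logMap e p x) • Q (logMap e p x)

include F hD hB in
theorem map_Nq (Q : TangentSpace 𝓘(ℝ, E) p →L[ℝ] EuclideanSpace ℝ (Fin 8)) :
    ((dM E M).on (CoC.bl p D)).Map (Dif.lin (EuclideanSpace ℝ (Fin 8))) (Nq e p D Q) := by
  intro V _ _ _ u x h
  have h2 : ∀ᶠ y in 𝓝 x, dist p (u y) < D := h.2
  have h1 : Sm (fun y => La D (logMap e p (u y)) • Q (logMap e p (u y))) x := by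
    filter_upwards [sm_log F hD hB h, h2] with y k1 k2
    have k3 : ‖logMap e p (u y)‖ < D := by
      rw [(exp_logMap F hB k2).2]
      exact k2
    exact (ContDiffAt.comp (f := fun y => logMap e p (u y)) y (cd_La hD k3) k1).smul
      (Q.contDiff.contDiffAt.comp y k1)
  exact h1

include F hB in
theorem Nq_exp (Q : TangentSpace 𝓘(ℝ, E) p →L[ℝ] EuclideanSpace ℝ (Fin 8))
    {v : TangentSpace 𝓘(ℝ, E) p} (hv : ‖v‖ < D) : Nq e p D Q (e p v) = La D v • Q v := by
  rw [Nq, logMap_exp F hB hv]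

include F hD hB hJ in
theorem closed_Nq {u₁ : TangentSpace 𝓘(ℝ, E) p} (hu₁ : ‖u₁‖ = 1)
    (Q : TangentSpace 𝓘(ℝ, E) p →L[ℝ] EuclideanSpace ℝ (Fin 8))
    (hQ : ∀ v, Q v = 0 → Pi u₁ v = v) {C : Set (EuclideanSpace ℝ (Fin 8))} (hC : IsCompact C) :
    IsClosed ({x | x ∈ CoC.bl p D ∧ Nq e p D Q x ∈ C} ∪ {e p (D • u₁)}) := by
  have h1 := (isCompact_pre hD Q hC).image (contMDiff_exp_fiber F.isExp p).continuous
  have h2 : ({x | x ∈ CoC.bl p D ∧ Nq e p D Q x ∈ C} ∪ {e p (D • u₁)} : Set M) =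
      e p '' ({v | ‖v‖ < D ∧ La D v • Q v ∈ C} ∪ {v | ‖v‖ = D ∧ Q v = 0}) ∪ {e p (D • u₁)} := by
    ext x
    constructor
    · rintro (hx | hx)
      · have k1 : dist p x < D := hx.1
        have k2 := exp_logMap F hB k1
        exact Or.inl ⟨logMap e p x, Or.inl ⟨by rw [k2.2]; exact k1, hx.2⟩, k2.1⟩
      · exact Or.inr hx
    · rintro (⟨v, hv | hv, rfl⟩ | hx)
      · left
        refine ⟨?_, ?_⟩
        · show dist p (e p v) < D
          rw [hB p v hv.1.le]
          exact hv.1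
        · rw [Nq_exp F hB Q hv.1]
          exact hv.2
      · right
        have k1 : ‖D⁻¹ • v‖ = 1 := by
          rw [norm_smul, hv.1, norm_inv, Real.norm_of_nonneg hD.le, inv_mul_cancel₀ hD.ne']
        have k2 := (hJ.cut _ _ hu₁ k1).2 (by rw [map_smul, hQ v hv.2])
        rw [smul_inv_smul₀ hD.ne'] at k2
        exact k2.symm
      · exact Or.inr hx
  rw [h2]
  exact h1.isClosed.union isClosed_singleton

include F hD hB hJ in
/-- the line stays away from the cut point of the other leaf -/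
theorem far_line {u₁ : TangentSpace 𝓘(ℝ, E) p} (hu₁ : ‖u₁‖ = 1)
    (ι : EuclideanSpace ℝ (Fin 8) →ₗᵢ[ℝ] TangentSpace 𝓘(ℝ, E) p)
    (hι : ∀ w, Pi u₁ (ι w) = ι w → w = 0) :
    ∃ ε₀ > 0, ∀ z : EuclideanSpace ℝ (Fin 8), ε₀ < dist (e p (ι (Th D z))) (e p (D • u₁)) := by
  have h1 : IsCompact ((fun w => e p (ι w)) '' closedBall 0 D) :=
    (isCompact_closedBall _ _).image
      ((contMDiff_exp_fiber F.isExp p).continuous.comp ι.continuous)
  have h2 : e p (D • u₁) ∈ ((fun w => e p (ι w)) '' closedBall 0 D)ᶜ := by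
    rintro ⟨w, hw, h3⟩
    have h4 : ‖D • u₁‖ = D := by rw [norm_smul, hu₁, mul_one, Real.norm_of_nonneg hD.le]
    have h5 := hB p _ h4.le
    have h6 : ‖ι w‖ ≤ D := by
      rw [ι.norm_map]
      exact mem_closedBall_zero_iff.1 hw
    have h7 := hB p _ h6
    have h8 : e p (ι w) = e p (D • u₁) := h3
    rw [h8, h5, h4] at h7
    have k1 : ‖ι (D⁻¹ • w)‖ = 1 := by
      rw [map_smul, norm_smul, ← h7, norm_inv, Real.norm_of_nonneg hD.le, inv_mul_cancel₀ hD.ne']
    have k2 := (hJ.cut _ _ hu₁ k1).1 (by rw [map_smul, smul_inv_smul₀ hD.ne', h8])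
    rw [hι _ k2, map_zero, norm_zero] at k1
    exact zero_ne_one k1
  obtain ⟨ε, hε, h3⟩ := Metric.isOpen_iff.1 h1.isClosed.isOpen_compl _ h2
  refine ⟨ε / 2, by linarith, fun z => ?_⟩
  by_contra h4
  have h5 : e p (ι (Th D z)) ∈ ball (e p (D • u₁)) ε := by
    rw [mem_ball]
    have := not_lt.1 h4
    linarith
  exact h3 h5 ⟨Th D z, mem_closedBall_zero_iff.2 (norm_Th_le hD z), rfl⟩

include F hD hB in
/-- on the line the extension by zero is the pull-back by a homothety -/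
theorem ev_line (ι : EuclideanSpace ℝ (Fin 8) →ₗᵢ[ℝ] TangentSpace 𝓘(ℝ, E) p)
    (Q : TangentSpace 𝓘(ℝ, E) p →L[ℝ] EuclideanSpace ℝ (Fin 8)) (hQ : ∀ w, Q (ι w) = w)
    {w₀ : EuclideanSpace ℝ (Fin 8) → Lam (EuclideanSpace ℝ (Fin 8))}
    (hw : ∀ y, D / 3 ≤ ‖y‖ → w₀ y = 0) (z : EuclideanSpace ℝ (Fin 8)) :
    ev (CoC.bl p D) (Nq e p D Q) w₀ (fun z => e p (ι (Th D z))) z =
      Fm.pb (fun y => D • y) w₀ z := by
  have h0 : ∀ y : EuclideanSpace ℝ (Fin 8), dist p (e p (ι (Th D y))) = ‖Th D y‖ := fun y => by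
    rw [hB p _ (by rw [ι.norm_map]; exact norm_Th_le hD y), ι.norm_map]
  have hn : ∀ y : EuclideanSpace ℝ (Fin 8), ‖D • y‖ = D * ‖y‖ := fun y => by
    rw [norm_smul, Real.norm_of_nonneg hD.le]
  rcases lt_or_ge ‖z‖ (1 / 3) with hz | hz
  · have h1 : ∀ y : EuclideanSpace ℝ (Fin 8), ‖y‖ < 1 / 3 → ‖ι (Th D y)‖ ≤ D / 3 := by
      intro y hy
      rw [ι.norm_map, Th_small hy.le, hn]
      have := mul_le_mul_of_nonneg_left hy.le hD.le
      linarith
    have h2 : e p (ι (Th D z)) ∈ CoC.bl p D := by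
      show dist p (e p (ι (Th D z))) < D
      have := h1 z hz
      rw [ι.norm_map] at this
      rw [h0]
      linarith
    rw [ev_in (u := fun z => e p (ι (Th D z))) h2]
    refine pb_congr w₀ ?_
    filter_upwards [continuous_norm.continuousAt.eventually (gt_mem_nhds hz)] with y hy
    have h3 := h1 y hy
    change Nq e p D Q (e p (ι (Th D y))) = D • y
    rw [Nq_exp F hB Q (by linarith), La_small hD h3, one_smul, hQ, Th_small hy.le]
  · have h1 : Fm.pb (fun y => D • y) w₀ z = 0 := by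
      have k1 : D / 3 ≤ ‖D • z‖ := by
        rw [hn]
        have := mul_le_mul_of_nonneg_left hz hD.le
        linarith
      rw [Fm.pb, hw _ k1, map_zero]
    rw [h1]
    by_cases h2 : e p (ι (Th D z)) ∈ CoC.bl p D
    · rw [ev_in (u := fun z => e p (ι (Th D z))) h2, Fm.pb]
      have k1 : ‖ι (Th D z)‖ < D := by
        have k2 : dist p (e p (ι (Th D z))) < D := h2
        rw [h0] at k2
        rwa [ι.norm_map]
      have k3 : w₀ (Nq e p D Q (e p (ι (Th D z)))) = 0 := by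
        refine hw _ ?_
        rw [Nq_exp F hB Q k1, hQ]
        exact (norm_Th_ge hD hz).trans (norm_le_La k1 _)
      have k4 : w₀ ((Nq e p D Q ∘ fun z => e p (ι (Th D z))) z) = 0 := k3
      rw [k4, map_zero]
    · exact ev_out (u := fun z => e p (ι (Th D z))) h2

end Md

include hE in
theorem finrank_tangent (p : M) : finrank ℝ (TangentSpace 𝓘(ℝ, E) p) = 8 + 8 := by
  rw [← (CoC.fI (E := E) p).toLinearEquiv.finrank_eq, finrank_euclideanSpace_fin, hE]

include hE in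
/-- **the line** -/
theorem exists_line8 : ∃ ℓ : EuclideanSpace ℝ (Fin 8) → M,
    Line (FE.FF F hD hB hdiam hl hJ hρ a) (FE.kap 3 a) (TW.bE 8) ℓ := by
  have hsp : FE.Spread 8 Pi := hJ.os.sp
  obtain ⟨u₀, u₁, ι, Q, hu₀, -, hι, -⟩ := exists_split hsp (by norm_num) (finrank_tangent hE p)
  exact ⟨_, line_of F hD hB hdiam hl hJ hρ a hu₀ ι hι⟩

include hE ha in
/-- **the affine model** -/
theorem exists_model : ∃ (q : M) (O O' : Set M) (N : M → EuclideanSpace ℝ (Fin 8))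
    (L : M → Eu E) (Ψ : Eu E × M → M) (δ : ℝ),
    Model (FE.FF F hD hB hdiam hl hJ hρ a) (FE.kap 3 a) (TW.bE 8) q O O' N L Ψ δ := by
  have hsp : FE.Spread 8 Pi := hJ.os.sp
  obtain ⟨u₀, u₁, ι, Q, hu₀, hu₁, hι, hQ, hQ', hι'⟩ :=
    exists_split hsp (by norm_num) (finrank_tangent hE p)
  have hline := line_of F hD hB hdiam hl hJ hρ a hu₀ ι hι
  obtain ⟨ε₀, hε₀, hfar⟩ := far_line F hD hB hJ hu₁ ι hι'
  set q : M := e p (D • u₁) with hq
  have hop : ∀ (x : M) (r : ℝ), IsOpen (CoC.bl x r) := fun x r =>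
    isOpen_lt (continuous_const.dist continuous_id) continuous_const
  refine ⟨q, CoC.bl p D, CoC.bl q D, Nq e p D Q, Lq e q, Psi e q D, D / 3, by linarith,
    by rw [finrank_euclideanSpace_fin, hE], hop p D, hop q D, map_Nq F hD hB Q, map_Lq F hD hB q,
    map_Psi F hD hB q, Psi_zero F hD hB q, fun a x h1 h2 => Psi_eq F hD hB h1 h2,
    fun C hC => closed_Nq F hD hB hJ hu₁ Q hQ' hC, ?_⟩
  intro ε hε w₀ hw₀ hdeg hsupp
  have hC : IsCompact (tsupport w₀) := (isCompact_closedBall (0 : EuclideanSpace ℝ (Fin 8))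
    (D / 3)).of_isClosed_subset (isClosed_tsupport w₀) (hsupp.trans ball_subset_closedBall)
  have hED : EData (dM E M) (CoC.bl p D)
      ({x | x ∈ CoC.bl p D ∧ Nq e p D Q x ∈ tsupport w₀} ∪ {q}) (CoC.pc q) (Nq e p D Q) w₀ :=
    { cont := fun {V} _ _ _ {u x} hu => by
        have h1 : ∀ᶠ y in 𝓝 x, ContMDiffAt 𝓘(ℝ, V) 𝓘(ℝ, E) ∞ u y := hu
        exact h1.self_of_nhds.continuousAt
      oO := hop p D
      cS := closed_Nq F hD hB hJ hu₁ Q hQ' hC
      mN := map_Nq F hD hB Q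
      sm := hw₀
      cov := by
        rintro x hx h1 (h2 | h2)
        · exact h1 h2.1
        · exact hx h2
      van := fun x hx h1 => image_eq_zero_of_notMem_tsupport fun h2 => h1 (Or.inl ⟨hx, h2⟩) }
  have hσd : hED.form.d = 0 := hED.form_d
    (extd_top (by rw [finrank_euclideanSpace_fin]) hw₀ hdeg)
  have hσ8 : Form.IsDeg (7 + 1) hED.form := hED.form_deg hdeg
  set r : ℝ := min (min ε ε₀) D with hr
  have hr0 : 0 < r := lt_min (lt_min hε hε₀) hD
  have hrε : r ≤ ε := (min_le_left _ _).trans (min_le_left _ _)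
  have hrε₀ : r ≤ ε₀ := (min_le_left _ _).trans (min_le_right _ _)
  have hB' : InjGE e r := fun x v hv => hB x v (hv.trans (min_le_right _ _))
  have hBP : CoC.bl q r ∩ CoC.pc q ⊆ CoC.pc q := inter_subset_right
  obtain ⟨c₀, ν, hν, hc₀⟩ := CoC.punct F hr0 hB' q (j := 7 + 1) (by omega)
    (σ := Form.pull id (Dif.map_on_mono hBP) hED.form)
    (by rw [← Form.pull_d, hσd, Form.pull_zero']) (hσ8.pull _ _)
  rw [hc₀ (by norm_num), zero_smul, zero_add] at hν
  have hs1 := CoC.supp_pw F hr0 hB' q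
  have hs2 : (CoC.pw F hr0 hB' q).d.Supp (CoC.bl q r ∩ CoC.pc q) :=
    (Form.supp_d_inter hs1 (CoC.supp_one_sub_pw F hr0 hB' q)).mono fun x hx => ⟨hx.2, hx.1⟩
  obtain ⟨w, hw8, hwd, hwv⟩ := exists_corr hBP hs1 hs2 (Form.isDeg_fn _ _) hσ8 hσd hν
  have hval : ∀ {V : Type} [NormedAddCommGroup V] [NormedSpace ℝ V] [FiniteDimensional ℝ V]
      {u : V → M} {x : V}, (dM E M).At u x → r < dist (u x) q →
      w.val u x = ev (CoC.bl p D) (Nq e p D Q) w₀ u x := by
    intro V _ _ _ u x hu hx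
    have h1 : ∀ᶠ y in 𝓝 x, r < dist (u y) q :=
      ((hED.cont hu).dist continuousAt_const).eventually (lt_mem_nhds hx)
    have h2 : ((dM E M).on (CoC.pc q)).At u x := by
      refine ⟨hu, h1.mono fun y hy h3 => ?_⟩
      have h4 : u y = q := h3
      rw [h4, dist_self] at hy
      linarith
    rw [hwv hu, hED.form_val h2]
    filter_upwards [h1, (dM E M).open' hu] with y hy hu'
    rw [CoC.pw, Form.fn_val _ _ hu', Form.prf_one (by
      rw [le_div_iff₀ hr0, dist_comm]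
      linarith), map_one]
  obtain ⟨c, η, hc⟩ := (CoZ.gen_FF F hD hB hdiam hl hJ hρ ha (by omega)).top (by norm_num)
    (by omega) hwd hw8
  refine ⟨w, η, c, hw8, hc, ?_, fun {V} _ _ _ {u x} hu hx => ?_⟩
  · obtain ⟨x₀, hx₀⟩ := hline.const
    have h1 := JJ_line (k := 6) hline.plot hx₀ (TW.bE 8) (FE.FF F hD hB hdiam hl hJ hρ a) η c
    rw [← hc] at h1
    let A : EuclideanSpace ℝ (Fin 8) ≃L[ℝ] EuclideanSpace ℝ (Fin 8) :=
      (LinearEquiv.smulOfNeZero ℝ (EuclideanSpace ℝ (Fin 8)) D hD.ne').toContinuousLinearEquiv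
    have h2 : TW.JJ (TW.bE 8) (w.val fun z => e p (ι (Th D z))) =
        TW.JJ (TW.bE 8) (Fm.pb A w₀) := by
      refine TW.JJ_congr _ fun z => ?_
      rw [hval (hline.plot z) (lt_of_le_of_lt hrε₀ (hfar z))]
      refine ev_line F hD hB ι Q hQ (fun y hy => ?_) z
      refine image_eq_zero_of_notMem_tsupport fun h3 => ?_
      have h4 := mem_ball_zero_iff.1 (hsupp h3)
      linarith
    rw [← hline.val, ← abs_mul, ← h1, h2, TW.JJ_pb_equiv, TW.abs_JJ_basis (TW.bE 8)]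
  · have h1 := hval hu (lt_of_le_of_lt hrε hx)
    exact ⟨fun h2 => h1.trans (ev_in h2), fun h2 => h1.trans (ev_out h2)⟩

end

end Vale.Agent.P231Z.I7
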