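import Vale.Agent.P231Z.I7.SLB2
import Vale.Agent.P231.S2II.Fun
import Vale.Agent.P231.S2I3.Flow
import Vale.Agent.P231.H766.PushL

/-!
# P231, multiplicity seven, integrality: the fibre integral of a basic form is basic
-/

set_option maxSynthPendingDepth 3
set_option linter.unusedSectionVars false
set_option linter.unusedVariables false

open Bundle Manifold Set Filter Module MeasureTheory
open scoped ContDiff Manifold Topology

namespace Vale.Agent.P231Z.I7

noncomputable section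

open Vale.Agent.P234 Vale.Agent.P231 Vale.Agent.P231.Fm Vale.Agent.P231.W Vale.Agent.P231.WR
open Vale.Agent.P231.S2II (Eul bas Fr dFr cb co cone mt frb SL Orn dFo)

variable {E : Type*} [NormedAddCommGroup E] [NormedSpace ℝ E]
  {M : Type*} [MetricSpace M] [ChartedSpace E M]
  [RiemannianBundle (fun x : M => TangentSpace 𝓘(ℝ, E) x)]
  {e : ∀ x : M, TangentSpace 𝓘(ℝ, E) x → M}
  [FiniteDimensional ℝ E] [IsManifold 𝓘(ℝ, E) ∞ M]
  [IsContMDiffRiemannianBundle 𝓘(ℝ, E) ∞ E (fun x : M => TangentSpace 𝓘(ℝ, E) x)]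
  [CompactSpace M] [ConnectedSpace M] [IsRiemannianManifold 𝓘(ℝ, E) M]
  (F : Facts e) {D : ℝ} (hD : 0 < D) (hB : InjGE e D) (hdiam : ∀ p q : M, dist p q ≤ D)
  {l : ℕ} [NeZero l] (hP : ∀ x y : M, dist x y = D → finrank ℝ (H775.Pl e D x y) = l + 1)

theorem pr_val' {X : Type*} {DX : Dif X} (w : Form DX) {E' : Type} [NormedAddCommGroup E']
    [NormedSpace ℝ E'] [FiniteDimensional ℝ E'] {u : E' → X × ℝ} {x : E'}
    (hu : (DX.prod (Dif.lin ℝ)).At u x) : (pr w).val u x = w.val (Prod.fst ∘ u) x :=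
  Form.pull_val (Dif.map_fst (D := DX) (D' := Dif.lin ℝ)) w hu

/-- the matrix of the transport in two frames -/
def tmx (T : UT E M → ℝ → E →ₗ[ℝ] E) (f f' : Fr e D l) (t : ℝ) (i j : Fin l) : ℝ :=
  ip (foot f'.v) (vec' (f'.W i)) (T f.v t (vec' (f.W j)))

section Transport

variable {T : UT E M → ℝ → E →ₗ[ℝ] E} (hT : S2I3.LT F hD hB hdiam T)

theorem mt_tmx (f f' : Fr e D l) (t : ℝ) (y : Eul l) :
    mt (tmx T f f' t) y = co f' (T f.v t (cb f y)) := by
  ext i
  rw [S2II.mt_apply, S2II.co_apply, cb, map_sum, ip_sum_right]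
  refine Finset.sum_congr rfl fun j _ => ?_
  rw [map_smul, ip_smul_right', tmx, mul_comm]

include hP hT in
theorem cb_tmx {f f' : Fr e D l} {t : ℝ} (hv : f'.v = phi F (f.v, t)) (y : Eul l) :
    cb f' (mt (tmx T f f' t) y) = T f.v t (cb f y) := by
  rw [mt_tmx]
  refine S2II.cb_co F hD hB hdiam hP f' ?_
  have h1 : S2I3.InL e D (phi F (f.v, t)) (T f.v t (cb f y)) := hT.mem _ _ _ (S2II.cb_mem f y)
  rw [← hv] at h1
  exact h1

theorem cb_zero (f : Fr e D l) : cb f (0 : Eul l) = 0 := by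
  have h := S2II.cb_smul f 0 (0 : Eul l)
  rwa [zero_smul, zero_smul] at h

include hP hT in
theorem det_tmx {f f' : Fr e D l} {t : ℝ} (hv : f'.v = phi F (f.v, t)) :
    LinearMap.det (mt (tmx T f f' t) : Eul l →ₗ[ℝ] Eul l) ≠ 0 := by
  intro h0
  obtain ⟨y, hy, hy0⟩ := (LinearMap.det_eq_zero_iff_ker_ne_bot.1 h0 |>
    Submodule.exists_mem_ne_zero_of_ne_bot)
  have h1 : mt (tmx T f f' t) y = 0 := hy
  have h2 := cb_tmx F hD hB hdiam hP hT hv y
  rw [h1, cb_zero] at h2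
  have h3 : cb f y = 0 := hT.inj (v := f.v) (t := t) (S2II.cb_mem f y) h2.symm
  have h4 := S2II.co_cb f y
  rw [h3, ← cb_zero f, S2II.co_cb] at h4
  exact hy0 h4.symm

theorem nm_cb' (f : Fr e D l) (y : Eul l) : nm (foot f.v) (cb f y) = ‖y‖ := by
  have h1 := S2II.ip_cb_cb f y y
  rw [ip_self, real_inner_self_eq_norm_sq] at h1
  exact (sq_eq_sq₀ (nm_nonneg _ _) (norm_nonneg _)).1 h1

include hT in
theorem sm_tmx {E' : Type} [NormedAddCommGroup E'] [NormedSpace ℝ E'] [FiniteDimensional ℝ E']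
    {f f' : E' → Fr e D l} {τ : E' → ℝ} {x : E'} (hf : (dFr e D l).At f x)
    (hf' : (dFr e D l).At f' x) (hτ : Sm τ x)
    (hv : ∀ᶠ s in 𝓝 x, (f' s).v = phi F ((f s).v, τ s)) (i j : Fin l) :
    Sm (fun s => tmx T (f s) (f' s) (τ s) i j) x := by
  have h1 : (dTM E M).At (fun s => tb (foot (f s).v) (vec' ((f s).W j))) x := by
    have h5 := at_iff.1 (hf.2 j)
    rw [smV_iff_tb]
    filter_upwards [h5] with s g1
    refine ContMDiffAt.congr_of_eventuallyEq g1 ?_
    exact Eventually.of_forall fun s' => tb_congr ((f s').isLF.isL j).foot_eq.symm rfl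
  have h2 := hT.map (u := fun s => (f s).v) (τ := τ) (a := fun s => vec' ((f s).W j)) hf.1 hτ h1
    (Eventually.of_forall fun s => ((f s).isLF.isL j).mem_Lf)
  have h3 : (dTM E M).At (fun s => tb (foot (f' s).v)
      (T (f s).v (τ s) (vec' ((f s).W j)))) x := by
    refine (dTM E M).congr h2 ?_
    filter_upwards [hv] with s hs
    refine tb_congr ?_ rfl
    rw [hs]
    rfl
  exact sm_ip_raw (u := fun s => (f' s).v) (w := fun s => (f' s).W i)
    (a := fun s => T (f s).v (τ s) (vec' ((f s).W j))) (hf'.2 i) h3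
    (Eventually.of_forall fun s => ((f' s).isLF.isL i).foot_eq)

variable {Lm : Pr e D × ℝ → Pr e D}
  (hw : ∀ b t, (vec' (Lm (b, t)).w : E) =
    (nm (gm e (b.v, t)) (T b.v t (vec' b.w)))⁻¹ • T b.v t (vec' b.w))
  (hLv : ∀ b t, (Lm (b, t)).v = phi F (b.v, t))

include hP hT hw hLv in
/-- the lifted flow in two frames -/
theorem cone_tmx {f f' : Fr e D l} {t : ℝ} (hv : f'.v = phi F (f.v, t)) {y : Eul l}
    (hy : y ≠ 0) : cone F hD hB hdiam (f', rad (mt (tmx T f f' t) y)) =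
      Lm (cone F hD hB hdiam (f, rad y), t) := by
  have hdet := det_tmx F hD hB hdiam hP hT hv
  have h1 : ‖rad y‖ = 1 := norm_rad hy
  have h2 : rad (mt (tmx T f f' t) y) = rad (mt (tmx T f f' t) (rad y)) := by
    change _ = rad (mt (tmx T f f' t) (‖y‖⁻¹ • y))
    rw [map_smul, rad_smul _ (inv_pos.2 (norm_pos_iff.2 hy))]
  have h3 : mt (tmx T f f' t) (rad y) ≠ 0 := ne_of_det hdet (rad_ne hy)
  have h4 : ‖rad (mt (tmx T f f' t) (rad y))‖ = 1 := norm_rad h3
  have h5 : (cone F hD hB hdiam (f, rad y)).v = f.v := S2II.cone_v F hD hB hdiam _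
  have h6 : vec' (cone F hD hB hdiam (f, rad y)).w = cb f (rad y) := by
    rw [S2II.cone_w F hD hB hdiam f h1]
    rfl
  have h7 : (Lm (cone F hD hB hdiam (f, rad y), t)).v = f'.v := by
    rw [hLv, h5, hv]
  rw [h2]
  refine Pr.ext' ?_ ?_
  · rw [S2II.cone_v, h7]
  · rw [S2II.cone_w F hD hB hdiam f' h4]
    refine (mk_congr ?_ ?_).trans (mk_eta _)
    · rw [(Lm (cone F hD hB hdiam (f, rad y), t)).isL.foot_eq, h7]
    · have h8 := cb_tmx F hD hB hdiam hP hT hv (rad y)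
      have h9 : gm e (f.v, t) = foot f'.v := by
        rw [hv]
        rfl
      rw [hw, h5, h6, ← h8, h9, nm_cb', ← S2II.cb_smul]
      rfl

variable (hm : ((dPr e D).prod (Dif.lin ℝ)).Map (dPr e D) Lm)

include hP hT hw hLv in
/-- the fibre integral of a basic form in two frames related by the flow -/
theorem frb_flow {w : Form (dPr e D)} (hB' : Basic Lm hm w) {E' : Type} [NormedAddCommGroup E']
    [NormedSpace ℝ E'] [FiniteDimensional ℝ E'] {f f' : E' → Fr e D l} {τ : E' → ℝ} {x : E'}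
    (hf : (dFr e D l).At f x) (hf' : (dFr e D l).At f' x) (hτ : Sm τ x)
    (hv : ∀ᶠ s in 𝓝 x, (f' s).v = phi F ((f s).v, τ s)) :
    (frb F hD hB hdiam w).val f x =
      (LinearMap.det (mt (tmx T (f x) (f' x) (τ x)) : Eul l →ₗ[ℝ] Eul l) *
        |LinearMap.det (mt (tmx T (f x) (f' x) (τ x)) : Eul l →ₗ[ℝ] Eul l)|⁻¹) •
        (frb F hD hB hdiam w).val f' x := by
  have hg : Sm (fun s => mt (tmx T (f s) (f' s) (τ s))) x :=
    S2II.sm_mt fun i j => sm_tmx F hD hB hdiam hT hf hf' hτ hv i j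
  have hdet := det_tmx F hD hB hdiam hP hT hv.self_of_nhds
  refine si_change' _ _ hf' hf (g := fun s => mt (tmx T (f s) (f' s) (τ s))) hg hdet
    fun y hy => ?_
  have h1 := at_nrm_cyl (G := Eul l) hf hy
  have h2 := at_nrm_fibLin (g := fun s => mt (tmx T (f s) (f' s) (τ s))) hf' hg hdet hy
  rw [Form.pull_val _ _ h1, Form.pull_val _ _ h2]
  have h3 : (dPr e D).At (cone F hD hB hdiam ∘ (Co.nrm ∘ cylF f)) (x, y) :=
    S2II.map_coneS F hD hB hdiam h1
  have h4 : Sm (fun p : E' × Eul l => τ p.1) (x, y) :=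
    Sm.comp (f := τ) (g := Prod.fst) (x := ((x, y) : E' × Eul l)) hτ
      (Sm.of_contDiff contDiff_fst _)
  have h5 : ((dPr e D).prod (Dif.lin ℝ)).At (fun p : E' × Eul l =>
      ((cone F hD hB hdiam ∘ (Co.nrm ∘ cylF f)) p, τ p.1)) (x, y) := ⟨h3, h4⟩
  have h6 := congrArg (fun a : Form ((dPr e D).prod (Dif.lin ℝ)) => a.val (fun p : E' × Eul l =>
      ((cone F hD hB hdiam ∘ (Co.nrm ∘ cylF f)) p, τ p.1)) (x, y)) hB'
  change (Form.pull _ _ _).val _ _ = (pr w).val _ _ at h6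
  rw [Form.pull_val _ _ h5, pr_val' w h5] at h6
  refine h6.symm.trans (w.congr (hm h5) ?_)
  have hy' : ∀ᶠ p in 𝓝 ((x, y) : E' × Eul l), p.2 ≠ 0 :=
    continuous_snd.continuousAt.eventually_ne hy
  have hfst : Tendsto (Prod.fst : E' × Eul l → E') (𝓝 (x, y)) (𝓝 x) :=
    continuous_fst.continuousAt
  filter_upwards [hy', hfst.eventually hv] with p h7 h8
  exact (cone_tmx F hD hB hdiam hP hT hw hLv h8 h7).symm

variable {b : Form (dPr e D)} (hb : Orn F hD hB hdiam (l := l) b) (hl : Odd l)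

include hT hw hLv in
/-- the fibre integral of a basic form is basic, for any smooth lift of the geodesic flow which
is given by a linear transport -/
theorem SL_basic_gen {b1 : Form (dPr e D)} (hb1 : Basic Lm hm b1) {c : ℝ} (hc : c ≠ 0)
    (hb1' : SL F hD hB hdiam hP hb hl b1 = c • 1) {w : Form (dPr e D)} (hB' : Basic Lm hm w) :
    Basic (phi F) (map_phi F) (SL F hD hB hdiam hP hb hl w) := by
  have hq := (S2II.bun_SL F hD hB hdiam hP hb hl).hq
  refine Form.ext_val fun E' _ _ _ u x hu => ?_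
  have hu1 : (dUT E M).At (Prod.fst ∘ u) x := hu.1
  have hu2 : (dUT E M).At (phi F ∘ u) x := map_phi F hu
  have hτ : Sm (fun s => (u s).2) x := hu.2
  obtain ⟨f, hf, hfu⟩ := hq.lift hu1
  obtain ⟨f', hf', hfu'⟩ := hq.lift hu2
  have hfv : (dUT E M).At (Fr.v ∘ f) x := hq.map hf
  have hfv' : (dUT E M).At (Fr.v ∘ f') x := hq.map hf'
  have hv : ∀ᶠ s in 𝓝 x, (f' s).v = phi F ((f s).v, (u s).2) := by
    filter_upwards [hfu, hfu'] with s h1 h2
    have h3 : (f s).v = (u s).1 := h1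
    have h4 : (f' s).v = phi F (u s) := h2
    rw [h3, h4]
  have h1 := frb_flow F hD hB hdiam hP hT hw hLv hm hb1 hf.1 hf'.1 hτ hv
  rw [← S2II.SL_val F hD hB hdiam hP hb hl b1 hf, ← S2II.SL_val F hD hB hdiam hP hb hl b1 hf',
    hb1', Form.smul_val, Form.smul_val, Form.one_val hfv, Form.one_val hfv'] at h1
  have h2 := congrArg aug h1
  rw [map_smul, map_smul, map_smul, map_one, smul_eq_mul, smul_eq_mul, mul_one] at h2
  have h3 := mul_right_cancel₀ hc (h2.symm.trans (one_mul c).symm)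
  have h4 := frb_flow F hD hB hdiam hP hT hw hLv hm hB' hf.1 hf'.1 hτ hv
  rw [h3, one_smul, ← S2II.SL_val F hD hB hdiam hP hb hl w hf,
    ← S2II.SL_val F hD hB hdiam hP hb hl w hf'] at h4
  rw [Form.pull_val _ _ hu, pr_val' _ hu, ← Form.congr _ hfv hfu,
    ← Form.congr _ hfv' hfu']
  exact h4.symm

end Transport

/-- **the fibre integral of a basic form is basic** -/
theorem SL_basic {b : Form (dPr e D)} (hb : Orn F hD hB hdiam (l := l) b) (hl : Odd l)
    {T : UT E M → ℝ → E →ₗ[ℝ] E} {Lm : Pr e D × ℝ → Pr e D} {Y : Pr e D → E} {ε₀ : ℝ}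
    (hT : S2I3.LT F hD hB hdiam T)
    (hw : ∀ b t, (vec' (Lm (b, t)).w : E) =
      (nm (gm e (b.v, t)) (T b.v t (vec' b.w)))⁻¹ • T b.v t (vec' b.w))
    (hL : H766.PushL F hD hB hdiam Lm Y ε₀)
    {b1 : Form (dPr e D)} (hb1 : Basic Lm hL.flow.map b1) {c : ℝ} (hc : c ≠ 0)
    (hb1' : SL F hD hB hdiam hP hb hl b1 = c • 1) {w : Form (dPr e D)}
    (hB' : Basic Lm hL.flow.map w) :
    Basic (phi F) (map_phi F) (SL F hD hB hdiam hP hb hl w) :=
  SL_basic_gen F hD hB hdiam hP hT hw hL.v hL.flow.map hb hl hb1 hc hb1' hB'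

end

end Vale.Agent.P231Z.I7
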