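import Vale.Agent.P231Z.I7.SLB1

/-!
# P231, multiplicity seven, integrality: the sphere integral through the standard cell, and after
an invertible linear change of the fibre
-/

set_option maxSynthPendingDepth 3
set_option linter.unusedSectionVars false
set_option linter.unusedVariables false

open MeasureTheory Set Module Filter Topology Metric
open scoped ContDiff

namespace Vale.Agent.P231Z.I7

noncomputable section

open Vale.Agent.P231 Vale.Agent.P231.Fm
open Vale.Agent.P231.Fm (Dif Form Sm)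

section Cell

variable {G : Type} [NormedAddCommGroup G] [InnerProductSpace ℝ G] [FiniteDimensional ℝ G]
  [MeasurableSpace G] [BorelSpace G]

/-- the integral of a scale invariant family through the standard cell -/
theorem radl_th {e0 : G} (he : ‖e0‖ = 1) {k : ℕ} (hk : 2 ≤ k)
    (o : OrthonormalBasis (Fin (1 + k)) ℝ G) (bY : Basis (Fin k) ℝ (Submodule.span ℝ {e0})ᗮ) :
    ∃ eps : ℤ, |eps| = 1 ∧ ∀ {V : Type} [NormedAddCommGroup V] [NormedSpace ℝ V]
      [FiniteDimensional ℝ V] {t : G → Lam (V × G)}, Radl t →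
      ∫ y, slice (E := V) o (Q.ps (Q.dR rc y) * t y) =
        (eps : ℝ) • ∫ y in closedBall 0 1, slice (E := V) bY
          (pull ((ContinuousLinearMap.id ℝ V).prodMap (fderiv ℝ (TW.th e0) y)) (t (TW.th e0 y)))
          ∂bY.addHaar := by
  have hG : finrank ℝ G = 1 + k := (finrank_eq_card_basis o.toBasis).trans (Fintype.card_fin _)
  have hW : 3 ≤ finrank ℝ G := by omega
  obtain ⟨n, hn, hnn⟩ := TW.th_degree he hW (by omega) bY o.toBasis
  refine ⟨n, hn, fun {V} _ _ _ {t} h => Co.ext_cont fun j xs => ?_⟩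
  have hn2 : (n : ℝ) * n = 1 := by
    have h1 : n * n = 1 := by rw [← abs_mul_abs_self, hn, one_mul]
    exact_mod_cast h1
  have hth0 : ∀ y, TW.th e0 y ≠ 0 := (TW.cyc_th he hW).ne
  have hc : Continuous fun y => pull ((ContinuousLinearMap.id ℝ V).prodMap
      (fderiv ℝ (TW.th e0) y)) (t (TW.th e0 y)) := by
    have h1 : Continuous fun y => (ContinuousLinearMap.id ℝ V).prodMap (fderiv ℝ (TW.th e0) y) :=
      continuous_const.prod_mapL ℝ ((TW.contDiff_th he).continuous_fderiv (by simp))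
    have h2 : Continuous fun y => t (TW.th e0 y) :=
      h.smooth.continuousOn.comp_continuous (TW.contDiff_th he).continuous hth0
    have h3 := (contDiff_pullL (E := V × (Submodule.span ℝ {e0})ᗮ) (F := V × G)
      (n := 0)).continuous
    exact (h3.comp h1).clm_apply h2
  have hi : IntegrableOn (fun y => slice (E := V) bY (pull ((ContinuousLinearMap.id ℝ V).prodMap
      (fderiv ℝ (TW.th e0) y)) (t (TW.th e0 y)))) (closedBall 0 1) bY.addHaar :=
    ((slice (E := V) bY).continuous.comp hc).continuousOn.integrableOn_compact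
      (isCompact_closedBall _ _)
  have h1 := ContinuousLinearMap.integral_comp_comm (evalL xs) hi
  have h2 : ∀ y, evalL xs (slice (E := V) bY (pull ((ContinuousLinearMap.id ℝ V).prodMap
      (fderiv ℝ (TW.th e0) y)) (t (TW.th e0 y)))) =
      (-1 : ℝ) ^ (k * j) * evalForm (pb (TW.th e0) (fun y => red xs (t y)) y) bY := by
    intro y
    rw [evalL_apply, evalForm_slice, red_pull]
    rfl
  have h3 : ∫ y in closedBall 0 1, evalForm (pb (TW.th e0) (fun y => red xs (t y)) y) bY
      ∂bY.addHaar = TW.JJ bY (pb (TW.th e0) fun y => red xs (t y)) :=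
    setIntegral_eq_integral_of_forall_compl_eq_zero fun y hy =>
      (TW.cyc_th he hW).eval_out bY _ hy
  have h4 := cut_indep volume o.toBasis (h.smooth_red xs)
    (fun y hy => hom_closed (h.smooth_red xs) (h.hom_red xs) o.toBasis hy) cut_rc cut_rst
  have h5 : TW.JJ o.toBasis (fun y => Q.dR rst y * red xs (t y)) =
      ∫ y, evalForm (Q.dR rst y * red xs (t y)) o.toBasis := by
    rw [TW.JJ, o.addHaar_eq_volume]
  rw [OrthonormalBasis.coe_toBasis] at h4 h5
  rw [← evalForm_apply, ← evalForm_apply, h.eval_int volume o cut_rc, ← evalL_apply xs, map_smul,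
    smul_eq_mul, ← h1]
  simp only [h2]
  rw [integral_const_mul, h3, hnn _ (h.smooth_red xs) (h.hom_red xs), h5, h4]
  have h6 : (-1 : ℝ) ^ ((1 + k + 1) * j) = (-1) ^ (k * j) := by
    have h7 : (1 + k + 1) * j = k * j + 2 * j := by ring
    rw [h7, pow_add, pow_mul _ 2, neg_one_sq, one_pow, mul_one]
  rw [h6]
  linear_combination (-(-1 : ℝ) ^ (k * j) * ∫ y, evalForm (Q.dR rst y * red xs (t y)) o) * hn2

/-- the sphere integral through the standard cell, for any Euclidean fibre -/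
theorem si_th_gen {e0 : G} (he : ‖e0‖ = 1) {k : ℕ} (hk : 2 ≤ k)
    (o : OrthonormalBasis (Fin (1 + k)) ℝ G) (bY : Basis (Fin k) ℝ (Submodule.span ℝ {e0})ᗮ) :
    ∃ eps : ℤ, |eps| = 1 ∧ ∀ {X : Type*} {D : Dif X} (σ : Form (Co.SB D G)) {V : Type}
      [NormedAddCommGroup V] [NormedSpace ℝ V] [FiniteDimensional ℝ V] {f : V → X} {x : V},
      D.At f x → (Co.si o σ).val f x = (eps : ℝ) • ∫ y in closedBall 0 1, slice bY
        (σ.val (fun p : V × (Submodule.span ℝ {e0})ᗮ => (f p.1, TW.th e0 p.2)) (x, y))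
        ∂bY.addHaar := by
  obtain ⟨eps, h1, h2⟩ := radl_th he hk o bY
  refine ⟨eps, h1, fun {X D} σ {V} _ _ _ {f x} hf => ?_⟩
  rw [si_val o σ hf, h2 (radl_cyl σ hf)]
  congr 1
  refine integral_congr_ae (Eventually.of_forall fun y => ?_)
  change slice _ _ = slice _ _
  congr 1
  have h0 : TW.th e0 y ≠ 0 := by
    rw [← norm_ne_zero_iff, TW.norm_th he]
    exact one_ne_zero
  have h3 : Sm (fun p : V × (Submodule.span ℝ {e0})ᗮ => (p.1, TW.th e0 p.2)) (x, y) :=
    Sm.of_contDiff (contDiff_fst.prodMk ((TW.contDiff_th he).comp contDiff_snd)) _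
  have h4 := σ.nat (u := Co.nrm ∘ cylF f)
    (g := fun p : V × (Submodule.span ℝ {e0})ᗮ => (p.1, TW.th e0 p.2)) (x := (x, y))
    (at_nrm_cyl hf h0) h3
  rw [fderiv_prodMap_snd ((TW.contDiff_th he).differentiable (by simp) y)] at h4
  rw [← h4]
  congr 1
  funext p
  change (f p.1, ‖TW.th e0 p.2‖⁻¹ • TW.th e0 p.2) = _
  rw [TW.norm_th he, inv_one, one_smul]

end Cell

/-- **the sphere integral through the standard cell** -/
theorem si_th {l k : ℕ} (hl : 3 ≤ l) (hk : l = 1 + k) {e0 : S2II.Eul l} (he : ‖e0‖ = 1)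
    (bY : Basis (Fin k) ℝ (Submodule.span ℝ {e0})ᗮ) :
    ∃ eps : ℤ, |eps| = 1 ∧ ∀ {X : Type*} {D : Dif X} (σ : Form (Co.SB D (S2II.Eul l))) {V : Type}
      [NormedAddCommGroup V] [NormedSpace ℝ V] [FiniteDimensional ℝ V] {f : V → X} {x : V},
      D.At f x → (Co.si (S2II.bas l) σ).val f x = (eps : ℝ) • ∫ y in closedBall 0 1, slice bY
        (σ.val (fun p : V × (Submodule.span ℝ {e0})ᗮ => (f p.1, TW.th e0 p.2)) (x, y))
        ∂bY.addHaar := by
  subst hk
  exact si_th_gen he (by omega) (S2II.bas (1 + k)) bY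

section Change

variable {X X' : Type*} {D : Dif X} {D' : Dif X'}
variable {G : Type} [NormedAddCommGroup G] [InnerProductSpace ℝ G] [FiniteDimensional ℝ G]
  [MeasurableSpace G] [BorelSpace G]
variable {E : Type} [NormedAddCommGroup E] [NormedSpace ℝ E] [FiniteDimensional ℝ E]

theorem val_nrm_zero (σ : Form (Co.SB D G)) {u : E → X × G} {z : E} (hz : (u z).2 = 0) :
    σ.val (Co.nrm ∘ u) z = 0 := by
  refine σ.junk fun h => ?_
  have h1 : ‖‖(u z).2‖⁻¹ • (u z).2‖ = 1 := h.2.self_of_nhds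
  rw [hz, smul_zero, norm_zero] at h1
  exact zero_ne_one h1

theorem sm_fibLin {g : E → (G →L[ℝ] G)} {x : E} (hg : Sm g x) (y : G) :
    Sm (fun p : E × G => (p.1, g p.1 p.2)) (x, y) := by
  have h4 : Sm (fun p : E × G => g p.1) (x, y) :=
    Sm.comp (f := g) (g := Prod.fst) (x := ((x, y) : E × G)) hg
      (Sm.of_contDiff contDiff_fst _)
  filter_upwards [h4] with z hz
  exact contDiffAt_fst.prodMk (hz.clm_apply contDiffAt_snd)

theorem ne_of_det {A : G →L[ℝ] G} (hdet : LinearMap.det (A : G →ₗ[ℝ] G) ≠ 0) {y : G}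
    (hy : y ≠ 0) : A y ≠ 0 := fun h0 =>
  hy ((LinearMap.equivOfDetNeZero _ hdet).injective (by
    rw [map_zero]
    exact h0))

theorem at_fibLin {f : E → X} {x : E} (hf : D.At f x) {g : E → (G →L[ℝ] G)} (hg : Sm g x)
    (y : G) : (Co.D1 D G).At (fun p : E × G => (f p.1, g p.1 p.2)) (x, y) :=
  Dif.comp _ (u := cylF f) (g := fun p : E × G => (p.1, g p.1 p.2)) (x := (x, y))
    (cylF_at hf _) (sm_fibLin hg y)

theorem at_nrm_fibLin {f : E → X} {x : E} (hf : D.At f x) {g : E → (G →L[ℝ] G)} (hg : Sm g x)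
    (hdet : LinearMap.det (g x : G →ₗ[ℝ] G) ≠ 0) {y : G} (hy : y ≠ 0) :
    (Co.SB D G).At (Co.nrm ∘ fun p : E × G => (f p.1, g p.1 p.2)) (x, y) :=
  Co.map_nrm ⟨at_fibLin hf hg y,
    (sm_fibLin hg y).snd.continuousAt.eventually_ne (ne_of_det hdet hy)⟩

/-- the sphere integral after an invertible linear change of the fibre, for any Euclidean fibre -/
theorem si_change_gen {m : ℕ} (o : OrthonormalBasis (Fin m) ℝ G) (σ : Form (Co.SB D G))
    (σ' : Form (Co.SB D' G)) {f : E → X} {f' : E → X'} {x : E} (hf : D.At f x)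
    (hf' : D'.At f' x) {g : E → (G →L[ℝ] G)} (hg : Sm g x)
    (hdet : LinearMap.det (g x : G →ₗ[ℝ] G) ≠ 0)
    (hσ : ∀ y : G, y ≠ 0 → σ'.val (Co.nrm ∘ cylF f') (x, y) =
      σ.val (Co.nrm ∘ fun p => (f p.1, g p.1 p.2)) (x, y)) :
    (Co.si o σ').val f' x =
      (LinearMap.det (g x : G →ₗ[ℝ] G) * |LinearMap.det (g x : G →ₗ[ℝ] G)|⁻¹) •
        (Co.si o σ).val f x := by
  have h1 := fib_lin o ((Co.dx σ).val (cylF f)) hg.differentiableAt hdet
  let L : G ≃L[ℝ] G := (LinearMap.equivOfDetNeZero _ hdet).toContinuousLinearEquiv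
  have hL : ∀ y, L y = g x y := fun y => rfl
  have hR : Radl (fun y : G => σ.val (Co.nrm ∘ fun p : E × G => (f p.1, g p.1 p.2)) (x, y)) :=
    radl_val σ (fun y hy => at_nrm_fibLin hf hg hdet hy) fun s y hy => by
      change (f s, rad (g s (‖y‖⁻¹ • y))) = (f s, rad (g s y))
      rw [map_smul, rad_smul _ (inv_pos.2 (norm_pos_iff.2 hy))]
  have h2 := hR.cut volume o.toBasis cut_rc (cut_lin L)
  rw [OrthonormalBasis.coe_toBasis] at h2
  rw [si_val o σ' hf', Co.si, Form.fi_val (Co.vc_of_van (Co.vc_dx σ)) hf, ← h1]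
  refine Eq.trans ?_ (h2.trans ?_)
  · refine integral_congr_ae (Eventually.of_forall fun y => ?_)
    change slice _ _ = slice _ _
    by_cases hy : y = 0
    · subst hy
      rw [cut_rc.dR_near.self_of_nhds, Q.ps, map_zero, zero_mul, zero_mul]
    · rw [hσ y hy]
  · refine integral_congr_ae (Eventually.of_forall fun y => ?_)
    change slice _ _ = slice _ _
    rw [pb, ← (Co.dx σ).nat (u := cylF f) (g := fun p : E × G => (p.1, g p.1 p.2)) (x := (x, y))
      (cylF_at hf _) (sm_fibLin hg y)]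
    have h3 := dx_val σ (at_fibLin hf hg y)
    have h4 : (cylF f ∘ fun p : E × G => (p.1, g p.1 p.2)) =
      fun p : E × G => (f p.1, g p.1 p.2) := rfl
    rw [h4, h3]
    by_cases hy : y = 0
    · subst hy
      rw [val_nrm_zero σ (u := fun p : E × G => (f p.1, g p.1 p.2)) (z := (x, 0))
        (map_zero (g x)), mul_zero, mul_zero]
    · have h5 := slice_dx_mul o.toBasis (fderiv ℝ (fun p : E × G => rc (g p.1 p.2)) (x, y)) hy
        (hR.kill hy)
      rw [OrthonormalBasis.coe_toBasis] at h5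
      refine Eq.trans ?_ h5.symm
      congr 4
      have h6 : DifferentiableAt ℝ (fun p : E × G => rc (g p.1 p.2)) (x, y) :=
        (contDiff_rc.differentiable (by simp) _).comp ((x, y) : E × G)
          (sm_fibLin hg y).snd.differentiableAt
      have h7 : HasFDerivAt (fun z : G => rc (g x z))
          (fderiv ℝ (fun p : E × G => rc (g p.1 p.2)) (x, y) ∘L
            ContinuousLinearMap.inr ℝ E G) y :=
        HasFDerivAt.comp (g := fun p : E × G => rc (g p.1 p.2)) (f := fun z : G => (x, z)) y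
          h6.hasFDerivAt (hasFDerivAt_prodMk_right x y)
      exact congrArg dx h7.fderiv

end Change

/-- **the fibre integral after an invertible linear change of the fibre, in a plot** -/
theorem si_change' {X : Type*} {D : Dif X} {l : ℕ} {E : Type} [NormedAddCommGroup E]
    [NormedSpace ℝ E] [FiniteDimensional ℝ E] (σ σ' : Form (Co.SB D (S2II.Eul l)))
    {f f' : E → X} {x : E} (hf : D.At f x) (hf' : D.At f' x)
    {g : E → (S2II.Eul l →L[ℝ] S2II.Eul l)} (hg : Sm g x)
    (hdet : LinearMap.det (g x : S2II.Eul l →ₗ[ℝ] S2II.Eul l) ≠ 0)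
    (hσ : ∀ y : S2II.Eul l, y ≠ 0 → σ'.val (Co.nrm ∘ cylF f') (x, y) =
      σ.val (Co.nrm ∘ fun p => (f p.1, g p.1 p.2)) (x, y)) :
    (Co.si (S2II.bas l) σ').val f' x =
      (LinearMap.det (g x : S2II.Eul l →ₗ[ℝ] S2II.Eul l) *
        |LinearMap.det (g x : S2II.Eul l →ₗ[ℝ] S2II.Eul l)|⁻¹) •
        (Co.si (S2II.bas l) σ).val f x :=
  si_change_gen (S2II.bas l) σ σ' hf hf' hg hdet hσ

end

end Vale.Agent.P231Z.I7
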