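import Vale.Agent.P231Z.I7.Split
import Vale.Agent.P231.S2II.Fun
import Vale.Agent.P231Z.I7.SLB2

/-!
# P231, multiplicity seven, integrality: the fibre integral preserves representability
-/

set_option maxSynthPendingDepth 3
set_option linter.unusedSectionVars false
set_option linter.unusedVariables false

open Bundle Manifold Set Filter Module MeasureTheory Metric
open scoped ContDiff Manifold Topology

namespace Vale.Agent.P231Z.I7

noncomputable section

open Vale.Agent.P234 Vale.Agent.P231 Vale.Agent.P231.Fm Vale.Agent.P231.W Vale.Agent.P231.WR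
  Vale.Agent.P231.S2II

theorem Rep.SI_of {B S Fr : Type*} {DB : Dif B} {DS : Dif S} {DF : Dif Fr} {l k n : ℕ}
    {pr : S → B} {q : Fr → B} {ev : Fr × Eul l → S} (h : Co.Bun DB DS DF (Eul l) pr q ev)
    {e0 : Eul l} (he : ‖e0‖ = 1) (bY : Basis (Fin k) ℝ (Submodule.span ℝ {e0})ᗮ) {ε : ℤ}
    (hε : |ε| = 1)
    (hsi : ∀ (σ : Form (Co.SB DF (Eul l))) {V : Type} [NormedAddCommGroup V] [NormedSpace ℝ V]
      [FiniteDimensional ℝ V] {f : V → Fr} {x : V}, DF.At f x →
      (Co.si (bas l) σ).val f x = (ε : ℝ) • ∫ y in closedBall 0 1, slice bY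
        (σ.val (fun p : V × (Submodule.span ℝ {e0})ᗮ => (f p.1, TW.th e0 p.2)) (x, y))
        ∂bY.addHaar)
    {A : Form DB → ℝ} (hA : Rep DB n A) : Rep DS (k + n) fun w => A (h.SI (bas l) w) := by
  refine hA.bind_loc _ h.hq fun C => ?_
  have hp : ∀ z ∈ C.K ×ˢ closedBall (0 : (Submodule.span ℝ {e0})ᗮ) 1, (Co.SB DF (Eul l)).At
      (fun p : C.V × (Submodule.span ℝ {e0})ᗮ => (C.c p.1, TW.th e0 p.2)) z := fun z hz =>
    ⟨⟨DF.comp (u := C.c) (g := Prod.fst) (C.plot z.1 hz.1) (Sm.of_contDiff contDiff_fst _),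
      Sm.of_contDiff ((TW.contDiff_th he).comp contDiff_snd) _⟩,
      Eventually.of_forall fun y => TW.norm_th he y.2⟩
  refine (((Rep.cell (C.fib bY _ (isCompact_closedBall 0 1)
    ((convex_closedBall 0 1).addHaar_frontier _) _ hp)).pull ev h.hev).sign hε).congr fun w => ?_
  rw [h.pull_SI, Cell.fib_I, ← integral_const_mul]
  refine setIntegral_congr_fun C.meas fun z hz => ?_
  change evalForm ((Co.si (bas l) (Form.pull ev h.hev w)).val C.c z) C.b = _
  rw [hsi _ (C.plot z hz)]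
  exact _root_.map_smul (evalL C.b) _ _

/-- **the fibre integral of a sphere bundle preserves representability** -/
theorem Rep.SI {B S Fr : Type*} {DB : Dif B} {DS : Dif S} {DF : Dif Fr} {l k n : ℕ}
    {pr : S → B} {q : Fr → B} {ev : Fr × Eul l → S} (h : Co.Bun DB DS DF (Eul l) pr q ev)
    (hk : l = 1 + k) (h3 : 3 ≤ l) {A : Form DB → ℝ} (hA : Rep DB n A) :
    Rep DS (k + n) fun w => A (h.SI (bas l) w) := by
  have he : ‖bas l ⟨0, by omega⟩‖ = 1 := (bas l).orthonormal.1 _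
  have h0 : bas l ⟨0, by omega⟩ ≠ 0 := by
    rw [← norm_ne_zero_iff, he]
    exact one_ne_zero
  have hY : finrank ℝ (Submodule.span ℝ {bas l ⟨0, by omega⟩})ᗮ = k :=
    Submodule.finrank_add_finrank_orthogonal' (by
      rw [finrank_span_singleton h0, finrank_euclideanSpace_fin, hk])
  obtain ⟨ε, hε, hsi⟩ := si_th h3 hk he (finBasisOfFinrankEq ℝ _ hY)
  exact Rep.SI_of h he _ hε (fun σ => hsi σ) hA

variable {E : Type*} [NormedAddCommGroup E] [NormedSpace ℝ E]
  {M : Type*} [MetricSpace M] [ChartedSpace E M]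
  [RiemannianBundle (fun x : M => TangentSpace 𝓘(ℝ, E) x)]
  {e : ∀ x : M, TangentSpace 𝓘(ℝ, E) x → M}
  [FiniteDimensional ℝ E] [IsManifold 𝓘(ℝ, E) ∞ M]
  [IsContMDiffRiemannianBundle 𝓘(ℝ, E) ∞ E (fun x : M => TangentSpace 𝓘(ℝ, E) x)]
  [CompactSpace M] [ConnectedSpace M] [IsRiemannianManifold 𝓘(ℝ, E) M]
  (F : Facts e) {D : ℝ} (hD : 0 < D) (hB : InjGE e D) (hdiam : ∀ p q : M, dist p q ≤ D)
  {l : ℕ} [NeZero l] (hP : ∀ x y : M, dist x y = D → finrank ℝ (H775.Pl e D x y) = l + 1)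
  {b : Form (dPr e D)} (hb : Orn F hD hB hdiam (l := l) b) (hl : Odd l)

theorem Rep.SL {k n : ℕ} (hk : l = 1 + k) (h3 : 3 ≤ l) {A : Form (dUT E M) → ℝ}
    (h : Rep (dUT E M) n A) :
    Rep (dPr e D) (k + n) fun w => A (S2II.SL F hD hB hdiam hP hb hl w) :=
  Rep.SI (bun_SL F hD hB hdiam hP hb hl) hk h3 h

end

end Vale.Agent.P231Z.I7
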