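import Vale.Agent.P231.L3.Three

/-! P231, multiplicity seven: the quadratic relation and the volume inequality from the estimate
of the coefficients. -/

set_option maxSynthPendingDepth 3
set_option linter.unusedSectionVars false
set_option linter.unusedVariables false

open Bundle Manifold Set Filter Module MeasureTheory
open scoped ContDiff Manifold Topology ENNReal Real

namespace Vale.Agent.P231Z.I7

noncomputable section

open Vale.Agent.P234 Vale.Agent.P231 Vale.Agent.P231.Fm Vale.Agent.P231.W Vale.Agent.P231.WR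
  Vale.Agent.P231.H766 Vale.Agent.P231.WG Vale.Agent.P231.S2II Vale.Agent.P231.WQ
  Vale.Agent.P231.L3

variable {E : Type*} [NormedAddCommGroup E] [NormedSpace ℝ E]
  {M : Type*} [MetricSpace M] [ChartedSpace E M]
  [RiemannianBundle (fun x : M => TangentSpace 𝓘(ℝ, E) x)]
  {e : ∀ x : M, TangentSpace 𝓘(ℝ, E) x → M}
  [FiniteDimensional ℝ E] [IsManifold 𝓘(ℝ, E) ∞ M]
  [IsContMDiffRiemannianBundle 𝓘(ℝ, E) ∞ E (fun x : M => TangentSpace 𝓘(ℝ, E) x)]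
  [CompactSpace M] [ConnectedSpace M] [IsRiemannianManifold 𝓘(ℝ, E) M]
  (F : Facts e) {D : ℝ} (hD : 0 < D) (hB : InjGE e D) (hdiam : ∀ p q : M, dist p q ≤ D)

section seven

variable [MeasurableSpace M] [BorelSpace M]
  (hl : ∀ x y : M, dist x y = D → finrank ℝ (H775.Pl e D x y) = 2 * 3 + 2)
  (hN : finrank ℝ E = 15 + 1)
  {p : M}
  {Pi : TangentSpace 𝓘(ℝ, E) p → TangentSpace 𝓘(ℝ, E) p →L[ℝ] TangentSpace 𝓘(ℝ, E) p}
  {o : TangentSpace 𝓘(ℝ, E) p → Fm.Lam (TangentSpace 𝓘(ℝ, E) p)}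
  {ρ : TangentSpace 𝓘(ℝ, E) p → ℝ} {r₀ : ℝ}
  (hJ : FE.LineP e D p 3 Pi o) (hρ : WE.Rho e D p ρ r₀) {a : ℝ} (ha : a ≠ 0)
  {Lm : Pr e D × ℝ → Pr e D} {Y : Pr e D → E} {ε₀ : ℝ} (hL : PushL F hD hB hdiam Lm Y ε₀)
  (g : Pr e D × ℝ → M) (hg : ((dPr e D).prod (Dif.lin ℝ)).Map (dM E M) g)
  (hg0 : ∀ b, g (b, 0) = foot b.v) (hg1 : ∀ b t, g (Lm (b, t), 1) = g (b, 1))

theorem hE7 : 15 + 1 = (2 * 3 + 2) * (1 + 1) := by norm_num

section core

variable {R : ℝ} (X : Fr e p R) (v0 : UT E M) {r : Eu E → ℝ} {K : Set (Eu E)} (hr : Q.Cut r K)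
  (hDR : D < R) (b : OrthonormalBasis (Fin (15 + 1)) ℝ (Eu E))

/-- **the system of data, multiplicity seven** -/
def inst7 : H584.Sys (dPr e D) (dUT E M) (dM E M) 1 D (2 * π) :=
  inst (m := 3) (n := 1) (N := 15) F hD hB hdiam hl hN hE7 hJ hρ ha hL g hg hg0 hg1 X v0 hr hDR b

/-- the value of the right-hand side is not zero -/
theorem inst7_q_ne (hrad : ∀ y z : Eu E, (inner ℝ y z : ℝ) = 0 → fderiv ℝ r y z = 0) :
    (inst7 F hD hB hdiam hl hN hJ hρ ha hL g hg hg0 hg1 X v0 hr hDR b).I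
      ((inst7 F hD hB hdiam hl hN hJ hρ ha hL g hg hg0 hg1 X v0 hr hDR b).B0 *
        ((inst7 F hD hB hdiam hl hN hJ hρ ha hL g hg hg0 hg1 X v0 hr hDR b).Fx ^ (1 + 1) *
          (inst7 F hD hB hdiam hl hN hJ hρ ha hL g hg hg0 hg1 X v0 hr hDR b).Fb ^ 1)) ≠ 0 := by
  have h0 : finrank ℝ E = (2 * 3 + 2) * (1 + 1) := hN.trans hE7
  have hs : ∀ v : UT E M, ∃ q : Pr e D, q.v = v := fun v => by
    obtain ⟨W, hW⟩ := exists_isLF F hD hB hdiam (l := 2 * 3 + 1) hl v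
    exact ⟨S2II.Fr.p0 (⟨(v, W), hW⟩ : S2II.Fr e D (2 * 3 + 1)), rfl⟩
  have h1 := Q2.II_eq X v0 F hD hB hdiam hs (FE.FF_d F hD hB hdiam hl hJ hρ a)
    (FE.FF_deg F hD hB hdiam hl hJ hρ a) ⟨3 + 1, by ring⟩ (by omega) (n := 1 + 1) (by omega) h0
    b.toBasis hr hrad hDR (FE.ang_PsiE hJ.os a) (WQ.cut_rho hρ) (WQ.closedBall_sub hρ)
    (fun x hx => FE.FF_ef F hD hB hdiam hl hJ hρ a hx)
    (fun y hy => FE.B0_cc F hD hB hdiam hl hJ hρ a (hD.trans hDR) X v0 hy)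
  have h2 := (FE.q_le hJ.os ha (by norm_num) (Nat.succ_pos 1) h0 b hr).2
  have h3 : (inst7 F hD hB hdiam hl hN hJ hρ ha hL g hg hg0 hg1 X v0 hr hDR b).I
      ((inst7 F hD hB hdiam hl hN hJ hρ ha hL g hg hg0 hg1 X v0 hr hDR b).B0 *
        ((inst7 F hD hB hdiam hl hN hJ hρ ha hL g hg hg0 hg1 X v0 hr hDR b).Fx ^ (1 + 1) *
          (inst7 F hD hB hdiam hl hN hJ hρ ha hL g hg hg0 hg1 X v0 hr hDR b).Fb ^ 1)) =
      Q.qv volume b.toBasis r (FE.PsiE 3 a p Pi o) (1 + 1 - 1) *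
        Q.qv volume b.toBasis r (FE.PsiE 3 a p Pi o) (1 + 1 - 1) := h1
  rw [h3]
  exact mul_ne_zero h2 h2

include hN ha in
/-- the cohomology of the space of pairs in low degrees -/
theorem low_seven :
    (∀ w : Form (dPr e D), Form.IsDeg 0 w → w.d = 0 → ∃ r : ℝ, w = r • 1) ∧
    (∀ j, j = 2 ∨ j = 4 ∨ j = 10 ∨ j = 12 → ∀ w : Form (dPr e D), Form.IsDeg j w → w.d = 0 →
      ∃ κ : Form (dPr e D), w = κ.d) ∧
    (∀ w : Form (dPr e D), Form.IsDeg 6 w → w.d = 0 → ∃ (r : ℝ) (κ : Form (dPr e D)),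
      w = r • b0P F hD hB hdiam (FE.FF F hD hB hdiam hl hJ hρ a) + κ.d) ∧
    (∀ w : Form (dPr e D), Form.IsDeg 8 w → w.d = 0 → ∃ (r : ℝ) (κ : Form (dPr e D)),
      w = r • Form.pull Pr.v map_v (Form.pull foot map_foot (FE.FF F hD hB hdiam hl hJ hρ a)) +
        κ.d) := by
  have h2 : 2 ≤ finrank ℝ E := by omega
  have hn0 : finrank ℝ E - 1 = 15 := by omega
  have hG := CoC.gen_UT (CoZ.gen_FF F hD hB hdiam hl hJ hρ ha h2)
  rw [hn0] at hG
  have hA := inst_ang (m := 3) (n := 1) (N := 15) F hD hB hdiam hl hN hE7 hJ hρ ha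
  set Om := FE.FF F hD hB hdiam hl hJ hρ a with hOm
  refine ⟨CoC.hs_zero hG _ _ (by norm_num) hA (by omega), fun j hj w h3 h4 => ?_,
    fun w h3 h4 => ?_, fun w h3 h4 => ?_⟩
  · refine CoC.hs_exact hG _ _ (by norm_num) hA (by omega) (by omega) (by omega) w h3 h4
  · exact CoC.hs_mid hG _ _ (by norm_num) hA (by omega) (by norm_num)
      (b := b0P F hD hB hdiam Om) (ℓ := 0) (k := (2 * FE.kap 3 a)⁻¹)
      (by rw [Form.d_zero, add_zero]) w h3 h4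
  · obtain ⟨c, η, h5⟩ := CoC.hs_top map_foot hG _ _ (by norm_num) hA (by norm_num) (by omega)
      (by norm_num) w h3 h4 (Dif.Map.comp (f := Pr.v) (g := foot) map_foot map_v)
    refine ⟨c, η, ?_⟩
    rw [h5, H584.pull_pull (k := fun q : Pr e D => foot q.v) map_v map_foot
      (Dif.Map.comp (f := Pr.v) (g := foot) map_foot map_v) (fun q => rfl) Om]

end core

include hN ha hg0 hg1 in
/-- **the quadratic relation, Cayley case** -/
theorem rel_seven {ℓ : Form (dPr e D)} (hℓ : b1P F hD hB hdiam hL hg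
      (FE.FF F hD hB hdiam hl hJ hρ a) = (-1 : ℝ) • b0P F hD hB hdiam
      (FE.FF F hD hB hdiam hl hJ hρ a) + ℓ.d) :
    ∃ (a' μ : ℝ) (σ : Form (dPr e D)), Basic Lm hL.flow.map σ ∧
      b1P F hD hB hdiam hL hg (FE.FF F hD hB hdiam hl hJ hρ a) ^ 2 = a' • eP e D ^ 6 +
        μ • (eP e D ^ 2 * GsP F hD hB hdiam hg (FE.FF F hD hB hdiam hl hJ hρ a)) + σ.d := by
  have hnt : Nontrivial E := nontrivial_of_finrank_pos (R := ℝ) (by omega)
  obtain ⟨v0, -⟩ := S2II.exists_foot (E := E) p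
  obtain ⟨X⟩ := nonempty_fr F hD hB p (D + 1)
  obtain ⟨r, K, hr, hrad⟩ := exists_radCut (V := Eu E)
  have hDR : D < D + 1 := lt_add_one D
  let b : OrthonormalBasis (Fin (15 + 1)) ℝ (Eu E) :=
    (stdOrthonormalBasis ℝ (Eu E)).reindex (finCongr (by
      rw [finrank_euclideanSpace, Fintype.card_fin, hN]))
  obtain ⟨k0, k1, k6, k8⟩ := low_seven F hD hB hdiam hl hN hJ hρ ha
  exact (inst7 F hD hB hdiam hl hN hJ hρ ha hL g hg hg0 hg1 X v0 hr hDR b).exists_quad8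
    (S2II.isDeg_FF F hD hB hdiam hl hJ hρ a) k0 (k1 2 (by omega)) (k1 4 (by omega)) k6 k8
    (k1 10 (by omega)) (k1 12 (by omega)) (ε := -1) (by norm_num) (l := ℓ) hℓ

include hN ha hg0 hg1 in
/-- the coefficient `a` of the quadratic relation is not zero -/
theorem a_ne_seven {ℓ : Form (dPr e D)} (hℓ : b1P F hD hB hdiam hL hg
      (FE.FF F hD hB hdiam hl hJ hρ a) = (-1 : ℝ) • b0P F hD hB hdiam
      (FE.FF F hD hB hdiam hl hJ hρ a) + ℓ.d)
    {a' μ : ℝ} {σ : Form (dPr e D)} (hσ : Basic Lm hL.flow.map σ)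
    (hrel : b1P F hD hB hdiam hL hg (FE.FF F hD hB hdiam hl hJ hρ a) ^ 2 = a' • eP e D ^ 6 +
        μ • (eP e D ^ 2 * GsP F hD hB hdiam hg (FE.FF F hD hB hdiam hl hJ hρ a)) + σ.d) :
    a' ≠ 0 := by
  have hnt : Nontrivial E := nontrivial_of_finrank_pos (R := ℝ) (by omega)
  obtain ⟨v0, -⟩ := S2II.exists_foot (E := E) p
  obtain ⟨X⟩ := nonempty_fr F hD hB p (D + 1)
  obtain ⟨r, K, hr, hrad⟩ := exists_radCut (V := Eu E)
  have hDR : D < D + 1 := lt_add_one D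
  let b : OrthonormalBasis (Fin (15 + 1)) ℝ (Eu E) :=
    (stdOrthonormalBasis ℝ (Eu E)).reindex (finCongr (by
      rw [finrank_euclideanSpace, Fintype.card_fin, hN]))
  exact (inst7 F hD hB hdiam hl hN hJ hρ ha hL g hg hg0 hg1 X v0 hr hDR b).a_ne_zero8
    (ρ := σ) hσ hrel (ε := -1) (by norm_num) (l := ℓ) hℓ
    (inst7_q_ne F hD hB hdiam hl hN hJ hρ ha hL g hg hg0 hg1 X v0 hr hDR b hrad)

include hN ha hg0 hg1 in
/-- **the volume inequality from the estimate of the coefficients, Cayley case** -/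
theorem volume_seven_of {ℓ : Form (dPr e D)} (hℓ : b1P F hD hB hdiam hL hg
      (FE.FF F hD hB hdiam hl hJ hρ a) = (-1 : ℝ) • b0P F hD hB hdiam
      (FE.FF F hD hB hdiam hl hJ hρ a) + ℓ.d)
    {a' μ : ℝ} {σ : Form (dPr e D)} (hσ : Basic Lm hL.flow.map σ)
    (hrel : b1P F hD hB hdiam hL hg (FE.FF F hD hB hdiam hl hJ hρ a) ^ 2 = a' • eP e D ^ 6 +
        μ • (eP e D ^ 2 * GsP F hD hB hdiam hg (FE.FF F hD hB hdiam hl hJ hρ a)) + σ.d)
    (hκ : FE.kap 3 a ^ 2 ≤ |a'|) (hEq : μ ^ 2 = -36 * a') :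
    Blaschke.riemannianVolume (15 + 1) M univ ≤
      ENNReal.ofReal (Blaschke.modelVolume 15 7 D) := by
  have hnt : Nontrivial E := nontrivial_of_finrank_pos (R := ℝ) (by omega)
  obtain ⟨v0, -⟩ := S2II.exists_foot (E := E) p
  obtain ⟨X⟩ := nonempty_fr F hD hB p (D + 1)
  obtain ⟨r, K, hr, hrad⟩ := exists_radCut (V := Eu E)
  have hDR : D < D + 1 := lt_add_one D
  let b : OrthonormalBasis (Fin (15 + 1)) ℝ (Eu E) :=
    (stdOrthonormalBasis ℝ (Eu E)).reindex (finCongr (by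
      rw [finrank_euclideanSpace, Fintype.card_fin, hN]))
  have hα := inst_α (m := 3) (n := 1) (N := 15) F hD hB hdiam hl hN hE7 hJ hρ ha hL g hg hg0 hg1
    X v0 hr hDR b
  have hv := inst_vol (m := 3) (n := 1) (N := 15) F hD hB hdiam hl hN hE7 hJ hρ ha hL g hg hg0 hg1
    X v0 hr hDR b
  have hq := inst_q (m := 3) (n := 1) (N := 15) F hD hB hdiam hl hN hE7 hJ hρ ha hL g hg hg0 hg1
    X v0 hr hDR b (by norm_num) hrad
  have hk := FE.kap_pos 3 ha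
  have h0 : 0 < |a'| := lt_of_lt_of_le (by positivity) hκ
  have hs : √|a'| ^ 2 = |a'| := Real.sq_sqrt h0.le
  have hs0 : 0 < √|a'| := Real.sqrt_pos.2 h0
  have hμ : |μ| ≤ 6 * √|a'| := by
    refine abs_le_of_sq_le_sq' ?_ (by positivity) |> fun h => abs_le.2 h
    have h1 : -a' ≤ |a'| := neg_le_abs a'
    rw [mul_pow, hs, hEq]
    linarith
  have hq' : FE.kap 3 a ^ (2 * (1 + 1)) ≤ √|a'| ^ 4 := by
    have h1 : √|a'| ^ 4 = |a'| ^ 2 := by
      rw [show (4 : ℕ) = 2 * 2 from rfl, pow_mul, hs]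
    have h2 : FE.kap 3 a ^ (2 * (1 + 1)) = (FE.kap 3 a ^ 2) ^ 2 := by ring
    rw [h1, h2]
    exact pow_le_pow_left₀ (by positivity) hκ 2
  have hq2 : |(inst7 F hD hB hdiam hl hN hJ hρ ha hL g hg hg0 hg1 X v0 hr hDR b).I
      ((inst7 F hD hB hdiam hl hN hJ hρ ha hL g hg hg0 hg1 X v0 hr hDR b).B0 *
        ((inst7 F hD hB hdiam hl hN hJ hρ ha hL g hg hg0 hg1 X v0 hr hDR b).Fx ^ 2 *
          (inst7 F hD hB hdiam hl hN hJ hρ ha hL g hg hg0 hg1 X v0 hr hDR b).Fb))| ≤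
      √|a'| ^ 4 := by
    rw [pow_one] at hq
    exact hq.trans hq'
  exact bound_seven (inst7 F hD hB hdiam hl hN hJ hρ ha hL g hg hg0 hg1 X v0 hr hDR b) hα
    (WH.vol_ne_top F hD hB hN) hv (ρ := σ) hσ hrel (ε := -1) (by norm_num) (l := ℓ) hℓ hs0
    hs.le hμ hq2

end seven

end

end Vale.Agent.P231Z.I7
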