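import Vale.Agent.P231Z.I7.Abs
import Vale.Agent.P231Z.I7.IntM
import Vale.Agent.P231Z.I7.Model
import Vale.Agent.P231Z.I7.SLRep
import Vale.Agent.P231Z.I7.SLB
import Vale.Agent.P231Z.I7.Htpy
import Vale.Agent.P231Z.I7.Seven

/-! P231, multiplicity seven: the integrality estimate of the coefficient of the quadratic
relation. -/

set_option maxSynthPendingDepth 3
set_option linter.unusedSectionVars false
set_option linter.unusedVariables false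

open Bundle Manifold Set Filter Module MeasureTheory
open scoped ContDiff Manifold Topology ENNReal Real

namespace Vale.Agent.P231Z.I7

noncomputable section

open Vale.Agent.P234 Vale.Agent.P231 Vale.Agent.P231.Fm Vale.Agent.P231.W Vale.Agent.P231.WR
  Vale.Agent.P231.H766 Vale.Agent.P231.WG Vale.Agent.P231.S2II Vale.Agent.P231.WQ
  Vale.Agent.P231.L3

variable {E : Type*} [NormedAddCommGroup E] [NormedSpace ℝ E]
  {M : Type*} [MetricSpace M] [ChartedSpace E M]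
  [RiemannianBundle (fun x : M => TangentSpace 𝓘(ℝ, E) x)]
  {e : ∀ x : M, TangentSpace 𝓘(ℝ, E) x → M}
  [FiniteDimensional ℝ E] [IsManifold 𝓘(ℝ, E) ∞ M]
  [IsContMDiffRiemannianBundle 𝓘(ℝ, E) ∞ E (fun x : M => TangentSpace 𝓘(ℝ, E) x)]
  [CompactSpace M] [ConnectedSpace M] [IsRiemannianManifold 𝓘(ℝ, E) M]
  (F : Facts e) {D : ℝ} (hD : 0 < D) (hB : InjGE e D) (hdiam : ∀ p q : M, dist p q ≤ D)

/-- the data of the operator `β` on the space of pairs -/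
def dat {Lm : Pr e D × ℝ → Pr e D} {Y : Pr e D → E} {ε₀ : ℝ} (hL : PushL F hD hB hdiam Lm Y ε₀)
    (g : Pr e D × ℝ → M) (hg : ((dPr e D).prod (Dif.lin ℝ)).Map (dM E M) g)
    (hg0 : ∀ b, g (b, 0) = foot b.v) (hg1 : ∀ b t, g (Lm (b, t), 1) = g (b, 1)) :
    Dat (dPr e D) (dUT E M) (dM E M) D where
  φU := phi F
  φ := Lm
  pi := Pr.v
  foot := foot
  σ := Th F hD hB hdiam
  g := g
  hD := hD
  hφU := isFlow_phi F hD hB hdiam
  hφ := hL.flow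
  hpi := map_v
  hpφ := hL.v
  hfoot := map_foot
  hσ := map_Th F hD hB hdiam
  hσφ := fun b t => Th_Lam hL b t
  hσπ := fun b => rfl
  hg := hg
  hg0 := hg0
  hg1 := hg1

variable
  (hl : ∀ x y : M, dist x y = D → finrank ℝ (H775.Pl e D x y) = 2 * 3 + 2)
  (hN : finrank ℝ E = 15 + 1)
  {p : M}
  {Pi : TangentSpace 𝓘(ℝ, E) p → TangentSpace 𝓘(ℝ, E) p →L[ℝ] TangentSpace 𝓘(ℝ, E) p}
  {o : TangentSpace 𝓘(ℝ, E) p → Fm.Lam (TangentSpace 𝓘(ℝ, E) p)}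
  {ρ : TangentSpace 𝓘(ℝ, E) p → ℝ} {r₀ : ℝ}
  (hJ : FE.LineP e D p 3 Pi o) (hρ : WE.Rho e D p ρ r₀) {a : ℝ} (ha : a ≠ 0)

include hN ha in
/-- integrality of the triple products of the generator -/
theorem int3_FF : Int3 (FE.FF F hD hB hdiam hl hJ hρ a) (FE.kap 3 a) := by
  obtain ⟨q, O, O', N, L, Ψ, δ, hM⟩ := exists_model F hD hB hdiam hl hN hJ hρ ha
  exact fun Λ t h1 h2 => int3 hM (FE.FF_d F hD hB hdiam hl hJ hρ a) (FE.kap_pos 3 ha) h1 h2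

variable {T : UT E M → ℝ → E →ₗ[ℝ] E} {Lm : Pr e D × ℝ → Pr e D} {Y : Pr e D → E} {ε₀ : ℝ}
  (hT : S2I3.LT F hD hB hdiam T)
  (hw : ∀ b t, (vec' (Lm (b, t)).w : E) =
    (nm (gm e (b.v, t)) (T b.v t (vec' b.w)))⁻¹ • T b.v t (vec' b.w))
  (hL : PushL F hD hB hdiam Lm Y ε₀)
  (g : Pr e D × ℝ → M) (hg : ((dPr e D).prod (Dif.lin ℝ)).Map (dM E M) g)
  (hg0 : ∀ b, g (b, 0) = foot b.v) (hg1 : ∀ b t, g (Lm (b, t), 1) = g (b, 1))

include hN ha hT hw hg0 hg1 in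
/-- **the integrality estimate, multiplicity seven** -/
theorem int_seven {ℓ : Form (dPr e D)} (hℓ : b1P F hD hB hdiam hL hg
      (FE.FF F hD hB hdiam hl hJ hρ a) = (-1 : ℝ) • b0P F hD hB hdiam
      (FE.FF F hD hB hdiam hl hJ hρ a) + ℓ.d)
    {a' μ : ℝ} {σ : Form (dPr e D)} (hσ : Basic Lm hL.flow.map σ)
    (hrel : b1P F hD hB hdiam hL hg (FE.FF F hD hB hdiam hl hJ hρ a) ^ 2 = a' • eP e D ^ 6 +
        μ • (eP e D ^ 2 * GsP F hD hB hdiam hg (FE.FF F hD hB hdiam hl hJ hρ a)) + σ.d)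
    (ha' : a' ≠ 0) (hEq : μ ^ 2 = -36 * a') : FE.kap 3 a ^ 2 ≤ |a'| := by
  have h2 : 2 ≤ finrank ℝ E := by omega
  have hκ := FE.kap_pos 3 ha
  have hF := FE.FF_d F hD hB hdiam hl hJ hρ a
  have hF8 : Form.IsDeg 8 (FE.FF F hD hB hdiam hl hJ hρ a) := isDeg_FF F hD hB hdiam hl hJ hρ a
  have hI := int3_FF F hD hB hdiam hl hN hJ hρ ha
  have h0 := SL_b0P F hD hB hdiam h2 hl hJ hρ ha
  have hO := orn_b0P F hD hB hdiam h2 hl hJ hρ ha
  obtain ⟨l, hline⟩ := exists_line8 F hD hB hdiam hl hN hJ hρ (a := a)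
  rw [kappa_eq] at h0
  set G := FE.FF F hD hB hdiam hl hJ hρ a with hG
  let S := dat F hD hB hdiam hL g hg hg0 hg1
  let P := SL F hD hB hdiam (l := 2 * 3 + 1) hl hO ⟨3, rfl⟩
  have hβ : S.β G = b1P F hD hB hdiam hL hg G := rfl
  have hb : P (S.β G) = (-(2 * FE.kap 3 a)) • 1 := by
    have h3 := part_SL F hD hB hdiam (l := 2 * 3 + 1) hl hO ⟨3, rfl⟩ (j := 6) (k := 0) rfl (S.β G)
    rw [(S.β_deg hF8).part_eq] at h3
    have h4 : P (S.β G) = (-(2 * FE.kap 3 a)) • 1 + (P ℓ).d := by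
      have h5 : P ℓ.d = (P ℓ).d := SL_d F hD hB hdiam (l := 2 * 3 + 1) hl hO ⟨3, rfl⟩ ℓ
      rw [hβ, hℓ, map_add, map_smul, h0, h5, smul_smul, neg_one_mul]
    refine h3.symm.trans ?_
    change Form.part 0 (P (S.β G)) = _
    rw [h4, Form.part_add, Form.part_zero_d, add_zero, Form.part_smul, Form.IsDeg.one.part_eq]
  have hP : Fib S P :=
    { d := SL_d F hD hB hdiam (l := 2 * 3 + 1) hl hO ⟨3, rfl⟩
      mul := SL_mul F hD hB hdiam (l := 2 * 3 + 1) hl hO ⟨3, rfl⟩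
      ba := fun w hw' => SL_basic F hD hB hdiam (l := 2 * 3 + 1) hl hO ⟨3, rfl⟩ hT hw hL
        ((S.good_β hF).ba G) (neg_ne_zero.2 (mul_ne_zero two_ne_zero hκ.ne')) hb hw'
      rep := fun n A hA => Rep.SL F hD hB hdiam (l := 2 * 3 + 1) hl hO ⟨3, rfl⟩ (k := 6) rfl
        (by norm_num) hA }
  have he : eP e D = Form.pull S.pi S.hpi ((2 * D)⁻¹ • (CV.alpha E M).d) :=
    (psmul map_v _ _).symm
  have hGs : GsP F hD hB hdiam hg G = S.G1 G + S.G2 G := by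
    rw [← S.G2_eq]
    rfl
  rw [← hβ, he, hGs] at hrel
  obtain ⟨s, hs, hs1, hs2⟩ := exists_lift8 (V := EuclideanSpace ℝ (Fin 8)) hN
    (by rw [finrank_euclideanSpace_fin]; norm_num) hline.plot
  obtain ⟨x, hx⟩ := hline.const
  have hx1 : ∃ v, ∀ z : EuclideanSpace ℝ (Fin 8), 1 ≤ ‖z‖ → s z = v :=
    ⟨s (EuclideanSpace.single 0 1), fun z hz =>
      hs2 _ _ ((hx z hz).trans (hx _ (by simp)).symm)⟩
  obtain ⟨v, hv⟩ := hx1
  refine abs_main hP hκ hI hF hF8 (CV.isDeg_alpha.sg_of_odd (by norm_num)) (CV.pull_phi_alpha F)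
    hb hσ hrel (fun m h3 h4 h5 C => exists_htpy F hD hB hdiam hl hN
      (by rw [finrank_eq_card_basis C.b, Fintype.card_fin]) h3 h4 h5 C.plot)
    (ptCell (hs 0)) (ptCell_one (hs 0)) (ballCell (TW.bE 8) s hs)
    (cyc_ball (n := 6) _ (TW.bE 8) hs hv) (ballCell_d (n := 6) (TW.bE 8) hs hv) ?_ ha' hEq
  rw [ballCell_I (n := 7) (TW.bE 8) hs hv, ← hline.val]
  congr 1
  refine TW.JJ_congr _ fun z => ?_
  rw [Form.pull_val _ _ (hs z)]
  congr 1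
  exact funext hs1

end

end Vale.Agent.P231Z.I7
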