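import Vale.Agent.P231Z.I7.Cell
import Vale.Agent.P231.Co.Quo

/-!
# P231, multiplicity seven, integrality: cutting a cell into small pieces
-/

set_option linter.unusedSectionVars false
set_option linter.unusedVariables false

open Set Filter Module MeasureTheory Metric
open scoped ContDiff Topology

namespace Vale.Agent.P231Z.I7

noncomputable section

open Vale.Agent.P231 Vale.Agent.P231.Fm

section Pure

variable {V : Type} [NormedAddCommGroup V] [NormedSpace ℝ V] [FiniteDimensional ℝ V]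
  [MeasurableSpace V] [BorelSpace V] (μ : Measure V) [μ.IsAddHaarMeasure]

theorem split_aux {α : Type*} (s : Finset α) (z : α → V) (r : α → ℝ) (hr : ∀ a ∈ s, 0 < r a)
    {K : Set V} (hK : IsCompact K) (hf : μ (frontier K) = 0)
    (hs : K ⊆ ⋃ a ∈ s, ball (z a) (r a)) :
    ∃ (ι : Type) (_ : Fintype ι) (L : ι → Set V), (∀ i, IsCompact (L i) ∧ L i ⊆ K ∧
      μ (frontier (L i)) = 0 ∧ ∃ a ∈ s, L i ⊆ closedBall (z a) (r a)) ∧
      ∀ g : V → ℝ, IntegrableOn g K μ → ∫ x in K, g x ∂μ = ∑ i, ∫ x in L i, g x ∂μ := by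
  classical
  induction s using Finset.induction_on generalizing K with
  | empty =>
    obtain rfl : K = ∅ := by simpa using hs
    exact ⟨Empty, inferInstance, fun i => i.elim, fun i => i.elim, fun g _ => by simp⟩
  | insert a s ha ih =>
    have h0 : μ (sphere (z a) (r a)) = 0 :=
      μ.addHaar_sphere_of_ne_zero _ (hr a (Finset.mem_insert_self _ _)).ne'
    have hF : ∀ B : Set V, frontier B ⊆ sphere (z a) (r a) → μ (frontier (K ∩ B)) = 0 :=
      fun B hB => measure_mono_null (frontier_inter_subset K B) (measure_union_null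
        (measure_mono_null inter_subset_left hf)
        (measure_mono_null (inter_subset_right.trans hB) h0))
    have h2 : IsCompact (K ∩ (ball (z a) (r a))ᶜ) := hK.inter_right isOpen_ball.isClosed_compl
    have h1 : IsCompact (K ∩ closedBall (z a) (r a)) := hK.inter_right isClosed_closedBall
    obtain ⟨ι, _, L, hL, hI⟩ := ih (fun b hb => hr b (Finset.mem_insert_of_mem hb)) h2
      (hF _ (by rw [frontier_compl]; exact frontier_ball_subset_sphere)) fun x hx => by
        have h3 := hs hx.1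
        rw [Finset.set_biUnion_insert] at h3
        exact h3.resolve_left hx.2
    refine ⟨Option ι, inferInstance, fun i => i.elim (K ∩ closedBall (z a) (r a)) L, ?_,
      fun g hg => ?_⟩
    · rintro (_ | i)
      · exact ⟨h1, inter_subset_left, hF _ frontier_closedBall_subset_sphere, a,
          Finset.mem_insert_self _ _, inter_subset_right⟩
      · obtain ⟨k1, k2, k3, b, hb, k4⟩ := hL i
        exact ⟨k1, k2.trans inter_subset_left, k3, b, Finset.mem_insert_of_mem hb, k4⟩
    · have h3 : K = K ∩ closedBall (z a) (r a) ∪ K ∩ (ball (z a) (r a))ᶜ := by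
        refine Subset.antisymm (fun x hx => ?_) (union_subset inter_subset_left inter_subset_left)
        exact (em (x ∈ ball (z a) (r a))).imp (fun h => ⟨hx, ball_subset_closedBall h⟩)
          fun h => ⟨hx, h⟩
      rw [Fintype.sum_option]
      simp only [Option.elim]
      rw [← hI g (hg.mono_set inter_subset_left), ← setIntegral_union₀
        (measure_mono_null (fun x hx => ?_) h0) h2.measurableSet.nullMeasurableSet
        (hg.mono_set inter_subset_left) (hg.mono_set inter_subset_left), ← h3]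
      exact le_antisymm hx.1.2 (not_lt.1 hx.2.2)

/-- a compact set with null frontier is cut into small ones -/
theorem exists_split {K : Set V} (hK : IsCompact K) (hf : μ (frontier K) = 0)
    (P : Set V → Prop) (hP : ∀ z ∈ K, ∃ r > 0, P (closedBall z r)) :
    ∃ (ι : Type) (_ : Fintype ι) (L : ι → Set V), (∀ i, IsCompact (L i) ∧ L i ⊆ K ∧
      μ (frontier (L i)) = 0 ∧ ∃ z ∈ K, ∃ r > 0, L i ⊆ closedBall z r ∧ P (closedBall z r)) ∧
      ∀ g : V → ℝ, IntegrableOn g K μ → ∫ x in K, g x ∂μ = ∑ i, ∫ x in L i, g x ∂μ := by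
  choose! r hr hP using hP
  obtain ⟨s, hsK, hs⟩ := hK.elim_nhds_subcover (fun z => ball z (r z))
    fun z hz => ball_mem_nhds z (hr z hz)
  obtain ⟨ι, _, L, hL, hI⟩ := split_aux μ s id r (fun a ha => hr a (hsK a ha)) hK hf hs
  refine ⟨ι, ‹_›, L, fun i => ?_, hI⟩
  obtain ⟨k1, k2, k3, a, ha, k4⟩ := hL i
  exact ⟨k1, k2, k3, a, hsK a ha, r a, hr a (hsK a ha), k4, hP a (hsK a ha)⟩

end Pure

variable {X X' : Type*} {D : Dif X} {D' : Dif X'} {n : ℕ}

/-- **a cell is a finite sum of small cells** -/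
theorem Cell.split (C : Cell D n) (P : Set C.V → Prop)
    (hP : ∀ z ∈ C.K, ∃ r > 0, P (closedBall z r)) :
    ∃ (ι : Type) (_ : Fintype ι) (K : ι → Set C.V) (hK : ∀ i, IsCompact (K i))
      (hs : ∀ i, K i ⊆ C.K) (hf : ∀ i, C.b.addHaar (frontier (K i)) = 0),
      (∀ i, ∃ z ∈ C.K, ∃ r > 0, K i ⊆ closedBall z r ∧ P (closedBall z r)) ∧
      ∀ w, C.I w = ∑ i, (C.sub (K i) (hK i) (hs i) (hf i)).I w := by
  obtain ⟨ι, i0, L, hL, hI⟩ := exists_split C.b.addHaar C.cpt C.fr P hP
  exact ⟨ι, i0, L, fun i => (hL i).1, fun i => (hL i).2.1, fun i => (hL i).2.2.1,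
    fun i => (hL i).2.2.2, fun w => hI _ (C.integrable w)⟩

/-- a property which holds near every point of a cell, for a locally chosen object -/
theorem Cell.split_loc (C : Cell D n) {α : Type*} (Q : α → C.V → Prop)
    (hQ : ∀ z ∈ C.K, ∃ a, ∀ᶠ y in 𝓝 z, Q a y) :
    ∃ (ι : Type) (_ : Fintype ι) (K : ι → Set C.V) (hK : ∀ i, IsCompact (K i))
      (hs : ∀ i, K i ⊆ C.K) (hf : ∀ i, C.b.addHaar (frontier (K i)) = 0) (a : ι → α),
      (∀ i, ∀ y ∈ K i, Q (a i) y) ∧
      ∀ w, C.I w = ∑ i, (C.sub (K i) (hK i) (hs i) (hf i)).I w := by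
  obtain ⟨ι, _, K, hK, hs, hf, h1, h2⟩ := C.split (fun B => ∃ a, ∀ y ∈ B, Q a y) fun z hz => by
    obtain ⟨a, ha⟩ := hQ z hz
    obtain ⟨r, hr, h⟩ := nhds_basis_closedBall.eventually_iff.1 ha
    exact ⟨r, hr, a, fun y hy => h hy⟩
  choose z _ r _ h3 a ha using h1
  exact ⟨ι, ‹_›, K, hK, hs, hf, a, fun i y hy => ha i y (h3 i hy), h2⟩

/-- representability is checked on small cells -/
theorem Rep.bind_loc {A : Form D → ℝ} (h : Rep D n A) {m : ℕ} (P : Form D' → Form D)
    {F : Type*} {DF : Dif F} {q : F → X} (hq : Co.IsQuo DF D q)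
    (hP : ∀ C : Cell DF n, Rep D' m fun w => C.I (Form.pull q hq.map (P w))) :
    Rep D' m fun w => A (P w) := by
  refine h.bind P fun C => ?_
  obtain ⟨ι, _, K, hK, hs, hf, f, h1, h2⟩ := C.split_loc
    (fun (f : C.V → F) y => DF.At f y ∧ q ∘ f =ᶠ[𝓝 y] C.c) fun z hz => by
      obtain ⟨f, h1, h2⟩ := hq.lift (C.plot z hz)
      exact ⟨f, (DF.open' h1).and h2.eventuallyEq_nhds⟩
  refine (Rep.sum Finset.univ fun i _ =>
    hP ((C.sub (K i) (hK i) (hs i) (hf i)).re (f i) fun z hz => (h1 i z hz).1)).congr fun w => ?_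
  rw [h2]
  refine Finset.sum_congr rfl fun i _ => setIntegral_congr_fun (hK i).measurableSet fun z hz => ?_
  change evalForm ((P w).val C.c z) C.b = evalForm ((Form.pull q hq.map (P w)).val (f i) z) C.b
  rw [Form.pull_val _ _ (h1 i z hz).1, (P w).congr (hq.map (h1 i z hz).1) (h1 i z hz).2]

end

end Vale.Agent.P231Z.I7
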