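import Vale.Agent.P231Z.I7.BOp
import Vale.Agent.P231.S2I.DegC

/-!
# P231, multiplicity seven, integrality: the two towers and the arithmetic (abstract part)
-/

set_option linter.unusedSectionVars false
set_option linter.unusedVariables false

open Set Filter Module MeasureTheory Metric
open scoped ContDiff Topology

namespace Vale.Agent.P231Z.I7

noncomputable section

open Vale.Agent.P231 Vale.Agent.P231.Fm Vale.Agent.P231.W Vale.Agent.P231.H584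

section Base

variable {X : Type*} {D : Dif X}

/-- the cell of a point -/
def ptCell {V : Type} [NormedAddCommGroup V] [NormedSpace ℝ V] [FiniteDimensional ℝ V]
    {u : V → X} {x : V} (h : D.At u x) : Cell D 0 where
  V := Fin 0 → ℝ
  b := Pi.basisFun ℝ (Fin 0)
  K := univ
  c := u ∘ fun _ => x
  cpt := isCompact_univ
  fr := by rw [frontier_univ, measure_empty]
  plot := fun z _ => D.comp (u := u) (g := fun _ => x) h (Sm.of_contDiff contDiff_const _)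

theorem ptCell_one {V : Type} [NormedAddCommGroup V] [NormedSpace ℝ V] [FiniteDimensional ℝ V]
    {u : V → X} {x : V} (h : D.At u x) : (ptCell h).I 1 = 1 := by
  have h1 : ∀ z ∈ (ptCell h).K, evalForm ((1 : Form D).val (ptCell h).c z) (ptCell h).b = 1 := by
    intro z hz
    rw [Form.one_val ((ptCell h).plot z hz), evalForm_apply, cont_zero, map_one]
  rw [Cell.I, setIntegral_congr_fun (ptCell h).meas h1, setIntegral_const, smul_eq_mul, mul_one]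
  have h2 : (ptCell h).K = parallelepiped (ptCell h).b := by
    refine (eq_univ_of_forall fun z => ?_).symm
    exact (mem_parallelepiped_iff _ _).2 ⟨0, ⟨le_rfl, zero_le_one⟩,
      Subsingleton.elim (α := Fin 0 → ℝ) _ _⟩
  rw [h2, Measure.real, Basis.addHaar_self, ENNReal.toReal_one]

theorem Cell.d_zero (C : Cell D 0) (ρ : Form D) : C.I ρ.d = 0 := by
  refine C.I_eq_zero fun z hz => ?_
  rw [← WA.evalForm_prt, ← Form.part_val, Form.part_zero_d, Form.zero_val]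
  exact map_zero (evalL C.b)

theorem cyc_zero {T : ℝ} {Φ : X × ℝ → X} (hΦ : IsFlow D T Φ) (C : Cell D 0) : Cyc hΦ C :=
  fun U hU h ρ _ => Cell.d_zero _ ρ

variable {W : Type} [NormedAddCommGroup W] [NormedSpace ℝ W] [FiniteDimensional ℝ W]
  [MeasurableSpace W] [BorelSpace W] {n : ℕ}

/-- the cell of a plot which is constant outside the unit ball -/
def ballCell (b : Basis (Fin n) ℝ W) (s : W → X) (hs : ∀ z, D.At s z) : Cell D n where
  V := W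
  b := b
  K := closedBall 0 1
  c := s
  cpt := isCompact_closedBall 0 1
  fr := (convex_closedBall (0 : W) 1).addHaar_frontier _
  plot := fun z _ => hs z

theorem prt_out {s : W → X} (hs : ∀ z, D.At s z) {x : X} (hc : ∀ z, 1 ≤ ‖z‖ → s z = x)
    (w : Form D) {z : W} (hz : z ∉ closedBall (0 : W) 1) {k : ℕ} (hk : k ≠ 0) :
    WA.prt k (w.val s z) = 0 := by
  have h1 : ∀ y ∉ closedBall (0 : W) 1, s y = x := fun y hy =>
    hc y (not_le.1 (mem_closedBall_zero_iff.not.1 hy)).le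
  have h2 : s =ᶠ[𝓝 z] s ∘ fun _ => z := by
    filter_upwards [isClosed_closedBall.isOpen_compl.mem_nhds hz] with y hy
    exact (h1 y hy).trans (h1 z hz).symm
  have h3 := w.nat (u := s) (g := fun _ : W => z) (x := z) (hs z) (Sm.of_contDiff contDiff_const _)
  rw [w.congr (hs z) h2, h3, fderiv_fun_const, WA.prt_pull]
  exact (DegC.q_iff_prt.2 (WA.prt_prt_self k _)).pull_zero_eq hk

theorem ballCell_I (b : Basis (Fin (n + 1)) ℝ W) {s : W → X} (hs : ∀ z, D.At s z) {x : X}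
    (hc : ∀ z, 1 ≤ ‖z‖ → s z = x) (w : Form D) :
    (ballCell b s hs).I w = TW.JJ b (w.val s) := by
  refine setIntegral_eq_integral_of_forall_compl_eq_zero fun z hz => ?_
  change evalForm (w.val s z) b = 0
  rw [← WA.evalForm_prt, prt_out hs hc w hz (Nat.succ_ne_zero n)]
  exact map_zero (evalL b)

theorem ballCell_d (b : Basis (Fin (n + 1 + 1)) ℝ W) {s : W → X} (hs : ∀ z, D.At s z) {x : X}
    (hc : ∀ z, 1 ≤ ‖z‖ → s z = x) (ρ : Form D) : (ballCell b s hs).I ρ.d = 0 := by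
  rw [ballCell_I b hs hc, TW.JJ_congr b fun z => Form.d_val ρ (hs z)]
  exact TW.JJ_extd b (contDiff_iff_contDiffAt.2 fun z => (ρ.smooth (hs z)).of_le (by simp))
    (isCompact_closedBall 0 1) fun z hz => prt_out hs hc ρ hz (Nat.succ_ne_zero n)

theorem cyc_ball {T : ℝ} {Φ : X × ℝ → X} (hΦ : IsFlow D T Φ) (b : Basis (Fin (n + 1 + 1)) ℝ W)
    {s : W → X} (hs : ∀ z, D.At s z) {x : X} (hc : ∀ z, 1 ≤ ‖z‖ → s z = x) :
    Cyc hΦ (ballCell b s hs) := by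
  intro U hU h ρ _
  have h1 : ∀ z, s z ∈ U := fun z => by
    rcases le_total ‖z‖ 1 with h2 | h2
    · exact h z (mem_closedBall_zero_iff.2 h2)
    · have h3 : ‖‖z‖⁻¹ • z‖ = 1 := norm_smul_inv_norm (𝕜 := ℝ) (norm_pos_iff.1 (by linarith))
      rw [hc z h2, ← hc _ h3.ge]
      exact h _ (mem_closedBall_zero_iff.2 h3.le)
  exact ballCell_d (D := D.on U) b (fun z => POpen.at (dB := D) (U := U) hU.po (hs z) (h1 z)) hc ρ

end Base

theorem arith {κ a μ : ℝ} (hκ : 0 < κ) (ha : a ≠ 0) (hEq : μ ^ 2 = -36 * a) {k N j : ℤ}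
    (h1 : k * κ ^ 3 = -(2 * κ) * a + μ * (N * κ ^ 2)) (h2 : 4 * μ = j * κ) : κ ^ 2 ≤ |a| := by
  have h3 : μ = j * κ / 4 := by linarith
  have h4 : a = -(j ^ 2 * κ ^ 2 / 576) := by
    rw [h3] at hEq
    linarith
  have h5 : ((j ^ 2 + 72 * j * N : ℤ) : ℝ) = ((288 * k : ℤ) : ℝ) := by
    refine mul_right_cancel₀ (pow_ne_zero 3 hκ.ne') ?_
    push_cast
    rw [mul_assoc (288 : ℝ), h1, h4, h3]
    ring
  have h6 : j ^ 2 + 72 * j * N = 288 * k := by exact_mod_cast h5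
  obtain ⟨y, rfl⟩ : (2 : ℤ) ∣ j :=
    Int.prime_two.dvd_of_dvd_pow (n := 2) ⟨144 * k - 36 * j * N, by linarith⟩
  obtain ⟨x, rfl⟩ : (2 : ℤ) ∣ y :=
    Int.prime_two.dvd_of_dvd_pow (n := 2) ⟨36 * k - 18 * y * N, by linarith⟩
  obtain ⟨u, rfl⟩ : (2 : ℤ) ∣ x :=
    Int.prime_two.dvd_of_dvd_pow (n := 2) ⟨9 * k - 9 * x * N, by linarith⟩
  obtain ⟨v, hv⟩ : (3 : ℤ) ∣ 2 * u :=
    Int.prime_three.dvd_of_dvd_pow (n := 2) ⟨6 * k - 12 * u * N, by linarith⟩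
  obtain ⟨r, rfl⟩ : (3 : ℤ) ∣ u := ⟨u - v, by linarith⟩
  have h7 : r ≠ 0 := fun h => ha (by rw [h4, h]; simp)
  have h8 : (1 : ℝ) ≤ (r : ℝ) ^ 2 := by
    have h9 : (1 : ℤ) ≤ r ^ 2 := by
      have := sq_pos_of_ne_zero h7
      omega
    exact_mod_cast h9
  have h9 : a = -((r : ℝ) ^ 2 * κ ^ 2) := by
    rw [h4]
    push_cast
    ring
  rw [h9, abs_neg, abs_of_nonneg (by positivity)]
  exact le_mul_of_one_le_left (by positivity) h8

variable {B U M : Type*} {dB : Dif B} {dU : Dif U} {dM : Dif M} {D : ℝ}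

section Two

variable {T : ℝ} {Φ : U × ℝ → U}

/-- two steps of the tower -/
theorem step2 (hΦ : IsFlow dU T Φ) (hT : 0 < T) {α : Form dU}
    (hα : Form.pull Φ hΦ.map α = pr α + dt)
    (hH : ∀ m, 0 < m → m ≠ 8 → m + 1 < 16 → ∀ C : Cell dU m,
      ∃ W H, Htpy dU m W H ∧ ∀ z ∈ C.K, C.c z ∈ W)
    {n : ℕ} (h7 : n ≠ 7) (h5 : n ≠ 5) (hn : n < 12) {C : Cell dU n} (hC : Cyc hΦ C) :
    ∃ C' : Cell dU (1 + (1 + (1 + (1 + n)))), Cyc hΦ C' ∧ ∀ w : Form dU, w.d = 0 →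
      Basic Φ hΦ.map w → C'.I ((T⁻¹ • α.d) ^ 2 * w) = C.I w := by
  obtain ⟨W₁, H₁, h1, h2⟩ := hH (1 + n) (by omega) (by omega) (by omega) (C.sw hΦ)
  obtain ⟨C₁, h3, h4⟩ := step hΦ hT hα hC h1 h2
  obtain ⟨W₂, H₂, h5, h6⟩ := hH (1 + (1 + (1 + n))) (by omega) (by omega) (by omega) (C₁.sw hΦ)
  obtain ⟨C₂, h7, h8⟩ := step hΦ hT hα h3 h5 h6
  have h9 : Basic Φ hΦ.map α.d := by
    rw [basic_def, Form.pull_d, hα, Form.d_add, dt_d, add_zero, pr_d]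
  refine ⟨C₂, h7, fun w hw hb => ?_⟩
  rw [pow_two, mul_assoc, h8 _ (mul_closed (by rw [Form.d_smul, Form.d_d, smul_zero]) hw)
    (Basic.mul (Basic.smul _ h9) hb), h4 w hw hb, neg_neg]

end Two

/-- integration along the fibres -/
structure Fib (S : Dat dB dU dM D) (P : Form dB →ₗ[ℝ] Form dU) : Prop where
  d : ∀ w, P w.d = (P w).d
  mul : ∀ w v, P (w * Form.pull S.pi S.hpi v) = P w * v
  ba : ∀ w, Basic S.φ S.hφ.map w → Basic S.φU S.hφU.map (P w)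
  rep : ∀ n A, Rep dU n A → Rep dB (6 + n) fun w => A (P w)

variable {S : Dat dB dU dM D} {P : Form dB →ₗ[ℝ] Form dU}

theorem Fib.stokes (hP : Fib S P) {n : ℕ} {C : Cell dU n} (hC : Cyc S.hφU C) (ρ : Form dB)
    (hρ : Basic S.φ S.hφ.map ρ) : C.I (P ρ.d) = 0 := by
  rw [hP.d]
  exact hC.stokes (hP.ba _ hρ)

variable {F : Form dM} {κ : ℝ}

theorem Fib.int12 (hP : Fib S P) (hI : Int3 F κ) (hF : F.d = 0) (hF8 : Form.IsDeg 8 F)
    {n : ℕ} (hn : n = 12) {C : Cell dU n} (hC : Cyc S.hφU C) :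
    ∃ k : ℤ, C.I (P (S.β F * S.β F ^ 2)) = k * κ ^ 3 := by
  rw [pow_two]
  exact tri hI hF8 (S.kr_β map_id') (S.kr_β Dif.map_fst) (S.kr_β map_ff) (S.good_β hF)
    (S.good_β hF) (S.good_β hF) (hP.rep _ _ (Rep.cell C)) (hP.stokes hC) (by omega)

theorem Fib.int8 (hP : Fib S P) (hκ : 0 < κ) (hI : Int3 F κ) (hF : F.d = 0)
    (hF8 : Form.IsDeg 8 F) (L : Cell dM 8) (hL : ∀ η : Form dM, L.I η.d = 0) (hL' : |L.I F| = κ)
    {h : B → M} (hh : dB.Map dM h) (hi : ∀ b t, h (S.φ (b, t)) = h b)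
    {n : ℕ} (hn : n = 8) {C : Cell dU n} (hC : Cyc S.hφU C) :
    ∃ k : ℤ, C.I (P (S.β F * Form.pull h hh F)) = k * κ ^ 2 := by
  obtain ⟨k, hk⟩ := tri hI hF8 (kr_cell map_id' L) (S.kr_β Dif.map_fst) (kr_pull map_ff hh)
    (good_pull hF hh hi) (S.good_β hF) (good_cell L hL) (hP.rep _ _ (Rep.cell C))
    (hP.stokes hC) (by omega)
  rw [smul_mul_assoc, one_mul, map_smul, Cell.I_smul] at hk
  rcases (abs_eq hκ.le).1 hL' with h1 | h1
  · refine ⟨k, mul_left_cancel₀ hκ.ne' ?_⟩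
    rw [h1] at hk
    rw [hk]
    ring
  · refine ⟨-k, mul_left_cancel₀ hκ.ne' ?_⟩
    rw [h1, neg_mul, neg_eq_iff_eq_neg] at hk
    rw [hk]
    push_cast
    ring

variable {α : Form dU} {a μ : ℝ} {σ : Form dB}

theorem Fib.ident (hP : Fib S P) (hF : F.d = 0) (hF8 : Form.IsDeg 8 F) (hαo : α.sg = -α)
    (hb : P (S.β F) = (-(2 * κ)) • 1) (hσ : Basic S.φ S.hφ.map σ)
    (hrel : S.β F ^ 2 = a • Form.pull S.pi S.hpi ((2 * D)⁻¹ • α.d) ^ 6 +
      μ • (Form.pull S.pi S.hpi ((2 * D)⁻¹ • α.d) ^ 2 * (S.G1 F + S.G2 F)) + σ.d)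
    {n m : ℕ} {C : Cell dU n} {C' : Cell dU m} (hC' : Cyc S.hφU C')
    (h : ∀ w : Form dU, w.d = 0 → Basic S.φU S.hφU.map w →
      C'.I (((2 * D)⁻¹ • α.d) ^ 2 * w) = C.I w) :
    C'.I (P (S.β F * S.β F ^ 2)) = -(2 * κ) * a * C'.I (((2 * D)⁻¹ • α.d) ^ 6) +
      μ * (C.I (P (S.β F * S.G1 F)) + C.I (P (S.β F * S.G2 F))) := by
  have g0 := S.good_β hF
  have g1 := S.good_G1 hF
  have g2 := S.good_G2 hF
  have he : ((2 * D)⁻¹ • α.d).sg = (2 * D)⁻¹ • α.d := by rw [Form.sg_smul, d_even hαo]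
  have h1 : S.β F * σ.d = (S.β F * σ).d := by
    rw [Form.d_mul, g0.cl, zero_mul, zero_add, g0.ev _ hF8]
  have h2 : S.β F * S.β F ^ 2 = a • (S.β F * Form.pull S.pi S.hpi (((2 * D)⁻¹ • α.d) ^ 6)) +
      μ • (S.β F * (S.G1 F + S.G2 F) * Form.pull S.pi S.hpi (((2 * D)⁻¹ • α.d) ^ 2)) +
      (S.β F * σ).d := by
    rw [hrel, mul_add, mul_add, h1, mul_smul_comm, mul_smul_comm, ppow, ppow,
      (even_comm (pow_even (peven S.hpi he) 2) _).eq, mul_assoc]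
  have h3 : (P (S.β F * (S.G1 F + S.G2 F))).d = 0 := by
    rw [← hP.d, mul_closed g0.cl (by rw [Form.d_add, g1.cl, g2.cl, add_zero]), map_zero]
  rw [h2, map_add, map_add, map_smul, map_smul, hP.mul, hP.mul, hb, Cell.I_add, Cell.I_add,
    hP.stokes hC' _ (Basic.mul (g0.ba _) hσ), Cell.I_smul, Cell.I_smul, smul_mul_assoc, one_mul,
    Cell.I_smul, ← (even_comm (pow_even he 2) _).eq,
    h _ h3 (hP.ba _ (Basic.mul (g0.ba _) (Basic.add (g1.ba _) (g2.ba _)))), mul_add (S.β F),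
    map_add, Cell.I_add]
  ring

theorem Fib.val_of (hP : Fib S P) (hF : F.d = 0) (hF8 : Form.IsDeg 8 F)
    (hb : P (S.β F) = (-(2 * κ)) • 1) {n : ℕ} {C : Cell dU n} (hC : ∀ ρ : Form dU, C.I ρ.d = 0)
    {G τ : Form dB} (hG : G = S.Fx F + τ.d) :
    C.I (P (S.β F * G)) = -(2 * κ) * C.I (Form.pull S.foot S.hfoot F) := by
  have g0 := S.good_β hF
  have h1 : S.β F * τ.d = (S.β F * τ).d := by
    rw [Form.d_mul, g0.cl, zero_mul, zero_add, g0.ev _ hF8]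
  rw [hG, mul_add, h1, map_add, Dat.Fx, hP.mul, hb, hP.d, Cell.I_add, hC, add_zero,
    smul_mul_assoc, one_mul, Cell.I_smul]

theorem Dat.G1_ex (S : Dat dB dU dM D) (hF : F.d = 0) : S.G1 F = S.Fx F + (S.Kg F).d := by
  have h1 := S.Kg_d F
  rw [hF, Dat.Kg, pzero, K_zero] at h1
  exact sub_eq_iff_eq_add'.1 (sub_eq_zero.1 h1.symm)

theorem Dat.G2_ex (S : Dat dB dU dM D) (hF : F.d = 0) : ∃ τ : Form dB, S.G2 F = S.Fx F + τ.d := by
  have h1 := KT_homotopy D (Form.pull S.φ S.hφ.map (S.Fx F))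
  rw [flow_at_zero S.hφ, at_pull_of S.hφ.map, ← Form.pull_d,
    show (S.Fx F).d = 0 from pclosed S.hpi (pclosed S.hfoot hF), pzero, KT_zero, zero_add] at h1
  refine ⟨KT D (Form.pull S.φ S.hφ.map (S.Fx F)) + Form.pull S.σ S.hσ (S.Kg F), ?_⟩
  rw [← S.G2_eq, S.G1_ex hF, padd, S.σ_Fx, Form.d_add, ← h1, Form.pull_d]
  abel

/-- **the abstract theorem** -/
theorem abs_main (hP : Fib S P) (hκ : 0 < κ) (hI : Int3 F κ) (hF : F.d = 0)
    (hF8 : Form.IsDeg 8 F) (hαo : α.sg = -α) (hα : Form.pull S.φU S.hφU.map α = pr α + dt)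
    (hb : P (S.β F) = (-(2 * κ)) • 1) (hσ : Basic S.φ S.hφ.map σ)
    (hrel : S.β F ^ 2 = a • Form.pull S.pi S.hpi ((2 * D)⁻¹ • α.d) ^ 6 +
      μ • (Form.pull S.pi S.hpi ((2 * D)⁻¹ • α.d) ^ 2 * (S.G1 F + S.G2 F)) + σ.d)
    (hH : ∀ m, 0 < m → m ≠ 8 → m + 1 < 16 → ∀ C : Cell dU m,
      ∃ W H, Htpy dU m W H ∧ ∀ z ∈ C.K, C.c z ∈ W)
    (C₀ : Cell dU 0) (h₀ : C₀.I 1 = 1) (L : Cell dU 8) (hL : Cyc S.hφU L)
    (hL₁ : ∀ ρ : Form dU, L.I ρ.d = 0) (hL₂ : |L.I (Form.pull S.foot S.hfoot F)| = κ)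
    (ha : a ≠ 0) (hEq : μ ^ 2 = -36 * a) : κ ^ 2 ≤ |a| := by
  have hT : 0 < 2 * D := by linarith [S.hD]
  have hed : ((2 * D)⁻¹ • α.d).d = 0 := by rw [Form.d_smul, Form.d_d, smul_zero]
  have heb : Basic S.φU S.hφU.map ((2 * D)⁻¹ • α.d) := Basic.smul _ (by
    rw [basic_def, Form.pull_d, hα, Form.d_add, dt_d, add_zero, pr_d])
  have hLM : ∀ η : Form dM, (L.map S.foot S.hfoot).I η.d = 0 := fun η => by
    rw [Cell.map_I, Form.pull_d, hL₁]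
  have hLM' : |(L.map S.foot S.hfoot).I F| = κ := by rw [Cell.map_I, hL₂]
  -- the first tower
  obtain ⟨C₄, c₄, e₄⟩ := step2 S.hφU hT hα hH (by omega) (by omega) (by omega) (cyc_zero _ C₀)
  obtain ⟨C₈, c₈, e₈⟩ := step2 S.hφU hT hα hH (by omega) (by omega) (by omega) c₄
  obtain ⟨C₁₂, c₁₂, e₁₂⟩ := step2 S.hφU hT hα hH (by omega) (by omega) (by omega) c₈
  have h1 : C₁₂.I (((2 * D)⁻¹ • α.d) ^ 6) = 1 := by
    rw [show (6 : ℕ) = 2 + 4 from rfl, pow_add, e₁₂ _ (pow_closed hed 4) (Basic.pow heb 4),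
      show (4 : ℕ) = 2 + 2 from rfl, pow_add, e₈ _ (pow_closed hed 2) (Basic.pow heb 2),
      ← mul_one (_ ^ 2), e₄ _ Form.d_one Basic.one, h₀]
  have h2 := hP.ident hF hF8 hαo hb hσ hrel c₁₂ e₁₂
  obtain ⟨k, hk⟩ := hP.int12 hI hF hF8 rfl c₁₂
  obtain ⟨N₁, hN₁⟩ := hP.int8 hκ hI hF hF8 _ hLM hLM' (map_at S.hg 1) S.hg1 rfl c₈
  obtain ⟨N₂, hN₂⟩ := hP.int8 hκ hI hF hF8 _ hLM hLM' S.map_G2
    (fun b t => by rw [S.hσφ, S.hg1]) rfl c₈
  rw [hk, h1, Dat.G1, Dat.G2, hN₁, hN₂] at h2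
  -- the second tower
  obtain ⟨L', c', e'⟩ := step2 S.hφU hT hα hH (by omega) (by omega) (by omega) hL
  have h3 : L'.I (((2 * D)⁻¹ • α.d) ^ 6) = 0 := by
    have h4 : ((2 * D)⁻¹ • α.d) ^ 4 = (((2 * D)⁻¹ • α) * ((2 * D)⁻¹ • α.d) ^ 3).d := by
      rw [d_mul_closed _ (pow_closed hed 3), Form.d_smul, ← pow_succ']
    rw [show (6 : ℕ) = 2 + 4 from rfl, pow_add, e' _ (pow_closed hed 4) (Basic.pow heb 4), h4, hL₁]
  have h5 := hP.ident hF hF8 hαo hb hσ hrel c' e'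
  obtain ⟨j, hj⟩ := hP.int12 hI hF hF8 rfl c'
  obtain ⟨τ, hτ⟩ := S.G2_ex hF
  rw [hj, h3, hP.val_of hF hF8 hb hL₁ (S.G1_ex hF), hP.val_of hF hF8 hb hL₁ hτ] at h5
  have h6 : ∃ j' : ℤ, 4 * μ = j' * κ := by
    rcases (abs_eq hκ.le).1 hL₂ with h7 | h7
    · refine ⟨-j, mul_right_cancel₀ (pow_ne_zero 2 hκ.ne') ?_⟩
      rw [h7] at h5
      push_cast
      linarith
    · refine ⟨j, mul_right_cancel₀ (pow_ne_zero 2 hκ.ne') ?_⟩
      rw [h7] at h5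
      linarith
  obtain ⟨j', hj'⟩ := h6
  refine arith hκ ha hEq (k := k) (N := N₁ + N₂) ?_ hj'
  push_cast
  linarith

end

end Vale.Agent.P231Z.I7
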