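import Vale.Agent.P231Z.I7.Tower
import Vale.Agent.P231.H584.Quad
import Vale.Agent.P231.WR.Th

/-!
# P231, multiplicity seven, integrality: operators with kernels and the triple products
-/

set_option linter.unusedSectionVars false
set_option linter.unusedVariables false

open Set Filter Module MeasureTheory Metric
open scoped ContDiff Topology

namespace Vale.Agent.P231Z.I7

noncomputable section

open Vale.Agent.P231 Vale.Agent.P231.Fm Vale.Agent.P231.W Vale.Agent.P231.H584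

section Pull

variable {X Y : Type*} {D : Dif X} {D' : Dif Y} {f : X → Y}

theorem pmul (hf : D.Map D' f) (a b : Form D') :
    Form.pull f hf (a * b) = Form.pull f hf a * Form.pull f hf b := map_mul (Form.pullA f hf) a b

theorem padd (hf : D.Map D' f) (a b : Form D') :
    Form.pull f hf (a + b) = Form.pull f hf a + Form.pull f hf b := map_add (Form.pullA f hf) a b

theorem psub (hf : D.Map D' f) (a b : Form D') :
    Form.pull f hf (a - b) = Form.pull f hf a - Form.pull f hf b := map_sub (Form.pullA f hf) a b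

theorem psmul (hf : D.Map D' f) (c : ℝ) (a : Form D') :
    Form.pull f hf (c • a) = c • Form.pull f hf a := map_smul (Form.pullA f hf) c a

theorem ppow (hf : D.Map D' f) (a : Form D') (k : ℕ) :
    Form.pull f hf (a ^ k) = Form.pull f hf a ^ k := map_pow (Form.pullA f hf) a k

theorem pone (hf : D.Map D' f) : Form.pull f hf 1 = 1 := map_one (Form.pullA f hf)

theorem pzero (hf : D.Map D' f) : Form.pull f hf 0 = 0 := map_zero (Form.pullA f hf)

theorem pclosed (hf : D.Map D' f) {a : Form D'} (ha : a.d = 0) : (Form.pull f hf a).d = 0 := by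
  rw [← Form.pull_d, ha, pzero]

theorem peven (hf : D.Map D' f) {a : Form D'} (ha : a.sg = a) :
    (Form.pull f hf a).sg = Form.pull f hf a := by
  rw [← Form.pull_sg, ha]

theorem map_id' : D.Map D id := fun h => h

theorem map_ff {Z : Type*} {D'' : Dif Z} : ((D.prod D').prod D'').Map D (fun p => p.1.1) :=
  fun h => h.1.1

theorem pid (a : Form D) : Form.pull id map_id' a = a := Form.pull_id map_id' a

theorem Rep.cast {n m : ℕ} {A : Form D → ℝ} (h : Rep D n A) (e : n = m) : Rep D m A := e ▸ h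

end Pull

variable {B U M : Type*} {dB : Dif B} {dU : Dif U} {dM : Dif M}

section Kr

variable {X : Type*}

/-- the operator `O` has a kernel of dimension `k` -/
def Kr (O : Form dM → Form dB) (k : ℕ) (dX : Dif X) (r : X → B) (hr : dX.Map dB r) : Prop :=
  ∀ (n : ℕ) (A : Form dX → ℝ), Rep dX n A → ∃ A', Rep (dX.prod dM) (k + n) A' ∧
    ∀ (v : Form dX) (w : Form dM), A' (Form.pull Prod.snd Dif.map_snd w *
      Form.pull Prod.fst Dif.map_fst v) = A (Form.pull r hr (O w) * v)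

variable {dX : Dif X} {r : X → B}

theorem kr_pull (hr : dX.Map dB r) {h : B → M} (hh : dB.Map dM h) :
    Kr (Form.pull h hh) 0 dX r hr := by
  intro n A hA
  have h1 : dX.Map (dX.prod dM) (fun x => (x, h (r x))) := fun k => ⟨k, hh (hr k)⟩
  refine ⟨_, (hA.pull _ h1).cast (zero_add n).symm, fun v w => ?_⟩
  have h2 : dX.Map dM (fun x => h (r x)) := fun k => hh (hr k)
  change A (Form.pull _ h1 _) = _
  rw [pmul, pull_pull h1 Dif.map_snd h2 (fun _ => rfl), pull_pull hr hh h2 (fun _ => rfl),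
    pull_pull (k := id) h1 Dif.map_fst map_id' (fun _ => rfl), pid]

theorem kr_cell (hr : dX.Map dB r) {k : ℕ} (C : Cell dM k) :
    Kr (fun w => C.I w • (1 : Form dB)) k dX r hr := by
  intro n A hA
  obtain ⟨A', h1, h2⟩ := hA.prod C
  refine ⟨A', h1, fun v w => ?_⟩
  rw [h2, psmul, pone, smul_mul_assoc, one_mul, hA.map_smul]

theorem Kr.sub {hr : dX.Map dB r} {O O' : Form dM → Form dB} {k : ℕ} (h : Kr O k dX r hr)
    (h' : Kr O' k dX r hr) : Kr (fun w => O w - O' w) k dX r hr := by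
  intro n A hA
  obtain ⟨A₁, h1, h2⟩ := h n A hA
  obtain ⟨A₂, h3, h4⟩ := h' n A hA
  refine ⟨_, h1.sub h3, fun v w => ?_⟩
  rw [h2, h4, psub, sub_mul, hA.map_sub]

theorem Kr.congr {hr : dX.Map dB r} {O O' : Form dM → Form dB} {k : ℕ} (h : Kr O k dX r hr)
    (e : ∀ w, O' w = O w) : Kr O' k dX r hr := by
  obtain rfl : O' = O := funext e
  exact h

theorem kr_JK (hr : dX.Map dB r) {φ : B × ℝ → B} (hφ : (dB.prod (Dif.lin ℝ)).Map dB φ) (T : ℝ)
    {g : B × ℝ → M} (hg : (dB.prod (Dif.lin ℝ)).Map dM g) :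
    Kr (fun w => J φ hφ T (Form.K (Form.pull g hg w))) 2 dX r hr := by
  intro n A hA
  have h0 : (dX.prod (Dif.lin ℝ)).Map dB (fun p => φ (r p.1, p.2)) := fun k => hφ (map_cyl hr k)
  have h1 : ((dX.prod (Dif.lin ℝ)).prod (Dif.lin ℝ)).Map dM
      (fun p => g (φ (r p.1.1, p.1.2), p.2)) := fun k => hg (map_cyl h0 k)
  have h2 : ((dX.prod (Dif.lin ℝ)).prod (Dif.lin ℝ)).Map dX (fun p => p.1.1) := fun k => k.1.1
  have h3 : ((dX.prod (Dif.lin ℝ)).prod (Dif.lin ℝ)).Map (dX.prod dM)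
      (fun p => (p.1.1, g (φ (r p.1.1, p.1.2), p.2))) := fun k => ⟨h2 k, h1 k⟩
  refine ⟨_, (((hA.KT T).K).pull _ h3).cast (by omega), fun v w => ?_⟩
  change A (KT T (Form.K (Form.pull _ h3 _))) = _
  have e1 : Form.pull _ h2 v = pr (pr v) :=
    (pull_pull Dif.map_fst Dif.map_fst h2 (fun _ => rfl) v).symm
  have e2 : Form.pull _ h1 w = Form.pull _ (map_cyl h0) (Form.pull g hg w) :=
    (pull_pull (map_cyl h0) hg h1 (fun _ => rfl) w).symm
  have e3 : ∀ x : Form dB, Form.pull _ h0 x =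
      Form.pull _ (map_cyl hr) (Form.pull φ hφ x) := fun x =>
    (pull_pull (map_cyl hr) hφ h0 (fun _ => rfl) x).symm
  rw [pmul, pull_pull h3 Dif.map_snd h1 (fun _ => rfl), pull_pull h3 Dif.map_fst h2 (fun _ => rfl),
    e1, K_mul_pr, KT_mul_pr, e2, K_nat h0, e3, ← WR.KT_nat hr]
  rfl

end Kr

/-- the functional of the triple product -/
theorem rep3 {O₁ O₂ O₃ : Form dM → Form dB} {k₁ k₂ k₃ : ℕ} (h₃ : Kr O₃ k₃ dB id map_id')
    (h₂ : Kr O₂ k₂ (dB.prod dM) Prod.fst Dif.map_fst)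
    (h₁ : Kr O₁ k₁ ((dB.prod dM).prod dM) (fun p => p.1.1) map_ff)
    {n : ℕ} {A : Form dB → ℝ} (hA : Rep dB n A) :
    ∃ Λ, Rep (dM.prod (dM.prod dM)) (k₁ + (k₂ + (k₃ + n))) Λ ∧ ∀ w₁ w₂ w₃ : Form dM,
      w₂.sg = w₂ → w₃.sg = w₃ → Λ (X3 w₁ w₂ w₃) = A (O₃ w₃ * (O₂ w₂ * O₁ w₁)) := by
  obtain ⟨A₃, r₃, e₃⟩ := h₃ _ _ hA
  obtain ⟨A₂, r₂, e₂⟩ := h₂ _ _ r₃
  obtain ⟨A₁, r₁, e₁⟩ := h₁ _ _ r₂
  have p₁ : (((dB.prod dM).prod dM).prod dM).Map dM (fun p => p.2) := fun h => h.2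
  have p₂ : (((dB.prod dM).prod dM).prod dM).Map dM (fun p => p.1.2) := fun h => h.1.2
  have p₃ : (((dB.prod dM).prod dM).prod dM).Map dM (fun p => p.1.1.2) := fun h => h.1.1.2
  have p₃' : ((dB.prod dM).prod dM).Map dM (fun p => p.1.2) := fun h => h.1.2
  have hπ : (((dB.prod dM).prod dM).prod dM).Map (dM.prod (dM.prod dM))
      (fun p => (p.2, p.1.2, p.1.1.2)) := fun h => ⟨p₁ h, p₂ h, p₃ h⟩
  refine ⟨_, r₁.pull _ hπ, fun w₁ w₂ w₃ s₂ s₃ => ?_⟩
  change A₁ (Form.pull _ hπ _) = _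
  have f₂ : Form.pull _ p₂ w₂ = Form.pull Prod.fst Dif.map_fst
      (Form.pull Prod.snd (Dif.map_snd (D := dB.prod dM)) w₂) :=
    (pull_pull Dif.map_fst Dif.map_snd p₂ (fun _ => rfl) w₂).symm
  have f₃ : Form.pull _ p₃ w₃ = Form.pull Prod.fst Dif.map_fst (Form.pull _ p₃' w₃) :=
    (pull_pull Dif.map_fst p₃' p₃ (fun _ => rfl) w₃).symm
  have f₃' : Form.pull _ p₃' w₃ = Form.pull Prod.fst Dif.map_fst
      (Form.pull Prod.snd (Dif.map_snd (D := dB)) w₃) :=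
    (pull_pull Dif.map_fst Dif.map_snd p₃' (fun _ => rfl) w₃).symm
  have f₀ : ∀ x : Form dB, Form.pull _ (map_ff (D' := dM) (D'' := dM)) x = Form.pull Prod.fst Dif.map_fst
      (Form.pull Prod.fst (Dif.map_fst (D' := dM)) x) := fun x =>
    (pull_pull Dif.map_fst Dif.map_fst map_ff (fun _ => rfl) x).symm
  rw [X3, pmul, pmul, pull_pull hπ map_p1 p₁ (fun _ => rfl), pull_pull hπ map_p2 p₂ (fun _ => rfl),
    pull_pull hπ map_p3 p₃ (fun _ => rfl), f₂, f₃, ← pmul]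
  refine (e₁ _ w₁).trans ?_
  rw [← mul_assoc, ← (even_comm (peven Dif.map_snd s₂) _).eq, mul_assoc, f₃', f₀, ← pmul, e₂,
    ← (even_comm (peven Dif.map_snd s₃) _).eq, ← mul_assoc,
    ← (even_comm (peven Dif.map_snd s₃) _).eq, mul_assoc, ← pmul, e₃, pid]

section Good

variable {φ : B × ℝ → B} (hφ : (dB.prod (Dif.lin ℝ)).Map dB φ) (F : Form dM)

/-- the operator respects the classes -/
structure Good (O : Form dM → Form dB) : Prop where
  ev : ∀ w, Form.IsDeg 8 w → (O w).sg = O w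
  ba : ∀ w, Basic φ hφ (O w)
  cl : (O F).d = 0
  ex : ∀ (c : ℝ) (η : Form dM), ∃ τ, Basic φ hφ τ ∧ O (c • F + η.d) = c • O F + τ.d

variable {hφ F}

theorem Good.closed {O : Form dM → Form dB} (h : Good hφ F O) (c : ℝ) (η : Form dM) :
    (O (c • F + η.d)).d = 0 := by
  obtain ⟨τ, -, h1⟩ := h.ex c η
  rw [h1, Form.d_add, Form.d_smul, h.cl, Form.d_d, smul_zero, add_zero]

theorem Good.step {O : Form dM → Form dB} (h : Good hφ F O) {n : ℕ} {A : Form dB → ℝ}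
    (hA : Rep dB n A) (hS : ∀ ρ, Basic φ hφ ρ → A ρ.d = 0) (c : ℝ) (η : Form dM) {z : Form dB}
    (hz : z.d = 0) (hb : Basic φ hφ z) : A (O (c • F + η.d) * z) = c * A (O F * z) := by
  obtain ⟨τ, h0, h1⟩ := h.ex c η
  rw [h1, add_mul, smul_mul_assoc, hA.map_add, hA.map_smul, ← d_mul_closed τ hz,
    hS _ (Basic.mul h0 hb), add_zero]

theorem good_pull (hF : F.d = 0) {h : B → M} (hh : dB.Map dM h)
    (hi : ∀ b t, h (φ (b, t)) = h b) : Good hφ F (Form.pull h hh) where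
  ev := fun w hw => peven hh (hw.sg_of_even (by norm_num))
  ba := fun w => basic_pull hh hi w
  cl := pclosed hh hF
  ex := fun c η => ⟨_, basic_pull hh hi η, by rw [padd, psmul, Form.pull_d]⟩

theorem good_cell {k : ℕ} (C : Cell dM k) (hC : ∀ η : Form dM, C.I η.d = 0) :
    Good hφ F (fun w => C.I w • (1 : Form dB)) where
  ev := fun w _ => by rw [Form.sg_smul, Form.sg_one]
  ba := fun w => Basic.smul _ Basic.one
  cl := by rw [Form.d_smul, Form.d_one, smul_zero]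
  ex := fun c η => ⟨0, Basic.zero, by
    rw [C.I_add, C.I_smul, hC, add_zero, Form.d_zero, add_zero, smul_smul]⟩

/-- integrality of the triple products of the class of `F` -/
def Int3 (F : Form dM) (κ : ℝ) : Prop :=
  ∀ (Λ : Form (dM.prod (dM.prod dM)) → ℝ) (t : ℝ), Rep _ (8 + 8 + 8) Λ →
    (∀ (w₁ w₂ w₃ η₁ η₂ η₃ : Form dM) (c₁ c₂ c₃ : ℝ), Form.IsDeg 8 w₁ →
      Form.IsDeg 8 w₂ → Form.IsDeg 8 w₃ → w₁ = c₁ • F + η₁.d → w₂ = c₂ • F + η₂.d →
      w₃ = c₃ • F + η₃.d → Λ (X3 w₁ w₂ w₃) = c₁ * c₂ * c₃ * t) → ∃ k : ℤ, t = k * κ ^ 3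

/-- **integrality of triple products of operators** -/
theorem tri {κ : ℝ} (hI : Int3 F κ) (hF : Form.IsDeg 8 F) {O₁ O₂ O₃ : Form dM → Form dB}
    {k₁ k₂ k₃ : ℕ} (h₃ : Kr O₃ k₃ dB id map_id')
    (h₂ : Kr O₂ k₂ (dB.prod dM) Prod.fst Dif.map_fst)
    (h₁ : Kr O₁ k₁ ((dB.prod dM).prod dM) (fun p => p.1.1) map_ff)
    (g₁ : Good hφ F O₁) (g₂ : Good hφ F O₂) (g₃ : Good hφ F O₃)
    {n : ℕ} {A : Form dB → ℝ} (hA : Rep dB n A) (hS : ∀ ρ, Basic φ hφ ρ → A ρ.d = 0)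
    (hn : k₁ + (k₂ + (k₃ + n)) = 8 + 8 + 8) : ∃ k : ℤ, A (O₃ F * (O₂ F * O₁ F)) = k * κ ^ 3 := by
  obtain ⟨Λ, h1, h2⟩ := rep3 h₃ h₂ h₁ hA
  refine hI Λ _ (h1.cast hn) fun w₁ w₂ w₃ η₁ η₂ η₃ c₁ c₂ c₃ d₁ d₂ d₃ e₁ e₂ e₃ => ?_
  have s₁ := g₁.ev _ d₁
  have s₂ := g₂.ev _ d₂
  rw [h2 _ _ _ (d₂.sg_of_even (by norm_num)) (d₃.sg_of_even (by norm_num))]
  subst e₁ e₂ e₃
  rw [g₃.step hA hS _ _ (mul_closed (g₂.closed _ _) (g₁.closed _ _)) (Basic.mul (g₂.ba _) (g₁.ba _)),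
    ← mul_assoc (O₃ F), ← (even_comm s₂ (O₃ F)).eq, mul_assoc _ (O₃ F),
    g₂.step hA hS _ _ (mul_closed g₃.cl (g₁.closed _ _)) (Basic.mul (g₃.ba _) (g₁.ba _)),
    ← mul_assoc (O₂ F), ← (even_comm s₁ _).eq,
    g₁.step hA hS _ _ (mul_closed g₂.cl g₃.cl) (Basic.mul (g₂.ba _) (g₃.ba _)),
    (even_comm (g₁.ev _ hF) _).eq, (even_comm (g₂.ev _ hF) (O₃ F)).eq, mul_assoc (O₃ F)]
  ring

end Good

/-- the data of the operator `β` -/
structure Dat {B U M : Type*} (dB : Dif B) (dU : Dif U) (dM : Dif M) (D : ℝ) where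
  φU : U × ℝ → U
  φ : B × ℝ → B
  pi : B → U
  foot : U → M
  σ : B → B
  g : B × ℝ → M
  hD : 0 < D
  hφU : IsFlow dU (2 * D) φU
  hφ : IsFlow dB (2 * D) φ
  hpi : dB.Map dU pi
  hpφ : ∀ b t, pi (φ (b, t)) = φU (pi b, t)
  hfoot : dU.Map dM foot
  hσ : dB.Map dB σ
  hσφ : ∀ b t, σ (φ (b, t)) = φ (σ b, t)
  hσπ : ∀ b, pi (σ b) = φU (pi b, D)
  hg : (dB.prod (Dif.lin ℝ)).Map dM g
  hg0 : ∀ b, g (b, 0) = foot (pi b)
  hg1 : ∀ b t, g (φ (b, t), 1) = g (b, 1)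

namespace Dat

variable {D : ℝ} (S : Dat dB dU dM D)

/-- the primitive along the contraction -/
def Kg (w : Form dM) : Form dB := Form.K (Form.pull S.g S.hg w)

/-- the operator `β` -/
def β (w : Form dM) : Form dB :=
  J S.φ S.hφ.map (2 * D) (S.Kg w - Form.pull S.σ S.hσ (S.Kg w))

/-- the end of the contraction -/
def G1 (w : Form dM) : Form dB := Form.pull (fun b => S.g (b, 1)) (map_at S.hg 1) w

theorem map_G2 : dB.Map dM (fun b => S.g (S.σ b, 1)) := fun h => map_at S.hg 1 (S.hσ h)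

/-- the other end -/
def G2 (w : Form dM) : Form dB := Form.pull (fun b => S.g (S.σ b, 1)) S.map_G2 w

theorem G2_eq (w : Form dM) : Form.pull S.σ S.hσ (S.G1 w) = S.G2 w :=
  pull_pull S.hσ (map_at S.hg 1) S.map_G2 (fun _ => rfl) w

/-- the form at the foot point -/
def Fx (w : Form dM) : Form dB := Form.pull S.pi S.hpi (Form.pull S.foot S.hfoot w)

theorem Kg_d (η : Form dM) : S.Kg η.d = S.G1 η - S.Fx η - (S.Kg η).d := by
  have h1 := homotopy' (Form.pull S.g S.hg η)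
  rw [← Form.pull_d, at_pull_of, at_pull_of] at h1
  have h2 : Form.pull (fun b => S.g (b, 0)) (map_at S.hg 0) η = S.Fx η :=
    (pull_pull S.hpi S.hfoot (map_at S.hg 0) (fun b => (S.hg0 b).symm) η).symm
  rw [h2] at h1
  exact eq_sub_of_add_eq h1.symm

theorem σ_Fx (η : Form dM) : Form.pull S.σ S.hσ (S.Fx η) =
    Form.pull (fun b => S.φ (b, D)) (map_at S.hφ.map D) (S.Fx η) := by
  have h1 : dB.Map dU (fun b => S.φU (S.pi b, D)) := fun h => map_at S.hφU.map D (S.hpi h)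
  rw [Fx, pull_pull S.hσ S.hpi h1 S.hσπ,
    pull_pull (map_at S.hφ.map D) S.hpi h1 (fun b => S.hpφ b D)]

theorem J_half (x : Form dB) : J S.φ S.hφ.map (2 * D)
    (Form.pull (fun b => S.φ (b, D)) (map_at S.hφ.map D) x) = J S.φ S.hφ.map (2 * D) x := by
  rw [← pull_J S.hφ.map S.hφ.map (map_at S.hφ.map D)
    (fun b t => by rw [S.hφ.add, S.hφ.add, add_comm]), ← at_pull_of S.hφ.map, J_basic S.hφ x, at_pr]

theorem good_G1 {F : Form dM} (hF : F.d = 0) : Good S.hφ.map F S.G1 :=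
  good_pull hF (map_at S.hg 1) S.hg1

theorem good_G2 {F : Form dM} (hF : F.d = 0) : Good S.hφ.map F S.G2 :=
  good_pull hF S.map_G2 fun b t => by rw [S.hσφ, S.hg1]

theorem β_d (η : Form dM) : S.β η.d = (S.β η).d := by
  have h1 := basic_pull (hΦ := S.hφ.map) (map_at S.hg 1) S.hg1 η
  have h2 := basic_pull (hΦ := S.hφ.map) S.map_G2 (fun b t => by rw [S.hσφ, S.hg1]) η
  have h3 := J_d S.hφ (S.Kg η - Form.pull S.σ S.hσ (S.Kg η))
  rw [Form.d_sub, ← Form.pull_d, J_sub (hΦ := S.hφ.map)] at h3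
  rw [β, β, Kg_d, psub, psub, G2_eq, σ_Fx, J_sub (hΦ := S.hφ.map), J_sub (hΦ := S.hφ.map),
    J_sub (hΦ := S.hφ.map), J_sub (hΦ := S.hφ.map), J_sub (hΦ := S.hφ.map), J_half,
    G1, G2, J_of_basic _ h1, J_of_basic _ h2, ← neg_eq_iff_eq_neg.2 h3]
  abel

theorem β_deg {w : Form dM} (hw : Form.IsDeg 8 w) : Form.IsDeg 6 (S.β w) := by
  have h1 : Form.IsDeg 7 (S.Kg w) := (hw.pull _ _).K
  exact isDeg_J S.hφ.map _ (h1.sub (h1.pull _ S.hσ))

theorem β_lin (c : ℝ) (v w : Form dM) : S.β (c • v + w) = c • S.β v + S.β w := by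
  have h1 : S.Kg (c • v + w) = c • S.Kg v + S.Kg w := by
    rw [Kg, padd, psmul, Form.K_add, Form.K_smul, Kg, Kg]
  rw [β, β, β, h1, padd, psmul, ← J_smul (hΦ := S.hφ.map), ← J_add (hΦ := S.hφ.map)]
  congr 1
  module

theorem β_zero : S.β 0 = 0 := by
  rw [β, Kg, pzero, K_zero, pzero, sub_zero]
  exact J_of_basic (hΦ := S.hφ.map) _ Basic.zero

theorem good_β {F : Form dM} (hF : F.d = 0) : Good S.hφ.map F S.β where
  ev := fun w hw => (S.β_deg hw).sg_of_even (by norm_num)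
  ba := fun w => J_basic S.hφ _
  cl := by rw [← β_d, hF, β_zero]
  ex := fun c η => ⟨S.β η, J_basic S.hφ _, by rw [β_lin, β_d]⟩

theorem kr_β {X : Type*} {dX : Dif X} {r : X → B} (hr : dX.Map dB r) : Kr S.β 2 dX r hr := by
  have h1 : (dB.prod (Dif.lin ℝ)).Map dM (fun p => S.g (S.σ p.1, p.2)) := fun h =>
    S.hg (map_cyl S.hσ h)
  refine ((kr_JK hr S.hφ.map (2 * D) S.hg).sub (kr_JK hr S.hφ.map (2 * D) h1)).congr fun w => ?_
  rw [β, J_sub, Kg, ← K_nat, pull_pull (map_cyl S.hσ) S.hg h1 (fun _ => rfl)]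

end Dat

end

end Vale.Agent.P231Z.I7
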