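import Vale.Agent.P231Z.I7.Defs
import Vale.Agent.P231.TW.Cone
import Vale.Agent.P231.H584.Flow
import Vale.Agent.P231.Co.Sep

/-!
# P231, multiplicity seven, integrality: operations on cells
-/

set_option linter.unusedSectionVars false
set_option linter.unusedVariables false

open Set Filter Module MeasureTheory Metric
open scoped ContDiff Topology

namespace Vale.Agent.P231Z.I7

noncomputable section

open Vale.Agent.P231 Vale.Agent.P231.Fm Vale.Agent.P231.W Vale.Agent.P231.H584

variable {X X' : Type*} {D : Dif X} {D' : Dif X'} {n : ℕ}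

namespace Cell

theorem meas (C : Cell D n) : MeasurableSet C.K := C.cpt.measurableSet

theorem contOn (C : Cell D n) (w : Form D) : ContinuousOn (w.val C.c) C.K := fun z hz =>
  (w.smooth (C.plot z hz)).continuousAt.continuousWithinAt

theorem integrable (C : Cell D n) (w : Form D) :
    IntegrableOn (fun z => evalForm (w.val C.c z) C.b) C.K C.b.addHaar :=
  ((evalL C.b).continuous.comp_continuousOn (C.contOn w)).integrableOn_compact C.cpt

theorem I_add (C : Cell D n) (v w : Form D) : C.I (v + w) = C.I v + C.I w := by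
  rw [I, I, I, ← integral_add (C.integrable v) (C.integrable w)]
  refine integral_congr_ae (Eventually.of_forall fun z => ?_)
  exact map_add (evalL C.b) _ _

theorem I_smul (C : Cell D n) (c : ℝ) (w : Form D) : C.I (c • w) = c * C.I w := by
  rw [I, I, ← integral_const_mul]
  refine integral_congr_ae (Eventually.of_forall fun z => ?_)
  exact map_smul (evalL C.b) c _

theorem I_zero (C : Cell D n) : C.I 0 = 0 := by
  have h := C.I_smul 0 0
  rwa [zero_smul, zero_mul] at h

theorem I_neg (C : Cell D n) (w : Form D) : C.I (-w) = -C.I w := by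
  have h := C.I_smul (-1) w
  rwa [neg_one_smul, neg_one_mul] at h

theorem I_sub (C : Cell D n) (v w : Form D) : C.I (v - w) = C.I v - C.I w := by
  rw [sub_eq_add_neg, C.I_add, C.I_neg, sub_eq_add_neg]

theorem I_congr (C : Cell D n) {v w : Form D}
    (h : ∀ z ∈ C.K, evalForm (v.val C.c z) C.b = evalForm (w.val C.c z) C.b) : C.I v = C.I w :=
  setIntegral_congr_fun C.meas h

theorem I_eq_zero (C : Cell D n) {w : Form D}
    (h : ∀ z ∈ C.K, evalForm (w.val C.c z) C.b = 0) : C.I w = 0 := by
  rw [← C.I_zero]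
  refine C.I_congr fun z hz => ?_
  rw [h z hz, Form.zero_val]
  exact (map_zero (evalL C.b)).symm

/-- the same set with another plot -/
def re (C : Cell D n) (c' : C.V → X') (h : ∀ z ∈ C.K, D'.At c' z) : Cell D' n where
  V := C.V
  b := C.b
  K := C.K
  c := c'
  cpt := C.cpt
  fr := C.fr
  plot := h

/-- the image of a cell -/
def map (C : Cell D n) (f : X → X') (hf : D.Map D' f) : Cell D' n :=
  C.re (f ∘ C.c) fun z hz => hf (C.plot z hz)

theorem map_I (C : Cell D n) (f : X → X') (hf : D.Map D' f) (w : Form D') :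
    (C.map f hf).I w = C.I (Form.pull f hf w) :=
  setIntegral_congr_fun C.meas fun z hz => by
    change evalForm (w.val (f ∘ C.c) z) C.b = evalForm ((Form.pull f hf w).val C.c z) C.b
    rw [Form.pull_val _ _ (C.plot z hz)]

/-- a piece of a cell -/
def sub (C : Cell D n) (K : Set C.V) (hK : IsCompact K) (hs : K ⊆ C.K)
    (hf : C.b.addHaar (frontier K) = 0) : Cell D n where
  V := C.V
  b := C.b
  K := K
  c := C.c
  cpt := hK
  fr := hf
  plot := fun z hz => C.plot z (hs hz)

section Fib

variable {Y : Type} [NormedAddCommGroup Y] [NormedSpace ℝ Y] [FiniteDimensional ℝ Y]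
  [MeasurableSpace Y] [BorelSpace Y] {k : ℕ}

theorem fr_prod (C : Cell D n) (bY : Basis (Fin k) ℝ Y) {L : Set Y} (hL : IsCompact L)
    (hf : bY.addHaar (frontier L) = 0) :
    (TW.pB C.b bY).addHaar (frontier (C.K ×ˢ L)) = 0 := by
  rw [TW.addHaar_pB, frontier_prod_eq]
  refine measure_union_null ?_ ?_
  · rw [Measure.prod_prod, hf, mul_zero]
  · rw [Measure.prod_prod, C.fr, zero_mul]

/-- the product of the domain of a cell with a compact set -/
def fib (C : Cell D n) (bY : Basis (Fin k) ℝ Y) (L : Set Y) (hL : IsCompact L)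
    (hf : bY.addHaar (frontier L) = 0) (c' : C.V × Y → X')
    (h : ∀ z ∈ C.K ×ˢ L, D'.At c' z) : Cell D' (k + n) where
  V := C.V × Y
  b := TW.pB C.b bY
  K := C.K ×ˢ L
  c := c'
  cpt := C.cpt.prod hL
  fr := C.fr_prod bY hL hf
  plot := h

/-- Fubini -/
theorem fib_I (C : Cell D n) (bY : Basis (Fin k) ℝ Y) (L : Set Y) (hL : IsCompact L)
    (hf : bY.addHaar (frontier L) = 0) (c' : C.V × Y → X')
    (h : ∀ z ∈ C.K ×ˢ L, D'.At c' z) (w : Form D') :
    (C.fib bY L hL hf c' h).I w = ∫ z in C.K, evalForm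
      (∫ y in L, slice bY (w.val c' (z, y)) ∂bY.addHaar) C.b ∂C.b.addHaar := by
  have h1 := (C.fib bY L hL hf c' h).integrable w
  change IntegrableOn (fun z => evalForm (w.val c' z) (TW.pB C.b bY)) (C.K ×ˢ L)
    (TW.pB C.b bY).addHaar at h1
  change ∫ z in C.K ×ˢ L, evalForm (w.val c' z) (TW.pB C.b bY) ∂(TW.pB C.b bY).addHaar = _
  rw [TW.addHaar_pB] at h1 ⊢
  rw [setIntegral_prod _ h1]
  refine setIntegral_congr_fun C.meas fun z hz => ?_
  have h2 : ContinuousOn (fun y => slice bY (w.val c' (z, y))) L := by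
    refine (slice (E := C.V) bY).continuous.comp_continuousOn fun y hy => ?_
    exact ((w.smooth (h (z, y) ⟨hz, hy⟩)).continuousAt.comp
      (Continuous.prodMk_right z).continuousAt).continuousWithinAt
  have h3 := ContinuousLinearMap.integral_comp_comm (evalL C.b)
    (h2.integrableOn_compact (μ := bY.addHaar) hL)
  simp only [TW.evalForm_pB]
  exact h3

end Fib

theorem fr_Icc : TW.bR.addHaar (frontier (Icc (0 : ℝ) 1)) = 0 :=
  (convex_Icc (0 : ℝ) 1).addHaar_frontier _

/-- the cylinder over a cell -/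
def cyl (C : Cell D n) : Cell (D.prod (Dif.lin ℝ)) (1 + n) :=
  C.fib TW.bR (Icc 0 1) isCompact_Icc fr_Icc (Form.cyl C.c)
    fun z hz => Form.cyl_at (C.plot z.1 hz.1) z.2

theorem slice_bR {V : Type} [NormedAddCommGroup V] [NormedSpace ℝ V] [FiniteDimensional ℝ V]
    (w : Lam (V × ℝ)) : slice TW.bR w = at1 w := by
  rw [slice_apply, at1_apply, at0_apply, cont_succ, cont_zero, vert, TW.bR_apply]

theorem cyl_I (C : Cell D n) (w : Form (D.prod (Dif.lin ℝ))) : C.cyl.I w = C.I (Form.K w) := by
  rw [cyl, fib_I]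
  refine setIntegral_congr_fun C.meas fun z hz => ?_
  rw [Form.K_val _ (C.plot z hz), kop, intervalIntegral.integral_of_le zero_le_one,
    ← integral_Icc_eq_integral_Ioc, TW.addHaar_bR]
  simp only [slice_bR]

theorem prod_plot (C : Cell D n) {k : ℕ} (C' : Cell D' k) : ∀ z ∈ C.K ×ˢ C'.K,
    (D.prod D').At (fun p : C.V × C'.V => (C.c p.1, C'.c p.2)) z := fun z hz =>
  ⟨D.comp (u := C.c) (g := Prod.fst) (C.plot z.1 hz.1) (Sm.of_contDiff contDiff_fst _),
    D'.comp (u := C'.c) (g := Prod.snd) (C'.plot z.2 hz.2) (Sm.of_contDiff contDiff_snd _)⟩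

/-- the product of two cells -/
def prod (C : Cell D n) {k : ℕ} (C' : Cell D' k) : Cell (D.prod D') (k + n) :=
  C.fib C'.b C'.K C'.cpt C'.fr (fun p => (C.c p.1, C'.c p.2)) (C.prod_plot C')

theorem slice_ps {V Y : Type} [NormedAddCommGroup V] [NormedSpace ℝ V] [FiniteDimensional ℝ V]
    [NormedAddCommGroup Y] [NormedSpace ℝ Y] [FiniteDimensional ℝ Y] [MeasurableSpace Y]
    [BorelSpace Y] {k : ℕ} (v : Fin k → Y) (a : Lam Y) : slice (E := V) v (Q.ps a) = evalForm a v • 1 := by
  rw [slice_apply, Q.ps, pull_cont, ← pull_comp_apply]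
  have h1 : (ContinuousLinearMap.snd ℝ V Y).comp (ContinuousLinearMap.inl ℝ V Y) = 0 := by
    ext; simp
  rw [h1, Q.pull_zero, Algebra.algebraMap_eq_smul_one]
  rfl

theorem prod_I (C : Cell D n) {k : ℕ} (C' : Cell D' k) (v : Form D) (w : Form D') :
    (C.prod C').I (Form.pull Prod.snd Dif.map_snd w * Form.pull Prod.fst Dif.map_fst v) =
      C'.I w * C.I v := by
  rw [prod, fib_I, I, I, ← integral_const_mul]
  refine setIntegral_congr_fun C.meas fun z hz => ?_
  have h1 : ∀ y ∈ C'.K, slice C'.b ((Form.pull Prod.snd Dif.map_snd w *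
      Form.pull Prod.fst (Dif.map_fst (D := D) (D' := D')) v).val
      (fun p : C.V × C'.V => (C.c p.1, C'.c p.2)) (z, y)) =
      evalForm (w.val C'.c y) C'.b • v.val C.c z := by
    intro y hy
    have k1 : D.At (C.c ∘ (Prod.fst : C.V × C'.V → C.V)) (z, y) :=
      D.comp (u := C.c) (g := Prod.fst) (C.plot z hz) (Sm.of_contDiff contDiff_fst _)
    have k2 : D'.At (C'.c ∘ (Prod.snd : C.V × C'.V → C'.V)) (z, y) :=
      D'.comp (u := C'.c) (g := Prod.snd) (C'.plot y hy) (Sm.of_contDiff contDiff_snd _)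
    have k3 : (D.prod D').At (fun p : C.V × C'.V => (C.c p.1, C'.c p.2)) (z, y) := ⟨k1, k2⟩
    rw [Form.mul_val, Form.pull_val _ _ k3, Form.pull_val _ _ k3]
    have k4 := v.nat (u := C.c) (g := (Prod.fst : C.V × C'.V → C.V)) (x := (z, y)) (C.plot z hz)
      (Sm.of_contDiff contDiff_fst _)
    have k5 := w.nat (u := C'.c) (g := (Prod.snd : C.V × C'.V → C'.V)) (x := (z, y))
      (C'.plot y hy) (Sm.of_contDiff contDiff_snd _)
    rw [fderiv_fst] at k4
    rw [fderiv_snd] at k5
    change slice C'.b (w.val (C'.c ∘ Prod.snd) (z, y) * v.val (C.c ∘ Prod.fst) (z, y)) = _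
    rw [k4, k5]
    change slice C'.b (Q.ps _ * Q.pf _) = _
    rw [Q.slice_mul_pf, slice_ps, smul_mul_assoc, one_mul]
  change evalForm _ C.b = _ * evalForm _ C.b
  rw [setIntegral_congr_fun C'.meas h1, integral_smul_const]
  exact map_smul (evalL C.b) _ _

end Cell

namespace Rep

variable {A B : Form D → ℝ}

theorem congr (h : Rep D n A) (e : ∀ w, B w = A w) : Rep D n B := by
  obtain rfl : B = A := funext e
  exact h

theorem sub (h : Rep D n A) (h' : Rep D n B) : Rep D n fun w => A w - B w :=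
  (h.add h'.neg).congr fun w => sub_eq_add_neg _ _

theorem sign (h : Rep D n A) {ε : ℤ} (hε : |ε| = 1) : Rep D n fun w => ε * A w := by
  rcases (abs_eq zero_le_one).1 hε with rfl | rfl
  · exact h.congr fun w => by simp
  · exact h.neg.congr fun w => by simp

theorem sum {ι : Type*} (s : Finset ι) {A : ι → Form D → ℝ} (h : ∀ i ∈ s, Rep D n (A i)) :
    Rep D n fun w => ∑ i ∈ s, A i w := by
  classical
  induction s using Finset.induction_on with
  | empty => exact Rep.zero.congr fun w => Finset.sum_empty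
  | insert i s hi ih =>
    exact ((h i (Finset.mem_insert_self _ _)).add
      (ih fun j hj => h j (Finset.mem_insert_of_mem hj))).congr fun w => Finset.sum_insert hi

/-- operators which preserve representability on cells preserve it -/
theorem bind (h : Rep D n A) {m : ℕ} (P : Form D' → Form D)
    (hP : ∀ C : Cell D n, Rep D' m fun w => C.I (P w)) : Rep D' m fun w => A (P w) := by
  induction h with
  | cell C => exact hP C
  | zero => exact Rep.zero
  | add _ _ h1 h2 => exact h1.add h2
  | neg _ h1 => exact h1.neg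

theorem map_add (h : Rep D n A) (v w : Form D) : A (v + w) = A v + A w := by
  induction h with
  | cell C => exact C.I_add v w
  | zero => simp
  | add _ _ h1 h2 => simp only [h1, h2]; ring
  | neg _ h1 => simp only [h1]; ring

theorem map_smul (h : Rep D n A) (c : ℝ) (w : Form D) : A (c • w) = c * A w := by
  induction h with
  | cell C => exact C.I_smul c w
  | zero => simp
  | add _ _ h1 h2 => simp only [h1, h2]; ring
  | neg _ h1 => simp only [h1]; ring

theorem map_sub (h : Rep D n A) (v w : Form D) : A (v - w) = A v - A w := by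
  rw [sub_eq_add_neg, h.map_add, ← neg_one_smul ℝ w, h.map_smul]
  ring

theorem pull (h : Rep D n A) (f : X → X') (hf : D.Map D' f) :
    Rep D' n fun w => A (Form.pull f hf w) :=
  h.bind _ fun C => (Rep.cell (C.map f hf)).congr fun w => (C.map_I f hf w).symm

theorem K (h : Rep D n A) : Rep (D.prod (Dif.lin ℝ)) (1 + n) fun w => A (Form.K w) :=
  h.bind _ fun C => (Rep.cell C.cyl).congr fun w => (C.cyl_I w).symm

theorem KT (h : Rep D n A) (c : ℝ) : Rep (D.prod (Dif.lin ℝ)) (1 + n) fun w => A (W.KT c w) :=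
  h.K.pull _ (map_scale c)

/-- the product with a cell -/
theorem prod (h : Rep D n A) {k : ℕ} (C' : Cell D' k) : ∃ B, Rep (D.prod D') (k + n) B ∧
    ∀ (v : Form D) (w : Form D'), B (Form.pull Prod.snd Dif.map_snd w *
      Form.pull Prod.fst Dif.map_fst v) = C'.I w * A v := by
  induction h with
  | cell C => exact ⟨_, Rep.cell (C.prod C'), C.prod_I C'⟩
  | zero => exact ⟨_, Rep.zero, fun v w => by simp⟩
  | add _ _ h1 h2 =>
    obtain ⟨B1, k1, k2⟩ := h1
    obtain ⟨B2, k3, k4⟩ := h2
    exact ⟨_, k1.add k3, fun v w => by simp only [k2, k4]; ring⟩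
  | neg _ h1 =>
    obtain ⟨B1, k1, k2⟩ := h1
    exact ⟨_, k1.neg, fun v w => by simp only [k2]; ring⟩

/-- the finite family of cells -/
theorem exists_family (h : Rep D n A) : ∃ (ι : Type) (_ : Fintype ι) (C : ι → Cell D n)
    (ε : ι → ℤ), ∀ w, A w = ∑ i, ε i * (C i).I w := by
  induction h with
  | cell C => exact ⟨Unit, inferInstance, fun _ => C, fun _ => 1, fun w => by simp⟩
  | zero => exact ⟨Empty, inferInstance, fun i => i.elim, fun _ => 1, fun w => by simp⟩
  | add _ _ h1 h2 =>
    obtain ⟨ι, _, C, ε, k1⟩ := h1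
    obtain ⟨ι', _, C', ε', k2⟩ := h2
    exact ⟨ι ⊕ ι', inferInstance, Sum.elim C C', Sum.elim ε ε', fun w => by
      simp only [k1, k2, Fintype.sum_sum_type, Sum.elim_inl, Sum.elim_inr]⟩
  | neg _ h1 =>
    obtain ⟨ι, _, C, ε, k1⟩ := h1
    exact ⟨ι, inferInstance, C, fun i => -ε i, fun w => by
      simp only [k1, Int.cast_neg, neg_mul, Finset.sum_neg_distrib]⟩

end Rep

end

end Vale.Agent.P231Z.I7
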