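import Vale.Agent.P231.TW.Prod
import Vale.Agent.P231.Co.On
import Vale.Agent.P231.W.Defs
import Vale.Agent.P231.WA.Deg

/-!
# P231, multiplicity seven, integrality: definitions

Cells and the functionals which are finite signed sums of cells, sets which are open in all plots,
the affine model of the generator of the cohomology, the line.
-/

set_option linter.unusedSectionVars false
set_option linter.unusedVariables false

open Bundle Manifold Set Filter Module MeasureTheory Metric
open scoped ContDiff Manifold Topology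

namespace Vale.Agent.P231Z.I7

noncomputable section

open Vale.Agent.P231 Vale.Agent.P231.Fm Vale.Agent.P231.W

section Cells

variable {X : Type*}

/-- an `n`-dimensional cell: a plot near a compact set with null frontier -/
structure Cell (D : Dif X) (n : ℕ) where
  V : Type
  [i1 : NormedAddCommGroup V]
  [i2 : NormedSpace ℝ V]
  [i3 : FiniteDimensional ℝ V]
  [i4 : MeasurableSpace V]
  [i5 : BorelSpace V]
  b : Basis (Fin n) ℝ V
  K : Set V
  c : V → X
  cpt : IsCompact K
  fr : b.addHaar (frontier K) = 0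
  plot : ∀ z ∈ K, D.At c z

attribute [instance] Cell.i1 Cell.i2 Cell.i3 Cell.i4 Cell.i5

/-- the integral of a form over a cell -/
def Cell.I {D : Dif X} {n : ℕ} (C : Cell D n) (w : Form D) : ℝ :=
  ∫ z in C.K, evalForm (w.val C.c z) C.b ∂C.b.addHaar

/-- the functionals which are finite signed sums of integrals over cells -/
inductive Rep (D : Dif X) (n : ℕ) : (Form D → ℝ) → Prop
  | cell (C : Cell D n) : Rep D n C.I
  | zero : Rep D n fun _ => 0
  | add {A B : Form D → ℝ} : Rep D n A → Rep D n B → Rep D n fun w => A w + B w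
  | neg {A : Form D → ℝ} : Rep D n A → Rep D n fun w => -A w

/-- `U` is open in all plots -/
def POpen (D : Dif X) (U : Set X) : Prop :=
  ∀ {V : Type} [NormedAddCommGroup V] [NormedSpace ℝ V] [FiniteDimensional ℝ V]
    {u : V → X} {x : V}, D.At u x → u x ∈ U → ∀ᶠ y in 𝓝 x, u y ∈ U

/-- near `x` the map `u` factors through a plot of dimension less than `m` -/
def Thin (D : Dif X) (m : ℕ) {V : Type} [NormedAddCommGroup V] [NormedSpace ℝ V]
    (u : V → X) (x : V) : Prop :=
  ∃ (G : Type) (_ : NormedAddCommGroup G) (_ : NormedSpace ℝ G) (_ : FiniteDimensional ℝ G)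
    (v : G → X) (g : V → G), finrank ℝ G < m ∧ Sm g x ∧ D.At v (g x) ∧ u =ᶠ[𝓝 x] v ∘ g

/-- a deformation `H` of the set `W`, open in the plots, to something thin -/
structure Htpy (D : Dif X) (m : ℕ) (W : Set X) (H : X × ℝ → X) : Prop where
  po : POpen D W
  map : ((D.on W).prod (Dif.lin ℝ)).Map D H
  zero : ∀ x ∈ W, ∀ t ≤ 0, H (x, t) = x
  one : ∀ x ∈ W, ∀ t, 1 ≤ t → H (x, t) = H (x, 1)
  thin : ∀ {V : Type} [NormedAddCommGroup V] [NormedSpace ℝ V] [FiniteDimensional ℝ V]
    {u : V → X} {x : V}, (D.on W).At u x → Thin D m (fun y => H (u y, 1)) x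

theorem map_p1 {D : Dif X} : (D.prod (D.prod D)).Map D (fun p : X × X × X => p.1) :=
  fun h => h.1

theorem map_p2 {D : Dif X} : (D.prod (D.prod D)).Map D (fun p : X × X × X => p.2.1) :=
  fun h => h.2.1

theorem map_p3 {D : Dif X} : (D.prod (D.prod D)).Map D (fun p : X × X × X => p.2.2) :=
  fun h => h.2.2

/-- the cross product of three forms -/
def X3 {D : Dif X} (a b c : Form D) : Form (D.prod (D.prod D)) :=
  Form.pull (fun p : X × X × X => p.1) map_p1 a *
    (Form.pull (fun p : X × X × X => p.2.1) map_p2 b *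
      Form.pull (fun p : X × X × X => p.2.2) map_p3 c)

end Cells

section Model

variable {E : Type*} [NormedAddCommGroup E] [NormedSpace ℝ E]
  {M : Type*} [MetricSpace M] [ChartedSpace E M]
  {A W : Type} [NormedAddCommGroup A] [NormedSpace ℝ A] [FiniteDimensional ℝ A]
  [NormedAddCommGroup W] [NormedSpace ℝ W] [FiniteDimensional ℝ W]
  [MeasurableSpace W] [BorelSpace W]

/-- The affine model of the class of `G`: off the point `q` the class is represented by the
pull-backs of the bump forms under `N : O → W`; `Ψ` is a family of perturbations of the identity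
which are translations near `q`. -/
structure Model (G : Form (dM E M)) (κ : ℝ) (bW : Basis (Fin 8) ℝ W) (q : M) (O O' : Set M)
    (N : M → W) (L : M → A) (Ψ : A × M → M) (δ : ℝ) : Prop where
  pos : 0 < δ
  dimA : finrank ℝ A = 16
  oO : IsOpen O
  oO' : IsOpen O'
  mN : ((dM E M).on O).Map (Dif.lin W) N
  mL : ((dM E M).on O').Map (Dif.lin A) L
  mΨ : ((Dif.lin A).prod (dM E M)).Map (dM E M) Ψ
  Ψ0 : ∀ x, Ψ (0, x) = x
  Ψq : ∀ a x, ‖a‖ < δ → Ψ (a, x) = q → x ∈ O' ∧ L x = a
  cl : ∀ C : Set W, IsCompact C → IsClosed ({x | x ∈ O ∧ N x ∈ C} ∪ {q})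
  form : ∀ ε > 0, ∀ w₀ : W → Lam W, ContDiff ℝ ∞ w₀ → (∀ y, WA.prt 8 (w₀ y) = w₀ y) →
    tsupport w₀ ⊆ ball 0 δ → ∃ (w η : Form (dM E M)) (c : ℝ), Form.IsDeg 8 w ∧
      w = c • G + η.d ∧ |c| * κ = |TW.JJ bW w₀| ∧
      ∀ {V : Type} [NormedAddCommGroup V] [NormedSpace ℝ V] [FiniteDimensional ℝ V]
        {u : V → M} {x : V}, (dM E M).At u x → ε < dist (u x) q →
        (u x ∈ O → w.val u x = pb (N ∘ u) w₀ x) ∧ (u x ∉ O → w.val u x = 0)

/-- a line: a plot which is constant outside the unit ball, on which `G` has integral `± κ` -/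
structure Line (G : Form (dM E M)) (κ : ℝ) (bW : Basis (Fin 8) ℝ W) (ℓ : W → M) : Prop where
  plot : ∀ z, (dM E M).At ℓ z
  const : ∃ x, ∀ z, 1 ≤ ‖z‖ → ℓ z = x
  val : |TW.JJ bW (G.val ℓ)| = κ

end Model

end

end Vale.Agent.P231Z.I7
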