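import Vale.Agent.P231Z.I7.Defs
import Vale.Agent.P231.H649.Sard
import Vale.Agent.P231.FE.Defs
import Vale.Agent.P231.Co.M3g

/-!
# P231, multiplicity seven, integrality: linear algebra for the deformations
-/

set_option linter.unusedSectionVars false
set_option linter.unusedVariables false

open Set Filter Module MeasureTheory
open scoped ContDiff Topology

namespace Vale.Agent.P231Z.I7

noncomputable section

open Vale.Agent.P231 Vale.Agent.P231.Fm Vale.Agent.P231.CoC

section Generic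

variable {V A : Type*} [NormedAddCommGroup V] [NormedSpace ℝ V] [FiniteDimensional ℝ V]
  [NormedAddCommGroup A] [NormedSpace ℝ A] [FiniteDimensional ℝ A]

theorem eventually_isUnit {U : V → A →L[ℝ] A} {x : V} (hU : ContinuousAt U x) (h1 : U x = 1) :
    ∀ᶠ y in 𝓝 x, IsUnit (U y) := by
  have : CompleteSpace A := FiniteDimensional.complete ℝ A
  exact hU.eventually (Units.isOpen.mem_nhds (show IsUnit (U x) from h1 ▸ isUnit_one))

/-- a generic vector is off a small family of affine subspaces -/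
theorem generic [MeasurableSpace A] [BorelSpace A] (μ : Measure A) [μ.IsAddHaarMeasure]
    {T : Set V} {Q : V → A →L[ℝ] A} {c : V → A} (hQ : ∀ z ∈ T, DifferentiableAt ℝ Q z)
    (hc : ∀ z ∈ T, DifferentiableAt ℝ c z) (hid : ∀ z ∈ T, ∀ a, Q z (Q z a) = Q z a)
    (hr : ∀ z ∈ T, finrank ℝ V + finrank ℝ (LinearMap.ker (Q z : A →ₗ[ℝ] A)) < finrank ℝ A) :
    μ {a | ∃ z ∈ T, Q z (a - c z) = 0} = 0 := by
  have : ProperSpace V := FiniteDimensional.proper_real V
  let U : V → V → A →L[ℝ] A := fun z₀ z => (1 - Q z) * (1 - Q z₀) + Q z * Q z₀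
  have hU : ∀ z₀ ∈ T, {z | IsUnit (U z₀ z)} ∈ 𝓝[T] z₀ := fun z₀ h => by
    refine mem_nhdsWithin_of_mem_nhds (eventually_isUnit ?_ ?_)
    · have h1 := (hQ z₀ h).continuousAt
      exact ((continuousAt_const.sub h1).mul continuousAt_const).add (h1.mul continuousAt_const)
    · ext a
      simp [U, hid z₀ h]
  obtain ⟨t, htT, htc, ht⟩ := TopologicalSpace.countable_cover_nhdsWithin hU
  let g : ∀ z₀ : V, V × LinearMap.ker (Q z₀ : A →ₗ[ℝ] A) → A :=
    fun z₀ p => c p.1 + ((p.2 : A) - Q p.1 p.2)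
  refine measure_mono_null (t := ⋃ z₀ ∈ t, g z₀ '' {p | p.1 ∈ T}) ?_
    ((measure_biUnion_null_iff htc).2 fun z₀ h₀ => ?_)
  · rintro a ⟨z, hz, ha⟩
    obtain ⟨z₀, h₀, hu⟩ := mem_iUnion₂.1 (ht hz)
    obtain ⟨u, hu⟩ : IsUnit (U z₀ z) := hu
    obtain ⟨y, hy⟩ : ∃ y, U z₀ z y = a - c z := ⟨(u⁻¹ : (A →L[ℝ] A)ˣ).1 (a - c z), by
      rw [← hu, ← mul_apply_eq_comp, u.mul_inv, one_apply_eq_self]⟩
    have h1 : y - Q z₀ y - Q z (y - Q z₀ y) + Q z (Q z₀ y) = a - c z := by
      rw [← hy]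
      simp [U]
    have h2 : Q z (Q z₀ y) = 0 := by
      have h3 := congrArg (Q z) h1
      rwa [ha, map_add, map_sub (Q z) _ (Q z _), hid z hz, hid z hz, sub_self, zero_add] at h3
    refine mem_iUnion₂.2 ⟨z₀, h₀, (z, ⟨y - Q z₀ y, ?_⟩), hz, ?_⟩
    · show Q z₀ (y - Q z₀ y) = 0
      rw [map_sub, hid z₀ (htT h₀), sub_self]
    · show c z + (y - Q z₀ y - Q z (y - Q z₀ y)) = a
      rw [h2, add_zero] at h1
      rw [h1, add_sub_cancel]
  · have hd : finrank ℝ (V × LinearMap.ker (Q z₀ : A →ₗ[ℝ] A)) < finrank ℝ A := by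
      rw [finrank_prod]
      exact hr z₀ (htT h₀)
    refine H649.sard_ker μ hd.le (fun p hp => ?_) fun _ _ => Or.inl hd
    have h1 : DifferentiableAt ℝ
        (fun p : V × LinearMap.ker (Q z₀ : A →ₗ[ℝ] A) => (p.2 : A)) p :=
      ((Submodule.subtypeL _).differentiableAt).comp p differentiableAt_snd
    exact ((hc _ hp).comp p differentiableAt_fst).add
      (h1.sub (((hQ _ hp).comp p differentiableAt_fst).clm_apply h1))

theorem exists_generic {T : Set V} {Q : V → A →L[ℝ] A} {c : V → A}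
    (hQ : ∀ z ∈ T, DifferentiableAt ℝ Q z)
    (hc : ∀ z ∈ T, DifferentiableAt ℝ c z) (hid : ∀ z ∈ T, ∀ a, Q z (Q z a) = Q z a)
    (hr : ∀ z ∈ T, finrank ℝ V + finrank ℝ (LinearMap.ker (Q z : A →ₗ[ℝ] A)) < finrank ℝ A) :
    ∃ a, ∀ z ∈ T, Q z (a - c z) ≠ 0 := by
  borelize A
  have h := generic Measure.addHaar hQ hc hid hr
  by_contra hn
  push Not at hn
  rw [eq_univ_of_forall (s := {a | ∃ z ∈ T, Q z (a - c z) = 0}) hn] at h
  exact (isOpen_univ.measure_pos Measure.addHaar univ_nonempty).ne' h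

end Generic

/-- the kernel of `I ∘ P` when `P ∘ I = 1` -/
theorem finrank_ker_comp {A T : Type*} [AddCommGroup A] [Module ℝ A] [FiniteDimensional ℝ A]
    [AddCommGroup T] [Module ℝ T] {P : A →ₗ[ℝ] T} {I : T →ₗ[ℝ] A} {Q : A →ₗ[ℝ] A}
    (h : ∀ ξ, P (I ξ) = ξ) (hQ : ∀ a, Q a = I (P a)) :
    finrank ℝ T + finrank ℝ (LinearMap.ker Q) = finrank ℝ A := by
  have h1 : LinearMap.ker Q = LinearMap.ker P := by
    ext a
    rw [LinearMap.mem_ker, LinearMap.mem_ker, hQ]
    exact ⟨fun h1 => by rw [← h (P a), h1, map_zero], fun h1 => by rw [h1, map_zero]⟩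
  have h2 : LinearMap.range P = ⊤ := LinearMap.range_eq_top.2 fun ξ => ⟨I ξ, h ξ⟩
  rw [h1, ← P.finrank_range_add_finrank_ker, h2, finrank_top]

/-- the planes of a spread near `f x` meet a fixed affine subspace of the complementary
dimension -/
theorem thin_spread {T : Type*} [NormedAddCommGroup T] [InnerProductSpace ℝ T]
    [FiniteDimensional ℝ T] {k n : ℕ} {Pi : T → T →L[ℝ] T} (h : FE.Spread k Pi)
    (hn : finrank ℝ T = k + n) {V : Type*} [NormedAddCommGroup V] [NormedSpace ℝ V]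
    [FiniteDimensional ℝ V] {f : V → T} {x : V} (hf : Sm f x) (h0 : f x ≠ 0) :
    ∃ (g : V → Fin n → ℝ) (β : (Fin n → ℝ) →L[ℝ] T), Sm g x ∧ ∀ᶠ y in 𝓝 x,
      f x + β (g y) ≠ 0 ∧ Pi (f y) (f x + β (g y)) = f x + β (g y) := by
  have : CompleteSpace T := FiniteDimensional.complete ℝ T
  set P := Pi (f x) with hP
  have hPP : ∀ a, P (P a) = P a := h.idem _ h0
  have hk : finrank ℝ (LinearMap.ker (P : T →ₗ[ℝ] T)) = finrank ℝ (Fin n → ℝ) := by
    have h1 := (P : T →ₗ[ℝ] T).finrank_range_add_finrank_ker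
    rw [h.rank _ h0, hn] at h1
    rw [finrank_fin_fun]
    omega
  let j := ContinuousLinearEquiv.ofFinrankEq hk
  let L : T →L[ℝ] LinearMap.ker (P : T →ₗ[ℝ] T) := (1 - P).codRestrict _ fun a => by
    show P (a - P a) = 0
    rw [map_sub, hPP, sub_self]
  have hne : ∀ᶠ y in 𝓝 x, f y ≠ 0 := hf.continuousAt.eventually (isOpen_ne.mem_nhds h0)
  have hPi : Sm (fun y => Pi (f y)) x := by
    filter_upwards [hf, hne] with y h1 h2 using (h.smooth _ h2).comp y h1
  let U : V → T →L[ℝ] T := fun y => P * Pi (f y) + (1 - P)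
  have hU : Sm U x := hPi.mono fun y hy => (contDiffAt_const.mul hy).add contDiffAt_const
  have hu : ∀ᶠ y in 𝓝 x, IsUnit (U y) := eventually_isUnit hU.continuousAt (by
    ext a
    simp [U, ← hP, hPP])
  let w : V → T := fun y => Pi (f y) (Ring.inverse (U y) (f x))
  have hw : Sm w x := by
    filter_upwards [hPi, hU, hu] with y h1 h2 h3
    obtain ⟨u, h4⟩ := h3
    have h5 : ContDiffAt ℝ ∞ Ring.inverse (U y) := h4 ▸ contDiffAt_ringInverse ℝ u
    exact h1.clm_apply ((h5.comp y h2).clm_apply contDiffAt_const)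
  let β : (Fin n → ℝ) →L[ℝ] T := (Submodule.subtypeL _).comp j.symm.toContinuousLinearMap
  refine ⟨fun y => j (L (w y)), β,
    hw.mono fun y hy => j.contDiff.contDiffAt.comp y (L.contDiff.contDiffAt.comp y hy), ?_⟩
  filter_upwards [hne, hu] with y h1 h2
  have h3 : P (w y) = f x := by
    have h4 : U y (Ring.inverse (U y) (f x)) = f x := by
      rw [← mul_apply_eq_comp, Ring.mul_inverse_cancel _ h2,
        one_apply_eq_self]
    have h5 : P (w y) + (Ring.inverse (U y) (f x) - P (Ring.inverse (U y) (f x))) = f x := h4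
    have h6 := congrArg P h5
    rwa [map_add, map_sub, hPP, hPP, sub_self, add_zero, h.self _ h0] at h6
  have h7 : f x + β (j (L (w y))) = w y := by
    have h8 : β (j (L (w y))) = w y - P (w y) :=
      congrArg Subtype.val (j.symm_apply_apply (L (w y)))
    rw [h8, h3, add_sub_cancel]
  rw [h7]
  exact ⟨fun h8 => h0 (by rw [← h3, h8, map_zero]), h.idem _ h1 _⟩

/-- reversing and flattening the time of a deformation -/
theorem htpy_of {X : Type*} {D : Dif X} {m : ℕ} {O : Set X} {h : X × ℝ → X} (hO : POpen D O)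
    (hh : ((D.on O).prod (Dif.lin ℝ)).Map D h) (h1 : ∀ x ∈ O, h (x, 1) = x)
    (h0 : ∀ {V : Type} [NormedAddCommGroup V] [NormedSpace ℝ V] [FiniteDimensional ℝ V]
      {u : V → X} {x : V}, (D.on O).At u x → Thin D m (fun y => h (u y, 0)) x) :
    Htpy D m O (fun p => h (p.1, 1 - tau p.2)) where
  po := hO
  map {V} _ _ _ {u x} hu := hh (u := fun y => ((u y).1, 1 - tau (u y).2))
    ⟨hu.1, (sm_tau hu.2).mono fun y hy => contDiffAt_const.sub hy⟩
  zero x hx t ht := by
    show h (x, 1 - Real.smoothTransition t) = x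
    rw [Real.smoothTransition.zero_of_nonpos ht, sub_zero, h1 x hx]
  one x hx t ht := by
    show h (x, 1 - Real.smoothTransition t) = h (x, 1 - tau 1)
    rw [Real.smoothTransition.one_of_one_le ht, tau_one]
  thin hu := by
    simp only [tau_one, sub_self]
    exact h0 hu

end

end Vale.Agent.P231Z.I7
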