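import Vale.Agent.P231Z.I7.Htpy1
import Vale.Agent.P231.H649.Null
import Vale.Agent.P231.Co.M3h
import Vale.Agent.P231.FE.Spr

/-!
# P231, multiplicity seven, integrality: the deformations of the manifold
-/

set_option maxSynthPendingDepth 3
set_option linter.unusedSectionVars false
set_option linter.unusedVariables false

open Bundle Manifold Set Filter Module
open scoped ContDiff Manifold Topology

namespace Vale.Agent.P231Z.I7

noncomputable section

open Vale.Agent.P234 Vale.Agent.P231 Vale.Agent.P231.Fm Vale.Agent.P231.W Vale.Agent.P231.CoC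
  Vale.Agent.P231.WE Vale.Agent.P231.H775

variable {E : Type*} [NormedAddCommGroup E] [NormedSpace ℝ E] [FiniteDimensional ℝ E]
  {M : Type*} [MetricSpace M] [ChartedSpace E M] [IsManifold 𝓘(ℝ, E) ∞ M]
  [RiemannianBundle (fun x : M => TangentSpace 𝓘(ℝ, E) x)]
  [IsContMDiffRiemannianBundle 𝓘(ℝ, E) ∞ E (fun x : M => TangentSpace 𝓘(ℝ, E) x)]
  {e : ∀ x : M, TangentSpace 𝓘(ℝ, E) x → M}
  [CompactSpace M] [ConnectedSpace M] [IsRiemannianManifold 𝓘(ℝ, E) M] {D : ℝ}

theorem popen_of_isOpen {O : Set M} (hO : IsOpen O) : POpen (dM E M) O :=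
  fun h hx => (Eventually.self_of_nhds h).continuousAt.eventually (hO.mem_nhds hx)

/-- the ball is deformed to its centre -/
theorem htpy_ball (F : Facts e) (hD : 0 < D) (hB : InjGE e D) {m : ℕ} (h0 : 0 < m) (q : M) :
    ∃ b, Htpy (dM E M) m (bl q D) b := by
  obtain ⟨h, x₀, hh, -, -, h1, h2⟩ := (contr_ball F hD hB q).out
  refine ⟨_, htpy_of (h := h) (popen_of_isOpen (isOpen_lt (by fun_prop) continuous_const))
    (fun hu => (hh hu).1) h1 fun {V} _ _ _ {u x} hu => ⟨Fin 0 → ℝ, inferInstance, inferInstance,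
      inferInstance, fun _ => x₀, fun _ => 0, by rwa [finrank_fin_fun],
      Sm.of_contDiff contDiff_const _, Eventually.of_forall fun _ => contMDiffAt_const, ?_⟩⟩
  filter_upwards [hu.2] with y hy using h2 _ hy

/-- the complement of a point is deformed to the cut locus -/
theorem htpy_cut (F : Facts e) (hD : 0 < D) (hB : InjGE e D) (hdiam : ∀ p q : M, dist p q ≤ D)
    (hl : ∀ x y : M, dist x y = D → finrank ℝ (Pl e D x y) = 7 + 1) (hE : finrank ℝ E = 16)
    {m : ℕ} (h8 : 8 < m) (p : M) : ∃ b, Htpy (dM E M) m (pc p) b := by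
  refine ⟨_, htpy_of (h := Rt e D p) (popen_of_isOpen isOpen_ne) (map_Rt F hD hB hdiam hl p)
    (fun x hx => Rt_one F hB hx) fun {V} _ _ _ {u x} hu => ?_⟩
  obtain ⟨f, hf⟩ := exists_good F hD hB hdiam hl (u := u) hu.1 hu.2.self_of_nhds
  have h0 : f x ≠ 0 := by
    rw [← norm_ne_zero_iff, hf.self_of_nhds.2.1]
    exact one_ne_zero
  obtain ⟨g, β, hg, hβ⟩ := thin_spread (n := 8) (FE.spread F hD hB hdiam hl p) hE
    (hf.mono fun y hy => hy.1) h0
  refine ⟨Fin 8 → ℝ, inferInstance, inferInstance, inferInstance,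
    fun k => e p (D • (‖f x + β k‖⁻¹ • (f x + β k))), g, by rwa [finrank_fin_fun], hg, ?_, ?_⟩
  · have h1 : ContDiff ℝ ∞ fun k => f x + β k := contDiff_const.add β.contDiff
    filter_upwards [h1.continuous.continuousAt.eventually
      (isOpen_ne.mem_nhds hβ.self_of_nhds.1)] with k hk
    exact (contMDiff_exp_fiber F.isExp p).contMDiffAt.comp k (contDiffAt_const.smul
      (((h1.contDiffAt.norm ℝ hk).inv (norm_ne_zero_iff.2 hk)).smul h1.contDiffAt)).contMDiffAt
  · filter_upwards [hf, hβ] with y h1 h2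
    rw [Rt_zero F, ← h1.2.2]
    refine (FE.cut_iff F hD hB hdiam hl h1.2.1 ?_).2 (by rw [map_smul, h2.2])
    rw [norm_smul, norm_inv, norm_norm, inv_mul_cancel₀ (norm_ne_zero_iff.2 h2.1)]

/-- the deformations of the manifold -/
theorem exists_base (F : Facts e) (hD : 0 < D) (hB : InjGE e D) (hdiam : ∀ p q : M, dist p q ≤ D)
    (hl : ∀ x y : M, dist x y = D → finrank ℝ (Pl e D x y) = 2 * 3 + 2) (hE : finrank ℝ E = 16)
    {V : Type} [NormedAddCommGroup V] [NormedSpace ℝ V] [FiniteDimensional ℝ V] {m : ℕ}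
    (hV : finrank ℝ V = m) (h0 : 0 < m) (h8 : m ≠ 8) (hm : m < 16) {T : Set V} {f : V → M}
    (hf : ∀ z ∈ T, (dM E M).At f z) : ∃ O b, Htpy (dM E M) m O b ∧ ∀ z ∈ T, f z ∈ O := by
  have hf' : ∀ z ∈ T, ContMDiffAt 𝓘(ℝ, V) 𝓘(ℝ, E) ∞ f z :=
    fun z hz => Eventually.self_of_nhds (hf z hz)
  obtain ⟨x₀⟩ : Nonempty M := inferInstance
  rcases lt_or_gt_of_ne h8 with h | h
  · obtain ⟨ξ, -, hξ⟩ := (H649.nullE_cut F hD hB hdiam (l := 7) hl (by omega) (by omega)
      hf').exists_notMem hD x₀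
    obtain ⟨b, hb⟩ := htpy_ball F hD hB h0 (ef e x₀ ξ)
    refine ⟨_, b, hb, fun z hz => ?_⟩
    exact lt_of_le_of_ne (hdiam _ _) fun h1 => hξ ⟨z, hz, (dist_comm _ _).trans h1⟩
  · obtain ⟨ξ, -, hξ⟩ := (H649.nullE_range F hB (by omega) hf').exists_notMem hD x₀
    obtain ⟨b, hb⟩ := htpy_cut F hD hB hdiam hl hE h (ef e x₀ ξ)
    exact ⟨_, b, hb, fun z hz h1 => hξ ⟨z, hz, h1⟩⟩

end

end Vale.Agent.P231Z.I7
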