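import Vale.Agent.P231Z.I7.Cell
import Vale.Agent.P231.H649.Sard
import Vale.Agent.P231.S2I.DegC

/-!
# P231, multiplicity seven, integrality: null sets of parameters, normal form of cells
-/

set_option linter.unusedSectionVars false
set_option linter.unusedVariables false

open Set Filter Module MeasureTheory Metric
open scoped ContDiff Topology

namespace Vale.Agent.P231Z.I7

noncomputable section

open Vale.Agent.P231 Vale.Agent.P231.Fm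

section Res

variable {V A W : Type} [NormedAddCommGroup V] [NormedSpace ℝ V] [FiniteDimensional ℝ V]
  [NormedAddCommGroup A] [NormedSpace ℝ A] [FiniteDimensional ℝ A]
  [NormedAddCommGroup W] [NormedSpace ℝ W] [FiniteDimensional ℝ W]

/-- the relation `S` is parametrised with `d` free parameters -/
def Res (S : V → A → W → Prop) (d : ℕ) : Prop :=
  ∃ (G : Type) (_ : NormedAddCommGroup G) (_ : NormedSpace ℝ G) (_ : FiniteDimensional ℝ G)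
    (R : V × G → A × W) (T : Set (V × G)), finrank ℝ G = d ∧
    (∀ p ∈ T, DifferentiableAt ℝ R p) ∧ ∀ z a y, S z a y → ∃ φ, (z, φ) ∈ T ∧ R (z, φ) = (a, y)

theorem null3 [MeasurableSpace ((A × A × A) × (W × W × W))]
    [BorelSpace ((A × A × A) × (W × W × W))] (μ : Measure ((A × A × A) × (W × W × W)))
    [μ.IsAddHaarMeasure] {S₁ S₂ S₃ : V → A → W → Prop} {d₁ d₂ d₃ : ℕ} (h₁ : Res S₁ d₁)
    (h₂ : Res S₂ d₂) (h₃ : Res S₃ d₃)
    (hd : finrank ℝ V + (d₁ + d₂ + d₃) < 3 * finrank ℝ A + 3 * finrank ℝ W) :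
    μ {π | ∃ z, S₁ z π.1.1 π.2.2.2 ∧ S₂ z π.1.2.1 π.2.2.1 ∧ S₃ z π.1.2.2 π.2.1} = 0 := by
  obtain ⟨G₁, _, _, _, R₁, T₁, e₁, k₁, l₁⟩ := h₁
  obtain ⟨G₂, _, _, _, R₂, T₂, e₂, k₂, l₂⟩ := h₂
  obtain ⟨G₃, _, _, _, R₃, T₃, e₃, k₃, l₃⟩ := h₃
  let g : V × G₁ × G₂ × G₃ → (A × A × A) × (W × W × W) := fun p =>
    (((R₁ (p.1, p.2.1)).1, (R₂ (p.1, p.2.2.1)).1, (R₃ (p.1, p.2.2.2)).1),
      ((R₃ (p.1, p.2.2.2)).2, (R₂ (p.1, p.2.2.1)).2, (R₁ (p.1, p.2.1)).2))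
  let T : Set (V × G₁ × G₂ × G₃) :=
    {p | (p.1, p.2.1) ∈ T₁ ∧ (p.1, p.2.2.1) ∈ T₂ ∧ (p.1, p.2.2.2) ∈ T₃}
  have hlt : finrank ℝ (V × G₁ × G₂ × G₃) < finrank ℝ ((A × A × A) × (W × W × W)) := by
    simp only [finrank_prod]
    omega
  have h0 : μ (g '' T) = 0 := by
    refine H649.sard_ker μ hlt.le (fun p hp => ?_) fun _ _ => Or.inl hlt
    have m₁ : DifferentiableAt ℝ (fun p : V × G₁ × G₂ × G₃ => R₁ (p.1, p.2.1)) p :=
      (k₁ _ hp.1).comp p (by fun_prop)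
    have m₂ : DifferentiableAt ℝ (fun p : V × G₁ × G₂ × G₃ => R₂ (p.1, p.2.2.1)) p :=
      (k₂ _ hp.2.1).comp p (by fun_prop)
    have m₃ : DifferentiableAt ℝ (fun p : V × G₁ × G₂ × G₃ => R₃ (p.1, p.2.2.2)) p :=
      (k₃ _ hp.2.2).comp p (by fun_prop)
    exact (m₁.fst.prodMk (m₂.fst.prodMk m₃.fst)).prodMk (m₃.snd.prodMk (m₂.snd.prodMk m₁.snd))
  refine measure_mono_null ?_ h0
  rintro π ⟨z, s₁, s₂, s₃⟩
  obtain ⟨φ₁, t₁, r₁⟩ := l₁ _ _ _ s₁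
  obtain ⟨φ₂, t₂, r₂⟩ := l₂ _ _ _ s₂
  obtain ⟨φ₃, t₃, r₃⟩ := l₃ _ _ _ s₃
  refine ⟨(z, φ₁, φ₂, φ₃), ⟨t₁, t₂, t₃⟩, ?_⟩
  simp only [g, r₁, r₂, r₃]

/-- the bad parameters are null -/
theorem null_bad [MeasurableSpace ((A × A × A) × (W × W × W))]
    [BorelSpace ((A × A × A) × (W × W × W))] (μ : Measure ((A × A × A) × (W × W × W)))
    [μ.IsAddHaarMeasure] (hV : finrank ℝ V = 24) (hA : finrank ℝ A = 16) (hW : finrank ℝ W = 8)
    {Q₁ Q₂ Q₃ F₁ F₂ F₃ : V → A → W → Prop} (q₁ : Res Q₁ 8) (q₂ : Res Q₂ 8) (q₃ : Res Q₃ 8)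
    (f₁ : Res F₁ 16) (f₂ : Res F₂ 16) (f₃ : Res F₃ 16) :
    ∀ᵐ π ∂μ, ∀ z, (Q₁ z π.1.1 π.2.2.2 ∨ F₁ z π.1.1 π.2.2.2) →
      (Q₂ z π.1.2.1 π.2.2.1 ∨ F₂ z π.1.2.1 π.2.2.1) →
      (Q₃ z π.1.2.2 π.2.1 ∨ F₃ z π.1.2.2 π.2.1) →
      ¬ Q₁ z π.1.1 π.2.2.2 ∧ ¬ Q₂ z π.1.2.1 π.2.2.1 ∧ ¬ Q₃ z π.1.2.2 π.2.1 := by
  have a1 := measure_eq_zero_iff_ae_notMem.1 (null3 μ q₁ q₂ q₃ (by omega))
  have a2 := measure_eq_zero_iff_ae_notMem.1 (null3 μ q₁ q₂ f₃ (by omega))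
  have a3 := measure_eq_zero_iff_ae_notMem.1 (null3 μ q₁ f₂ q₃ (by omega))
  have a4 := measure_eq_zero_iff_ae_notMem.1 (null3 μ q₁ f₂ f₃ (by omega))
  have a5 := measure_eq_zero_iff_ae_notMem.1 (null3 μ f₁ q₂ q₃ (by omega))
  have a6 := measure_eq_zero_iff_ae_notMem.1 (null3 μ f₁ q₂ f₃ (by omega))
  have a7 := measure_eq_zero_iff_ae_notMem.1 (null3 μ f₁ f₂ q₃ (by omega))
  filter_upwards [a1, a2, a3, a4, a5, a6, a7] with π b1 b2 b3 b4 b5 b6 b7 z h1 h2 h3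
  refine ⟨fun c1 => ?_, fun c2 => ?_, fun c3 => ?_⟩
  · rcases h2 with h2 | h2 <;> rcases h3 with h3 | h3
    · exact b1 ⟨z, c1, h2, h3⟩
    · exact b2 ⟨z, c1, h2, h3⟩
    · exact b3 ⟨z, c1, h2, h3⟩
    · exact b4 ⟨z, c1, h2, h3⟩
  · rcases h1 with h1 | h1 <;> rcases h3 with h3 | h3
    · exact b1 ⟨z, h1, c2, h3⟩
    · exact b2 ⟨z, h1, c2, h3⟩
    · exact b5 ⟨z, h1, c2, h3⟩
    · exact b6 ⟨z, h1, c2, h3⟩
  · rcases h1 with h1 | h1 <;> rcases h2 with h2 | h2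
    · exact b1 ⟨z, h1, h2, c3⟩
    · exact b3 ⟨z, h1, h2, c3⟩
    · exact b5 ⟨z, h1, h2, c3⟩
    · exact b7 ⟨z, h1, h2, c3⟩

end Res

section Norm

variable {X : Type*} {D : Dif X} {n : ℕ}
  {V : Type} [NormedAddCommGroup V] [NormedSpace ℝ V] [FiniteDimensional ℝ V]
  [MeasurableSpace V] [BorelSpace V]

/-- every cell can be parametrised by a given space -/
theorem Cell.norm (C : Cell D n) (b : Basis (Fin n) ℝ V) : ∃ (K : Set V) (c : V → X),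
    IsCompact K ∧ b.addHaar (frontier K) = 0 ∧ (∀ z ∈ K, D.At c z) ∧
    ∀ w : Form D, C.I w = ∫ z in K, evalForm (w.val c z) b ∂b.addHaar := by
  let L : V ≃L[ℝ] C.V := (b.equiv C.b (Equiv.refl _)).toContinuousLinearEquiv
  have hL : b.map L.toLinearEquiv = C.b := by
    refine Basis.eq_of_apply_eq fun i => ?_
    rw [Basis.map_apply]
    change (b.equiv C.b (Equiv.refl _)) (b i) = C.b i
    rw [Basis.equiv_apply]
    rfl
  have hm : MeasurableEmbedding (L : V → C.V) := L.toHomeomorph.measurableEmbedding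
  have hμ : C.b.addHaar = Measure.map L b.addHaar := by
    rw [← hL, Basis.map_addHaar b L]
  have hp : ∀ z ∈ L ⁻¹' C.K, D.At (C.c ∘ L) z := fun z hz =>
    D.comp (C.plot _ hz) (Sm.of_contDiff L.contDiff _)
  refine ⟨L ⁻¹' C.K, C.c ∘ L, L.toHomeomorph.isCompact_preimage.2 C.cpt, ?_, hp, fun w => ?_⟩
  · have h1 : frontier (L ⁻¹' C.K) = L ⁻¹' frontier C.K :=
      (L.toHomeomorph.preimage_frontier C.K).symm
    rw [h1, ← hm.map_apply, ← hμ, C.fr]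
  · rw [Cell.I, hμ, hm.setIntegral_map]
    refine setIntegral_congr_fun (L.toHomeomorph.isCompact_preimage.2 C.cpt).measurableSet
      fun z hz => ?_
    rw [w.nat (C.plot _ hz) (Sm.of_contDiff L.contDiff _), L.fderiv, evalForm_pull, ← hL]
    rfl

end Norm

section Cpt

variable {Z : Type*} [TopologicalSpace Z] [T2Space Z]

/-- a decreasing family of closed conditions without common point -/
theorem exists_rad {K : Set Z} (hK : IsCompact K) {S : ℝ → Set Z}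
    (hS : ∀ r, 0 < r → IsClosed (K ∩ S r)) (hm : ∀ r s, r ≤ s → S r ⊆ S s)
    (h0 : ∀ z ∈ K, ∃ r, 0 < r ∧ z ∉ S r) : ∀ᶠ r in 𝓝[>] (0 : ℝ), ∀ z ∈ K, z ∉ S r := by
  by_cases h : ∀ k : ℕ, (K ∩ S (1 / ((k : ℝ) + 1))).Nonempty
  · exfalso
    have hpos : ∀ k : ℕ, (0 : ℝ) < 1 / ((k : ℝ) + 1) := fun k => Nat.one_div_pos_of_nat
    obtain ⟨z, hz⟩ := IsCompact.nonempty_iInter_of_sequence_nonempty_isCompact_isClosed
      (fun k : ℕ => K ∩ S (1 / ((k : ℝ) + 1)))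
      (fun k => inter_subset_inter_right _ (hm _ _ (Nat.one_div_le_one_div (Nat.le_succ k))))
      h (hK.of_isClosed_subset (hS _ (hpos 0)) inter_subset_left) (fun k => hS _ (hpos k))
    rw [mem_iInter] at hz
    obtain ⟨r, hr, hzr⟩ := h0 z (hz 0).1
    obtain ⟨k, hk⟩ := exists_nat_one_div_lt hr
    exact hzr (hm _ _ hk.le (hz k).2)
  · push Not at h
    obtain ⟨k, hk⟩ := h
    have hpos : (0 : ℝ) < 1 / ((k : ℝ) + 1) := Nat.one_div_pos_of_nat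
    filter_upwards [Ioo_mem_nhdsGT hpos] with r hr z hz hzr
    have : z ∈ K ∩ S (1 / ((k : ℝ) + 1)) := ⟨hz, hm _ _ hr.2.le hzr⟩
    rw [hk] at this
    exact this

end Cpt

end

end Vale.Agent.P231Z.I7
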