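import Vale.Agent.P231Z.I7.IntA
import Vale.Agent.P231.Fm.Degree

/-!
# P231, multiplicity seven, integrality: the degree of one cell
-/

set_option linter.unusedSectionVars false
set_option linter.unusedVariables false

open Bundle Manifold Set Filter Module MeasureTheory Metric
open scoped ContDiff Manifold Topology

namespace Vale.Agent.P231Z.I7

noncomputable section

open Vale.Agent.P231 Vale.Agent.P231.Fm Vale.Agent.P231.W

section Cross

variable {W : Type} [NormedAddCommGroup W] [NormedSpace ℝ W] [FiniteDimensional ℝ W]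
  [MeasurableSpace W] [BorelSpace W]

/-- the cross product of three forms on `W` -/
def cross (v₁ v₂ v₃ : W → Lam W) (y : W × W × W) : Lam (W × W × W) :=
  Q.ps (Q.ps (v₁ y.2.2)) * (Q.ps (Q.pf (v₂ y.2.1)) * Q.pf (v₃ y.1))

theorem evalForm_ps_pf {V Y : Type} [NormedAddCommGroup V] [NormedSpace ℝ V]
    [FiniteDimensional ℝ V] [MeasurableSpace V] [BorelSpace V] [NormedAddCommGroup Y]
    [NormedSpace ℝ Y] [FiniteDimensional ℝ Y] [MeasurableSpace Y] [BorelSpace Y] {k l : ℕ}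
    (bV : Basis (Fin k) ℝ V) (bY : Basis (Fin l) ℝ Y) (a : Lam Y) (c : Lam V) :
    evalForm (Q.ps a * Q.pf c) (TW.pB bV bY) = evalForm a bY * evalForm c bV := by
  rw [TW.evalForm_pB, Q.slice_mul_pf, Cell.slice_ps, smul_mul_assoc, one_mul]
  exact map_smul (evalL bV) _ _

theorem evalForm_cross {k : ℕ} (b : Basis (Fin k) ℝ W) (v₁ v₂ v₃ : W → Lam W) (y : W × W × W) :
    evalForm (cross v₁ v₂ v₃ y) (TW.pB b (TW.pB b b)) =
      evalForm (v₃ y.1) b * (evalForm (v₂ y.2.1) b * evalForm (v₁ y.2.2) b) := by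
  have h1 : cross v₁ v₂ v₃ y = Q.ps (Q.ps (v₁ y.2.2) * Q.pf (v₂ y.2.1)) * Q.pf (v₃ y.1) := by
    rw [cross, ← mul_assoc]
    congr 1
    exact (map_mul (Fm.pull (ContinuousLinearMap.snd ℝ W (W × W))) _ _).symm
  rw [h1, evalForm_ps_pf, evalForm_ps_pf]
  ring

theorem integral_cross {k : ℕ} (b : Basis (Fin k) ℝ W) (v₁ v₂ v₃ : W → Lam W) :
    ∫ y, evalForm (cross v₁ v₂ v₃ y) (TW.pB b (TW.pB b b)) ∂(TW.pB b (TW.pB b b)).addHaar =
      TW.JJ b v₁ * TW.JJ b v₂ * TW.JJ b v₃ := by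
  simp only [evalForm_cross]
  rw [TW.addHaar_pB, TW.addHaar_pB, integral_prod_mul (fun y => evalForm (v₃ y) b)
    (fun y : W × W => evalForm (v₂ y.1) b * evalForm (v₁ y.2) b),
    integral_prod_mul (fun y => evalForm (v₂ y) b) (fun y => evalForm (v₁ y) b)]
  unfold TW.JJ
  ring

theorem contDiff_cross {v₁ v₂ v₃ : W → Lam W} (h₁ : ContDiff ℝ ∞ v₁) (h₂ : ContDiff ℝ ∞ v₂)
    (h₃ : ContDiff ℝ ∞ v₃) : ContDiff ℝ ∞ (cross v₁ v₂ v₃) := by
  have k₁ : ContDiff ℝ ∞ fun y : W × W × W => (Q.ps (Q.ps (v₁ y.2.2)) : Lam (W × W × W)) :=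
    (pullL (ContinuousLinearMap.snd ℝ W (W × W))).contDiff.comp
      ((pullL (ContinuousLinearMap.snd ℝ W W)).contDiff.comp
        (h₁.comp (contDiff_snd.comp contDiff_snd)))
  have k₂ : ContDiff ℝ ∞ fun y : W × W × W => (Q.ps (Q.pf (v₂ y.2.1)) : Lam (W × W × W)) :=
    (pullL (ContinuousLinearMap.snd ℝ W (W × W))).contDiff.comp
      ((pullL (ContinuousLinearMap.fst ℝ W W)).contDiff.comp
        (h₂.comp (contDiff_fst.comp contDiff_snd)))
  have k₃ : ContDiff ℝ ∞ fun y : W × W × W => (Q.pf (v₃ y.1) : Lam (W × W × W)) :=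
    (pullL (ContinuousLinearMap.fst ℝ W (W × W))).contDiff.comp (h₃.comp contDiff_fst)
  exact k₁.mul (k₂.mul k₃)

theorem tsupport_cross (v₁ v₂ v₃ : W → Lam W) :
    tsupport (cross v₁ v₂ v₃) ⊆ tsupport v₃ ×ˢ tsupport v₂ ×ˢ tsupport v₁ := by
  refine closure_minimal (fun y hy => ?_)
    ((isClosed_tsupport _).prod ((isClosed_tsupport _).prod (isClosed_tsupport _)))
  refine ⟨subset_tsupport _ fun h => hy ?_, subset_tsupport _ fun h => hy ?_,
    subset_tsupport _ fun h => hy ?_⟩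
  · unfold cross Q.pf
    rw [h, map_zero, mul_zero, mul_zero]
  · unfold cross Q.pf Q.ps
    rw [h, map_zero, map_zero, zero_mul, mul_zero]
  · unfold cross Q.ps
    rw [h, map_zero, map_zero, zero_mul]

theorem pb_cross {V : Type} [NormedAddCommGroup V] [NormedSpace ℝ V] [FiniteDimensional ℝ V]
    {f₁ f₂ f₃ : V → W} {z : V} (h₁ : DifferentiableAt ℝ f₁ z) (h₂ : DifferentiableAt ℝ f₂ z)
    (h₃ : DifferentiableAt ℝ f₃ z) (v₁ v₂ v₃ : W → Lam W) :
    pb (fun z => (f₃ z, f₂ z, f₁ z)) (cross v₁ v₂ v₃) z =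
      pb f₁ v₁ z * (pb f₂ v₂ z * pb f₃ v₃ z) := by
  have h := (h₃.hasFDerivAt.prodMk (h₂.hasFDerivAt.prodMk h₁.hasFDerivAt)).fderiv
  rw [pb, h, cross, map_mul, map_mul, Q.ps, Q.ps, Q.ps, Q.pf, Q.pf, ← pull_comp_apply,
    ← pull_comp_apply, ← pull_comp_apply, ← pull_comp_apply, ← pull_comp_apply]
  rfl

end Cross

variable {E : Type*} [NormedAddCommGroup E] [NormedSpace ℝ E]
  {M : Type*} [MetricSpace M] [ChartedSpace E M]
  {W : Type} [NormedAddCommGroup W] [NormedSpace ℝ W] [FiniteDimensional ℝ W]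
  [MeasurableSpace W] [BorelSpace W]

theorem cont_of_at {V : Type} [NormedAddCommGroup V] [NormedSpace ℝ V] [FiniteDimensional ℝ V]
    {u : V → M} {x : V} (h : (dM E M).At u x) : ContinuousAt u x := by
  have h1 : ∀ᶠ y in 𝓝 x, ContMDiffAt 𝓘(ℝ, V) 𝓘(ℝ, E) ∞ u y := h
  exact h1.self_of_nhds.continuousAt

theorem at_on {V : Type} [NormedAddCommGroup V] [NormedSpace ℝ V] [FiniteDimensional ℝ V]
    {u : V → M} {x : V} (h : (dM E M).At u x) {O : Set M} (hO : IsOpen O) (hx : u x ∈ O) :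
    ((dM E M).on O).At u x := ⟨h, (cont_of_at h).eventually (hO.mem_nhds hx)⟩

/-- `w` is the pull-back of `v` at distance more than `ε` from `q` -/
def Loc (q : M) (O : Set M) (N : M → W) (ε : ℝ) (w : Form (dM E M)) (v : W → Lam W) : Prop :=
  ∀ {V : Type} [NormedAddCommGroup V] [NormedSpace ℝ V] [FiniteDimensional ℝ V]
    {u : V → M} {x : V}, (dM E M).At u x → ε < dist (u x) q →
    (u x ∈ O → w.val u x = pb (N ∘ u) v x) ∧ (u x ∉ O → w.val u x = 0)

/-- the set which carries the forms -/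
def car (q : M) (O : Set M) (N : M → W) (y : W) (r : ℝ) : Set M :=
  closedBall q r ∪ ({x | x ∈ O ∧ N x ∈ closedBall y r} ∪ {q})

variable {q : M} {O : Set M} {N : M → W}

theorem car_mono (y : W) {r s : ℝ} (h : r ≤ s) : car q O N y r ⊆ car q O N y s :=
  union_subset_union (closedBall_subset_closedBall h) (union_subset_union_left _
    fun x hx => ⟨hx.1, closedBall_subset_closedBall h hx.2⟩)

theorem car_lim {y : W} {x : M} (h : ∀ r, 0 < r → x ∈ car q O N y r) :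
    x = q ∨ (x ∈ O ∧ N x = y) := by
  by_cases hq : x = q
  · exact Or.inl hq
  · have h1 : 0 < dist x q := dist_pos.2 hq
    have h2 : ∀ r, 0 < r → r < dist x q → x ∈ O ∧ dist (N x) y ≤ r := fun r hr hr' => by
      rcases h r hr with h3 | h3 | h3
      · exact absurd (mem_closedBall.1 h3) (not_le.2 hr')
      · exact h3
      · exact absurd h3 hq
    refine Or.inr ⟨(h2 _ (half_pos h1) (half_lt_self h1)).1, ?_⟩
    by_contra h3
    have h4 : 0 < dist (N x) y := dist_pos.2 h3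
    have h5 := (h2 (min (dist x q) (dist (N x) y) / 2) (half_pos (lt_min h1 h4))
      ((half_lt_self (lt_min h1 h4)).trans_le (min_le_left _ _))).2
    have h6 := (half_lt_self (lt_min h1 h4)).trans_le (min_le_right _ _)
    linarith

theorem Loc.mem {ε : ℝ} {w : Form (dM E M)} {v : W → Lam W} (h : Loc q O N ε w v) {y : W}
    (hv : tsupport v ⊆ ball y ε) {V : Type} [NormedAddCommGroup V] [NormedSpace ℝ V]
    [FiniteDimensional ℝ V] {u : V → M} {x : V} (hu : (dM E M).At u x) (h0 : w.val u x ≠ 0) :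
    u x ∈ car q O N y ε ∧ (ε < dist (u x) q → u x ∈ O) := by
  have h1 : ε < dist (u x) q → u x ∈ O := fun hd => by
    by_contra h2
    exact h0 ((h hu hd).2 h2)
  refine ⟨?_, h1⟩
  rcases le_or_gt (dist (u x) q) ε with hd | hd
  · exact Or.inl hd
  · refine Or.inr (Or.inl ⟨h1 hd, ball_subset_closedBall (hv (subset_tsupport _ fun h2 => ?_))⟩)
    refine h0 ?_
    rw [(h hu hd).1 (h1 hd), pb]
    change Fm.pull _ (v (N (u x))) = 0
    rw [h2, map_zero]

/-- **the degree of a cell in general position** -/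
theorem deg3 (hO : IsOpen O) (hN : ((dM E M).on O).Map (Dif.lin W) N)
    (hcl : ∀ C : Set W, IsCompact C → IsClosed ({x | x ∈ O ∧ N x ∈ C} ∪ {q}))
    {k : ℕ} (b : Basis (Fin k) ℝ W) {K : Set (W × W × W)} (hK : IsCompact K)
    {u₁ u₂ u₃ : W × W × W → M} (h₁ : ∀ z ∈ K, (dM E M).At u₁ z) (h₂ : ∀ z ∈ K, (dM E M).At u₂ z)
    (h₃ : ∀ z ∈ K, (dM E M).At u₃ z) (y : W × W × W)
    (hgen : ∀ z ∈ K, (u₁ z = q ∨ (u₁ z ∈ O ∧ N (u₁ z) = y.2.2)) →
      (u₂ z = q ∨ (u₂ z ∈ O ∧ N (u₂ z) = y.2.1)) → (u₃ z = q ∨ (u₃ z ∈ O ∧ N (u₃ z) = y.1)) →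
      z ∉ frontier K ∧ u₁ z ≠ q ∧ u₂ z ≠ q ∧ u₃ z ≠ q) :
    ∀ᶠ ε in 𝓝[>] (0 : ℝ), ∃ d : ℤ, ∀ (w₁ w₂ w₃ : Form (dM E M)) (v₁ v₂ v₃ : W → Lam W),
      ContDiff ℝ ∞ v₁ → ContDiff ℝ ∞ v₂ → ContDiff ℝ ∞ v₃ → tsupport v₁ ⊆ ball y.2.2 ε →
      tsupport v₂ ⊆ ball y.2.1 ε → tsupport v₃ ⊆ ball y.1 ε → Loc q O N ε w₁ v₁ →
      Loc q O N ε w₂ v₂ → Loc q O N ε w₃ v₃ →
      ∫ z in K, evalForm (w₁.val u₁ z * (w₂.val u₂ z * w₃.val u₃ z)) (TW.pB b (TW.pB b b))
        ∂(TW.pB b (TW.pB b b)).addHaar = d * (TW.JJ b v₁ * TW.JJ b v₂ * TW.JJ b v₃) := by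
  have c₁ : ContinuousOn u₁ K := fun z hz => (cont_of_at (h₁ z hz)).continuousWithinAt
  have c₂ : ContinuousOn u₂ K := fun z hz => (cont_of_at (h₂ z hz)).continuousWithinAt
  have c₃ : ContinuousOn u₃ K := fun z hz => (cont_of_at (h₃ z hz)).continuousWithinAt
  have hcar : ∀ (y : W) (r : ℝ), IsClosed (car q O N y r) := fun y r =>
    isClosed_closedBall.union (hcl _ (isCompact_closedBall y r))
  let Z : ℝ → Set (W × W × W) := fun r => K ∩ u₁ ⁻¹' car q O N y.2.2 r ∩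
    (K ∩ u₂ ⁻¹' car q O N y.2.1 r ∩ (K ∩ u₃ ⁻¹' car q O N y.1 r))
  have hZ : ∀ r, IsClosed (Z r) := fun r =>
    (c₁.preimage_isClosed_of_isClosed hK.isClosed (hcar _ r)).inter
      ((c₂.preimage_isClosed_of_isClosed hK.isClosed (hcar _ r)).inter
        (c₃.preimage_isClosed_of_isClosed hK.isClosed (hcar _ r)))
  let B : ℝ → Set (W × W × W) := fun r => frontier K ∪ (K ∩ u₁ ⁻¹' closedBall q r ∪
    (K ∩ u₂ ⁻¹' closedBall q r ∪ K ∩ u₃ ⁻¹' closedBall q r))
  have hB : ∀ r, IsClosed (B r) := fun r => isClosed_frontier.union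
    ((c₁.preimage_isClosed_of_isClosed hK.isClosed isClosed_closedBall).union
      ((c₂.preimage_isClosed_of_isClosed hK.isClosed isClosed_closedBall).union
        (c₃.preimage_isClosed_of_isClosed hK.isClosed isClosed_closedBall)))
  have hrad := exists_rad hK (S := fun r => Z r ∩ B r)
    (fun r _ => hK.isClosed.inter ((hZ r).inter (hB r)))
    (fun r s hrs => inter_subset_inter
      (inter_subset_inter (inter_subset_inter_right _ (preimage_mono (car_mono _ hrs)))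
        (inter_subset_inter (inter_subset_inter_right _ (preimage_mono (car_mono _ hrs)))
          (inter_subset_inter_right _ (preimage_mono (car_mono _ hrs)))))
      (union_subset_union_right _ (union_subset_union
        (inter_subset_inter_right _ (preimage_mono (closedBall_subset_closedBall hrs)))
        (union_subset_union
          (inter_subset_inter_right _ (preimage_mono (closedBall_subset_closedBall hrs)))
          (inter_subset_inter_right _ (preimage_mono (closedBall_subset_closedBall hrs)))))))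
    (fun z hz => by
      by_contra hcon
      push Not at hcon
      obtain ⟨g0, g1, g2, g3⟩ := hgen z hz (car_lim fun r hr => (hcon r hr).1.1.2)
        (car_lim fun r hr => (hcon r hr).1.2.1.2) (car_lim fun r hr => (hcon r hr).1.2.2.2)
      have d1 := dist_pos.2 g1
      have d2 := dist_pos.2 g2
      have d3 := dist_pos.2 g3
      have hm : 0 < min (dist (u₁ z) q) (min (dist (u₂ z) q) (dist (u₃ z) q)) :=
        lt_min d1 (lt_min d2 d3)
      have e0 := half_lt_self hm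
      have e1 := e0.trans_le (min_le_left _ _)
      have e2 := e0.trans_le ((min_le_right _ _).trans (min_le_left _ _))
      have e3 := e0.trans_le ((min_le_right _ _).trans (min_le_right _ _))
      rcases (hcon _ (half_pos hm)).2 with h | h | h | h
      · exact g0 h
      · exact absurd (mem_closedBall.1 h.2) (not_le.2 e1)
      · exact absurd (mem_closedBall.1 h.2) (not_le.2 e2)
      · exact absurd (mem_closedBall.1 h.2) (not_le.2 e3))
  filter_upwards [hrad, self_mem_nhdsWithin] with ε hε hε0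
  have hε0' : 0 < ε := hε0
  -- the points of `Z ε` are good
  have hgood : ∀ z ∈ Z ε, z ∈ interior K ∧ ε < dist (u₁ z) q ∧ ε < dist (u₂ z) q ∧
      ε < dist (u₃ z) q := by
    intro z hz
    have hzK : z ∈ K := hz.1.1
    have h0 : z ∉ B ε := fun h => hε z hzK ⟨hz, h⟩
    refine ⟨?_, ?_, ?_, ?_⟩
    · by_contra h
      exact h0 (Or.inl ⟨subset_closure hzK, h⟩)
    · by_contra h
      exact h0 (Or.inr (Or.inl ⟨hzK, not_lt.1 h⟩))
    · by_contra h
      exact h0 (Or.inr (Or.inr (Or.inl ⟨hzK, not_lt.1 h⟩)))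
    · by_contra h
      exact h0 (Or.inr (Or.inr (Or.inr ⟨hzK, not_lt.1 h⟩)))
  let O' : Set M := O ∩ {x | ε < dist x q}
  have hO' : IsOpen O' := hO.inter (isOpen_lt continuous_const (continuous_id.dist
    continuous_const))
  let U : Set (W × W × W) := interior K ∩ u₁ ⁻¹' O' ∩
    (interior K ∩ u₂ ⁻¹' O' ∩ (interior K ∩ u₃ ⁻¹' O'))
  have hU : IsOpen U :=
    ((c₁.mono interior_subset).isOpen_inter_preimage isOpen_interior hO').inter
      (((c₂.mono interior_subset).isOpen_inter_preimage isOpen_interior hO').inter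
        ((c₃.mono interior_subset).isOpen_inter_preimage isOpen_interior hO'))
  have hUK : U ⊆ K := fun z hz => interior_subset hz.1.1
  have s₁ : ∀ z ∈ U, Sm (N ∘ u₁) z := fun z hz => hN (at_on (h₁ z (hUK hz)) hO hz.1.2.1)
  have s₂ : ∀ z ∈ U, Sm (N ∘ u₂) z := fun z hz => hN (at_on (h₂ z (hUK hz)) hO hz.2.1.2.1)
  have s₃ : ∀ z ∈ U, Sm (N ∘ u₃) z := fun z hz => hN (at_on (h₃ z (hUK hz)) hO hz.2.2.2.1)
  let f : W × W × W → W × W × W := fun z => ((N ∘ u₃) z, (N ∘ u₂) z, (N ∘ u₁) z)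
  have hf : ContDiffOn ℝ ∞ f U := fun z hz =>
    ((s₃ z hz).contDiffAt.prodMk ((s₂ z hz).contDiffAt.prodMk
      (s₁ z hz).contDiffAt)).contDiffWithinAt
  have hcarO : ∀ {y : W} {x : M}, x ∈ car q O N y ε → ε < dist x q → x ∈ O := by
    intro y x hx hd
    rcases hx with h | h | h
    · exact absurd (mem_closedBall.1 h) (not_le.2 hd)
    · exact h.1
    · rw [show x = q from h, dist_self] at hd
      exact absurd hd (not_lt.2 hε0'.le)
  have hZU : Z ε ⊆ U := fun z hz => by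
    obtain ⟨g0, g1, g2, g3⟩ := hgood z hz
    exact ⟨⟨g0, hcarO hz.1.2 g1, g1⟩, ⟨g0, hcarO hz.2.1.2 g2, g2⟩, g0, hcarO hz.2.2.2 g3, g3⟩
  have hp : ∀ C ⊆ ball y ε, IsCompact C → IsCompact {z | z ∈ U ∧ f z ∈ C} := by
    intro C hC hCc
    have e1 : {z | z ∈ U ∧ f z ∈ C} = Z ε ∩ f ⁻¹' C := by
      refine Subset.antisymm (fun z hz => ⟨?_, hz.2⟩) fun z hz => ⟨hZU hz.1, hz.2⟩
      have e2 := hC hz.2
      rw [← ball_prod_same, ← ball_prod_same] at e2
      have hzK := hUK hz.1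
      exact ⟨⟨hzK, Or.inr (Or.inl ⟨hz.1.1.2.1, ball_subset_closedBall e2.2.2⟩)⟩,
        ⟨hzK, Or.inr (Or.inl ⟨hz.1.2.1.2.1, ball_subset_closedBall e2.2.1⟩)⟩,
        hzK, Or.inr (Or.inl ⟨hz.1.2.2.2.1, ball_subset_closedBall e2.1⟩)⟩
    rw [e1]
    exact hK.of_isClosed_subset ((hf.continuousOn.mono hZU).preimage_isClosed_of_isClosed
      (hZ ε) hCc.isClosed) fun z hz => hz.1.1.1
  obtain ⟨d, hd⟩ := exists_int_degree_form (TW.pB b (TW.pB b b)).addHaar (TW.pB b (TW.pB b b))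
    hU isOpen_ball (convex_ball y ε) hf hp
  refine ⟨d, fun w₁ w₂ w₃ v₁ v₂ v₃ k₁ k₂ k₃ t₁ t₂ t₃ l₁ l₂ l₃ => ?_⟩
  have ht : tsupport (cross v₁ v₂ v₃) ⊆ ball y ε := by
    refine (tsupport_cross v₁ v₂ v₃).trans ?_
    rw [← ball_prod_same, ← ball_prod_same]
    exact prod_mono t₃ (prod_mono t₂ t₁)
  have hc : HasCompactSupport (cross v₁ v₂ v₃) :=
    (isCompact_closedBall y ε).of_isClosed_subset (isClosed_tsupport _)
      (ht.trans ball_subset_closedBall)
  rw [← integral_cross, ← hd _ (contDiff_cross k₁ k₂ k₃) hc ht,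
    setIntegral_eq_of_subset_of_forall_sdiff_eq_zero hK.measurableSet hUK]
  · refine setIntegral_congr_fun hU.measurableSet fun z hz => ?_
    have hzK := hUK hz
    change evalForm (w₁.val u₁ z * (w₂.val u₂ z * w₃.val u₃ z)) _ = evalForm (pb f _ z) _
    rw [(l₁ (h₁ z hzK) hz.1.2.2).1 hz.1.2.1, (l₂ (h₂ z hzK) hz.2.1.2.2).1 hz.2.1.2.1,
      (l₃ (h₃ z hzK) hz.2.2.2.2).1 hz.2.2.2.1, pb_cross (s₁ z hz).differentiableAt
        (s₂ z hz).differentiableAt (s₃ z hz).differentiableAt]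
  · intro z hz
    have h0 : w₁.val u₁ z * (w₂.val u₂ z * w₃.val u₃ z) = 0 := by
      by_contra h
      have n₁ : w₁.val u₁ z ≠ 0 := fun h' => h (by rw [h', zero_mul])
      have n₂ : w₂.val u₂ z ≠ 0 := fun h' => h (by rw [h', zero_mul, mul_zero])
      have n₃ : w₃.val u₃ z ≠ 0 := fun h' => h (by rw [h', mul_zero, mul_zero])
      exact hz.2 (hZU ⟨⟨hz.1, (l₁.mem t₁ (h₁ z hz.1) n₁).1⟩, ⟨hz.1, (l₂.mem t₂ (h₂ z hz.1) n₂).1⟩,
        hz.1, (l₃.mem t₃ (h₃ z hz.1) n₃).1⟩)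
    rw [h0]
    exact map_zero (evalL _)

end

end Vale.Agent.P231Z.I7
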