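import Mathlib.Analysis.SpecialFunctions.SmoothTransition
import Mathlib.Analysis.InnerProductSpace.Calculus
import Mathlib.Analysis.Normed.Module.FiniteDimension

/-!
# P231, multiplicity seven, the affine model (1): radial functions
-/

set_option linter.unusedSectionVars false
set_option linter.unusedVariables false

open Set Filter Metric
open scoped ContDiff Topology

namespace Vale.Agent.P231Z.I7.Md

noncomputable section

/-- the profile -/
def pf (t : ℝ) : ℝ := Real.smoothTransition (3 * t - 1)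

theorem contDiff_pf : ContDiff ℝ ∞ pf :=
  Real.smoothTransition.contDiff.comp ((contDiff_const.mul contDiff_id).sub contDiff_const)

theorem pf_zero {t : ℝ} (ht : t ≤ 1 / 3) : pf t = 0 :=
  Real.smoothTransition.zero_of_nonpos (by linarith)

theorem pf_one {t : ℝ} (ht : 2 / 3 ≤ t) : pf t = 1 :=
  Real.smoothTransition.one_of_one_le (by linarith)

theorem pf_nonneg (t : ℝ) : 0 ≤ pf t := Real.smoothTransition.nonneg _

theorem pf_le_one (t : ℝ) : pf t ≤ 1 := Real.smoothTransition.le_one _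

variable {W : Type*} [NormedAddCommGroup W] [InnerProductSpace ℝ W]

/-- functions of the norm which are constant near the origin -/
theorem cd_norm {g : ℝ → ℝ} {c k : ℝ} (hc : 0 < c) (h0 : ∀ t, t ≤ c → g t = k) {y : W}
    (hg : y ≠ 0 → ContDiffAt ℝ ∞ g ‖y‖) : ContDiffAt ℝ ∞ (fun z : W => g ‖z‖) y := by
  rcases eq_or_ne y 0 with rfl | hy
  · refine (contDiffAt_const (c := k)).congr_of_eventuallyEq ?_
    filter_upwards [ball_mem_nhds (0 : W) hc] with z hz
    exact h0 _ (mem_ball_zero_iff.1 hz).le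
  · exact (hg hy).comp y (contDiffAt_norm ℝ hy)

/-! ### the collapse of the space to the closed ball -/

/-- the radial factor -/
def th (y : W) : ℝ := 1 - pf ‖y‖ + pf ‖y‖ * ‖y‖⁻¹

/-- the radial map onto the closed ball of radius `D` -/
def Th (D : ℝ) (y : W) : W := (D * th y) • y

theorem th_small {y : W} (hy : ‖y‖ ≤ 1 / 3) : th y = 1 := by
  rw [th, pf_zero hy]
  ring

theorem th_big {y : W} (hy : 2 / 3 ≤ ‖y‖) : th y = ‖y‖⁻¹ := by
  rw [th, pf_one hy]
  ring

theorem contDiff_th : ContDiff ℝ ∞ (th : W → ℝ) := by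
  refine contDiff_iff_contDiffAt.2 fun y => ?_
  refine cd_norm (g := fun t => 1 - pf t + pf t * t⁻¹) (c := 1 / 3) (k := 1) (by norm_num)
    (fun t ht => by rw [pf_zero ht]; ring) fun hy => ?_
  exact (contDiffAt_const.sub contDiff_pf.contDiffAt).add
    (contDiff_pf.contDiffAt.mul (contDiffAt_id.inv (norm_ne_zero_iff.2 hy)))

theorem th_mul (y : W) : th y * ‖y‖ = (1 - pf ‖y‖) * ‖y‖ + pf ‖y‖ := by
  rcases eq_or_ne y 0 with rfl | hy
  · rw [norm_zero, pf_zero (by norm_num)]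
    ring
  · have h : ‖y‖ ≠ 0 := norm_ne_zero_iff.2 hy
    rw [th]
    field_simp

theorem th_pos (y : W) : 0 < th y := by
  rcases eq_or_ne y 0 with rfl | hy
  · rw [th_small (by rw [norm_zero]; norm_num)]
    exact one_pos
  · have h : 0 < ‖y‖ := norm_pos_iff.2 hy
    have h1 := th_mul y
    have h2 := pf_nonneg ‖y‖
    have h3 := pf_le_one ‖y‖
    have h4 : 0 < th y * ‖y‖ := by
      rw [h1]
      rcases eq_or_lt_of_le h2 with h5 | h5
      · rw [← h5]
        linarith
      · have := mul_nonneg (sub_nonneg.2 h3) h.le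
        linarith
    exact (mul_pos_iff_of_pos_right h).1 h4

variable {D : ℝ}

theorem contDiff_Th (D : ℝ) : ContDiff ℝ ∞ (Th D : W → W) :=
  (contDiff_const.mul contDiff_th).smul contDiff_id

theorem Th_small {y : W} (hy : ‖y‖ ≤ 1 / 3) : Th D y = D • y := by
  rw [Th, th_small hy, mul_one]

theorem Th_big {y : W} (hy : 2 / 3 ≤ ‖y‖) : Th D y = D • (‖y‖⁻¹ • y) := by
  rw [Th, th_big hy, smul_smul]

theorem norm_Th (hD : 0 < D) (y : W) : ‖Th D y‖ = D * ((1 - pf ‖y‖) * ‖y‖ + pf ‖y‖) := by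
  rw [Th, norm_smul, Real.norm_of_nonneg (mul_pos hD (th_pos y)).le, mul_assoc, th_mul]

theorem norm_Th_big (hD : 0 < D) {y : W} (hy : 2 / 3 ≤ ‖y‖) : ‖Th D y‖ = D := by
  rw [norm_Th hD, pf_one hy]
  ring

theorem norm_Th_le (hD : 0 < D) (y : W) : ‖Th D y‖ ≤ D := by
  rcases le_total (2 / 3) ‖y‖ with h | h
  · exact (norm_Th_big hD h).le
  · rw [norm_Th hD]
    have h2 := pf_nonneg ‖y‖
    have h3 := pf_le_one ‖y‖
    have h4 : (1 - pf ‖y‖) * ‖y‖ ≤ (1 - pf ‖y‖) * 1 :=
      mul_le_mul_of_nonneg_left (by linarith) (sub_nonneg.2 h3)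
    have h5 : (1 - pf ‖y‖) * ‖y‖ + pf ‖y‖ ≤ 1 := by linarith
    exact mul_le_of_le_one_right hD.le h5

theorem norm_Th_ge (hD : 0 < D) {y : W} (hy : 1 / 3 ≤ ‖y‖) : D / 3 ≤ ‖Th D y‖ := by
  rw [norm_Th hD]
  have h2 := pf_nonneg ‖y‖
  have h3 := pf_le_one ‖y‖
  have h4 : (1 - pf ‖y‖) * (1 / 3) ≤ (1 - pf ‖y‖) * ‖y‖ :=
    mul_le_mul_of_nonneg_left hy (sub_nonneg.2 h3)
  have h5 : 1 / 3 ≤ (1 - pf ‖y‖) * ‖y‖ + pf ‖y‖ := by linarith
  have h6 := mul_le_mul_of_nonneg_left h5 hD.le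
  linarith

/-! ### the blow-up factor -/

/-- the factor which is one near the origin and blows up at the sphere of radius `D` -/
def La (D : ℝ) (v : W) : ℝ := 1 + pf (‖v‖ / D) * (D - ‖v‖)⁻¹

theorem La_small (hD : 0 < D) {v : W} (hv : ‖v‖ ≤ D / 3) : La D v = 1 := by
  rw [La, pf_zero (by rw [div_le_iff₀ hD]; linarith)]
  ring

theorem one_le_La {v : W} (hv : ‖v‖ < D) : 1 ≤ La D v := by
  have h := mul_nonneg (pf_nonneg (‖v‖ / D)) (inv_pos.2 (sub_pos.2 hv)).le
  rw [La]
  linarith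

theorem La_big (hD : 0 < D) {v : W} (hv : ‖v‖ < D) (h : 2 * D / 3 ≤ ‖v‖) :
    1 ≤ (D - ‖v‖) * La D v := by
  have h1 : 0 < D - ‖v‖ := sub_pos.2 hv
  rw [La, pf_one (by rw [le_div_iff₀ hD]; linarith), one_mul, mul_add, mul_inv_cancel₀ h1.ne']
  linarith

theorem cd_La (hD : 0 < D) {v : W} (hv : ‖v‖ < D) : ContDiffAt ℝ ∞ (La D : W → ℝ) v := by
  refine cd_norm (g := fun t => 1 + pf (t / D) * (D - t)⁻¹) (c := D / 3) (k := 1) (by linarith)
    (fun t ht => by rw [pf_zero (by rw [div_le_iff₀ hD]; linarith)]; ring) fun hy => ?_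
  exact contDiffAt_const.add ((contDiff_pf.contDiffAt.comp _ (contDiffAt_id.div_const D)).mul
    ((contDiffAt_const.sub contDiffAt_id).inv (sub_pos.2 hv).ne'))

variable {U : Type*} [NormedAddCommGroup U] [NormedSpace ℝ U]

theorem norm_le_La {v : W} (hv : ‖v‖ < D) (w : U) : ‖w‖ ≤ ‖La D v • w‖ := by
  have h := one_le_La hv
  rw [norm_smul, Real.norm_of_nonneg (by linarith)]
  exact le_mul_of_one_le_left (norm_nonneg _) h

/-- the preimage of a compact set is compact, after adding the points of the kernel on the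
sphere -/
theorem isCompact_pre [FiniteDimensional ℝ W] (hD : 0 < D) (Q : W →L[ℝ] U) {C : Set U}
    (hC : IsCompact C) :
    IsCompact ({v : W | ‖v‖ < D ∧ La D v • Q v ∈ C} ∪ {v : W | ‖v‖ = D ∧ Q v = 0}) := by
  obtain ⟨R, hR⟩ := hC.isBounded.subset_closedBall 0
  set S : Set W := {v : W | ‖v‖ < D ∧ La D v • Q v ∈ C} ∪ {v : W | ‖v‖ = D ∧ Q v = 0} with hS
  have h1 : S ⊆ closedBall 0 D := by
    rintro v (hv | hv)
    · exact mem_closedBall_zero_iff.2 hv.1.le
    · exact mem_closedBall_zero_iff.2 hv.1.le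
  have h2 : S ⊆ {v : W | ‖v‖ ≤ 2 * D / 3} ∪ {v : W | ‖Q v‖ ≤ (D - ‖v‖) * R} := by
    rintro v (hv | hv)
    · rcases le_total ‖v‖ (2 * D / 3) with h | h
      · exact Or.inl h
      · right
        have h3 := La_big hD hv.1 h
        have h4 : ‖La D v • Q v‖ ≤ R := mem_closedBall_zero_iff.1 (hR hv.2)
        have h5 := one_le_La hv.1
        rw [norm_smul, Real.norm_of_nonneg (by linarith)] at h4
        have h6 : 0 ≤ D - ‖v‖ := (sub_pos.2 hv.1).le
        show ‖Q v‖ ≤ (D - ‖v‖) * R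
        calc ‖Q v‖ ≤ ((D - ‖v‖) * La D v) * ‖Q v‖ := le_mul_of_one_le_left (norm_nonneg _) h3
          _ = (D - ‖v‖) * (La D v * ‖Q v‖) := mul_assoc _ _ _
          _ ≤ (D - ‖v‖) * R := mul_le_mul_of_nonneg_left h4 h6
    · right
      show ‖Q v‖ ≤ (D - ‖v‖) * R
      rw [hv.1, hv.2, norm_zero, sub_self, zero_mul]
  have h3 : IsClosed ({v : W | ‖v‖ ≤ 2 * D / 3} ∪ {v : W | ‖Q v‖ ≤ (D - ‖v‖) * R}) :=
    (isClosed_le continuous_norm continuous_const).union
      (isClosed_le Q.continuous.norm ((continuous_const.sub continuous_norm).mul continuous_const))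
  have hcl : IsClosed S := by
    refine isClosed_of_closure_subset fun v hv => ?_
    have h4 : ‖v‖ ≤ D := mem_closedBall_zero_iff.1 (closure_minimal h1 isClosed_closedBall hv)
    rcases lt_or_eq_of_le h4 with h5 | h5
    · left
      refine ⟨h5, ?_⟩
      have h6 : ∃ᶠ z in 𝓝 v, z ∈ S := mem_closure_iff_frequently.1 hv
      have h7 : ∀ᶠ z in 𝓝 v, ‖z‖ < D :=
        continuous_norm.continuousAt.eventually (gt_mem_nhds h5)
      have h8 : ∃ᶠ z in 𝓝 v, La D z • Q z ∈ C := by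
        refine (h6.and_eventually h7).mono fun z hz => ?_
        rcases hz.1 with h9 | h9
        · exact h9.2
        · exact absurd h9.1 hz.2.ne
      have h9 : ContinuousAt (fun z : W => La D z • Q z) v :=
        (cd_La hD h5).continuousAt.smul Q.continuous.continuousAt
      exact hC.isClosed.mem_of_frequently_of_tendsto h8 h9
    · right
      refine ⟨h5, ?_⟩
      rcases closure_minimal h2 h3 hv with h6 | h6
      · have h7 : ‖v‖ ≤ 2 * D / 3 := h6
        linarith
      · have h7 : ‖Q v‖ ≤ (D - ‖v‖) * R := h6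
        rw [h5, sub_self, zero_mul] at h7
        exact norm_le_zero_iff.1 h7
  exact (isCompact_closedBall (0 : W) D).of_isClosed_subset hcl h1

end

end Vale.Agent.P231Z.I7.Md
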