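import Vale.Agent.P231.S2II.Change
import Vale.Agent.P231.TW.Ang

/-!
# P231, multiplicity seven, integrality: the integral over the sphere, tested on horizontal vectors

The fibre integral over a sphere does not depend on the cutoff, transforms by the sign of the
determinant under invertible linear maps of the fibre, and is computed by the standard cell.
-/

set_option linter.unusedSectionVars false
set_option linter.unusedVariables false

open MeasureTheory Set Module Filter Topology Metric
open scoped ContDiff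

namespace Vale.Agent.P231Z.I7

noncomputable section

open Vale.Agent.P231 Vale.Agent.P231.Fm
open Vale.Agent.P231.Fm (Dif Form Sm)

section Red

variable {V : Type*} [NormedAddCommGroup V] [NormedSpace ℝ V] [FiniteDimensional ℝ V]
variable {G : Type*} [NormedAddCommGroup G] [NormedSpace ℝ G] [FiniteDimensional ℝ G]
  [MeasurableSpace G] [BorelSpace G]
variable {G' : Type*} [NormedAddCommGroup G'] [NormedSpace ℝ G'] [FiniteDimensional ℝ G']
  [MeasurableSpace G'] [BorelSpace G']

/-- horizontal vectors -/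
def hor {k : ℕ} (xs : Fin k → V) (i : Fin k) : V × G := (xs i, 0)

/-- contraction with horizontal vectors and restriction to the fibre -/
def red {k : ℕ} (xs : Fin k → V) : Lam (V × G) →L[ℝ] Lam G :=
  pullL (ContinuousLinearMap.inr ℝ V G) ∘L contL (hor xs)

theorem red_apply {k : ℕ} (xs : Fin k → V) (w : Lam (V × G)) :
    red xs w = pull (ContinuousLinearMap.inr ℝ V G) (cont (hor xs) w) := rfl

theorem cont_slice {k m : ℕ} (xs : Fin k → V) (v : Fin m → G) (w : Lam (V × G)) :
    cont xs (slice v w) = (-1 : ℝ) ^ (m * k) • slice v (cont (hor xs) w) := by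
  induction k generalizing w with
  | zero => simp
  | succ k ih =>
    rw [cont_succ, WG.iprod_slice, map_smul, ih, smul_smul, ← pow_add, cont_succ]
    have h1 : m + m * k = m * (k + 1) := by ring
    rw [h1]
    rfl

theorem evalForm_slice {k m : ℕ} (xs : Fin k → V) (v : Fin m → G) (w : Lam (V × G)) :
    evalForm (slice v w) xs = (-1 : ℝ) ^ (m * k) * evalForm (red xs w) v := by
  rw [evalForm_apply, cont_slice, map_smul, Q.aug_slice, smul_eq_mul]
  rfl

theorem cont_hor_ps {k : ℕ} (xs : Fin k → V) (a : G →L[ℝ] ℝ) (w : Lam (V × G)) :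
    cont (hor xs) (Q.ps (dx a) * w) = (-1 : ℝ) ^ k • (Q.ps (dx a) * cont (hor xs) w) := by
  induction k generalizing w with
  | zero => simp
  | succ k ih =>
    rw [cont_succ, cont_succ]
    have h : (fun i : Fin k => hor (G := G) xs i.succ) = hor fun i => xs i.succ := rfl
    have h1 : iprod (hor (G := G) xs 0) (Q.ps (dx a) * w) =
        -(Q.ps (dx a) * iprod (hor xs 0) w) := by
      rw [iprod_mul, hor, WG.iprod_ps, map_zero, map_zero, zero_mul, zero_add, WG.inv_ps_dx,
        neg_mul]
    rw [h1, h, map_neg, ih, pow_succ, mul_neg_one, neg_smul]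

theorem red_ps {k : ℕ} (xs : Fin k → V) (a : G →L[ℝ] ℝ) (w : Lam (V × G)) :
    red xs (Q.ps (dx a) * w) = (-1 : ℝ) ^ k • (dx a * red xs w) := by
  rw [red_apply, cont_hor_ps, map_smul, map_mul, Q.pull_inr_ps]
  rfl

theorem red_pull {k : ℕ} (xs : Fin k → V) (L : G' →L[ℝ] G) (w : Lam (V × G)) :
    red xs (pull ((ContinuousLinearMap.id ℝ V).prodMap L) w) = pull L (red xs w) := by
  rw [red_apply, red_apply, pull_cont, ← pull_comp_apply, ← pull_comp_apply]
  have h : ((ContinuousLinearMap.id ℝ V).prodMap L).comp (ContinuousLinearMap.inr ℝ V G') =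
      (ContinuousLinearMap.inr ℝ V G).comp L := by
    refine ContinuousLinearMap.ext fun y => ?_
    simp
  have h2 : (fun i => ((ContinuousLinearMap.id ℝ V).prodMap L) (hor xs i)) = hor xs := by
    funext i
    simp [hor]
  rw [h, h2]

/-- a linear form on a product is the sum of its two parts -/
theorem dx_split (A : V × G →L[ℝ] ℝ) :
    dx A = Q.pf (dx (A ∘L ContinuousLinearMap.inl ℝ V G)) +
      Q.ps (dx (A ∘L ContinuousLinearMap.inr ℝ V G)) := by
  rw [Q.pf, Q.ps, pull_dx, pull_dx, ← map_add]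
  congr 1
  refine ContinuousLinearMap.ext fun p => ?_
  change A p = A (p.1, 0) + A (0, p.2)
  rw [← map_add]
  simp

/-- only the vertical part of the differential of the cutoff matters -/
theorem slice_dx_mul {m : ℕ} (b : Basis (Fin m) ℝ G) (A : V × G →L[ℝ] ℝ) {w : Lam (V × G)} {y : G}
    (hy : y ≠ 0) (hw : iprod ((0, y) : V × G) w = 0) :
    slice b (dx A * w) = slice b (Q.ps (dx (A ∘L ContinuousLinearMap.inr ℝ V G)) * w) := by
  rw [dx_split A, add_mul, map_add, Co.slice_pf_mul, WG.slice_eq_zero b hy hw, mul_zero, zero_add]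

end Red

section Radial

variable {V : Type*} [NormedAddCommGroup V] [NormedSpace ℝ V] [FiniteDimensional ℝ V]
variable {G : Type*} [NormedAddCommGroup G] [InnerProductSpace ℝ G] [FiniteDimensional ℝ G]
  [MeasurableSpace G] [BorelSpace G]

/-- a family of forms along a fibre, smooth off the origin and invariant under scaling -/
structure Radl (t : G → Lam (V × G)) : Prop where
  smooth : ContDiffOn ℝ ∞ t {0}ᶜ
  hom : ∀ y ≠ 0, t y = pull ((ContinuousLinearMap.id ℝ V).prodMap (fderiv ℝ rad y)) (t (rad y))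

variable {t : G → Lam (V × G)}

theorem Radl.smooth_red (h : Radl t) {k : ℕ} (xs : Fin k → V) :
    ContDiffOn ℝ ∞ (fun y => red xs (t y)) {0}ᶜ :=
  (red (G := G) xs).contDiff.comp_contDiffOn h.smooth

theorem Radl.hom_red (h : Radl t) {k : ℕ} (xs : Fin k → V) : TW.Hom (fun y => red xs (t y)) := by
  intro y hy
  rw [pb, ← red_pull, ← h.hom y hy]

theorem Radl.kill (h : Radl t) {y : G} (hy : y ≠ 0) : iprod ((0, y) : V × G) (t y) = 0 := by
  rw [h.hom y hy, pull_iprod]
  have h1 : ((ContinuousLinearMap.id ℝ V).prodMap (fderiv ℝ rad y)) ((0, y) : V × G) = 0 := by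
    change ((0 : V), fderiv ℝ rad y y) = 0
    rw [sphMap_rad.fderiv_self hy]
    rfl
  rw [h1, Q.iprod_zero_left, map_zero]

theorem hom_closed {om : G → Lam G} (h1 : ContDiffOn ℝ ∞ om {0}ᶜ) (h2 : TW.Hom om) {n : ℕ}
    (b : Basis (Fin n) ℝ G) {y : G} (hy : y ≠ 0) : evalForm (extd om y) b = 0 := by
  have h3 : om =ᶠ[𝓝 y] pb rad om := by
    filter_upwards [isOpen_compl_singleton.mem_nhds hy] with z hz using (h2 z hz).symm
  rw [extd_congr h3]
  exact sphMap_rad.eval_extd b h1 hy

theorem Radl.integrable (h : Radl t) (μ : Measure G) [μ.IsAddHaarMeasure] {m : ℕ} (v : Fin m → G)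
    {r : G → ℝ} {K : Set G} (hr : Q.Cut r K) :
    Integrable (fun y => slice (E := V) v (Q.ps (Q.dR r y) * t y)) μ := by
  have hc : Continuous fun y => (Q.ps (Q.dR r y) * t y : Lam (V × G)) := by
    refine continuous_iff_continuousAt.2 fun y => ?_
    rcases eq_or_ne y 0 with rfl | hy
    · have h1 : (fun y => (Q.ps (Q.dR r y) * t y : Lam (V × G))) =ᶠ[𝓝 (0 : G)] fun _ => 0 := by
        filter_upwards [hr.dR_near] with z hz
        rw [hz, Q.ps, map_zero, zero_mul]
      exact (continuousAt_const (y := (0 : Lam (V × G)))).congr h1.symm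
    · have h2 : Continuous fun y => (Q.ps (Q.dR r y) : Lam (V × G)) :=
        (pullL (ContinuousLinearMap.snd ℝ V G)).continuous.comp
          (Q.contDiff_dR hr.smooth).continuous
      exact h2.continuousAt.mul
        (h.smooth.contDiffAt (isOpen_compl_singleton.mem_nhds hy)).continuousAt
  refine Continuous.integrable_of_hasCompactSupport ((slice (E := V) v).continuous.comp hc) ?_
  refine HasCompactSupport.intro hr.compact fun y hy => ?_
  change slice (E := V) v (Q.ps (Q.dR r y) * t y) = 0
  rw [hr.dR_out hy, Q.ps, map_zero, zero_mul, map_zero]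

/-- the fibre integral tested on horizontal vectors -/
theorem Radl.eval_int (h : Radl t) (μ : Measure G) [μ.IsAddHaarMeasure] {m : ℕ} (v : Fin m → G)
    {r : G → ℝ} {K : Set G} (hr : Q.Cut r K) {k : ℕ} (xs : Fin k → V) :
    evalForm (∫ y, slice (E := V) v (Q.ps (Q.dR r y) * t y) ∂μ) xs =
      (-1 : ℝ) ^ ((m + 1) * k) * ∫ y, evalForm (Q.dR r y * red xs (t y)) v ∂μ := by
  have h1 := ContinuousLinearMap.integral_comp_comm (evalL xs) (h.integrable μ v hr)
  rw [← evalL_apply, ← h1, ← integral_const_mul]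
  refine integral_congr_ae (Eventually.of_forall fun y => ?_)
  change evalForm (slice v (Q.ps (dx (fderiv ℝ r y)) * t y)) xs = _
  rw [evalForm_slice, red_ps, Q.evalForm_smul, ← mul_assoc, ← pow_add]
  have h2 : m * k + k = (m + 1) * k := by ring
  rw [h2]
  rfl

/-- the fibre integral does not depend on the cutoff -/
theorem Radl.cut (h : Radl t) (μ : Measure G) [μ.IsAddHaarMeasure] {m : ℕ} (b : Basis (Fin m) ℝ G)
    {r r' : G → ℝ} {K K' : Set G} (hr : Q.Cut r K) (hr' : Q.Cut r' K') :
    ∫ y, slice (E := V) b (Q.ps (Q.dR r y) * t y) ∂μ =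
      ∫ y, slice (E := V) b (Q.ps (Q.dR r' y) * t y) ∂μ := by
  refine Co.ext_cont fun k xs => ?_
  rw [← evalForm_apply, ← evalForm_apply, h.eval_int μ b hr, h.eval_int μ b hr',
    cut_indep μ b (h.smooth_red xs)
      (fun y hy => hom_closed (h.smooth_red xs) (h.hom_red xs) b hy) hr hr']

/-- the radial cutoff of the sphere integral -/
def rc (y : G) : ℝ := Real.smoothTransition (2 * ‖y‖ ^ 2 - 1)

theorem contDiff_rc : ContDiff ℝ ∞ (rc : G → ℝ) :=
  Real.smoothTransition.contDiff.comp ((contDiff_const.mul (contDiff_norm_sq ℝ)).sub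
    contDiff_const)

theorem cut_rc : Q.Cut (rc : G → ℝ) (closedBall 0 1) where
  smooth := contDiff_rc
  compact := isCompact_closedBall _ _
  one y hy := by
    rw [mem_closedBall_zero_iff, not_le] at hy
    exact Real.smoothTransition.one_of_one_le (by nlinarith)
  zero := by
    have h1 : ContinuousAt (fun y : G => 2 * ‖y‖ ^ 2) 0 := by fun_prop
    have h2 : (fun y : G => 2 * ‖y‖ ^ 2) 0 < 1 := by simp
    filter_upwards [h1.eventually (gt_mem_nhds h2)] with y hy
    exact Real.smoothTransition.zero_of_nonpos (by linarith)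

/-- the cutoff after an invertible linear map -/
theorem cut_lin (L : G ≃L[ℝ] G) : Q.Cut (fun y => rc (L y)) (L.symm '' closedBall 0 1) where
  smooth := contDiff_rc.comp L.contDiff
  compact := (isCompact_closedBall _ _).image L.symm.continuous
  one y hy := cut_rc.one _ fun h1 => hy ⟨L y, h1, L.symm_apply_apply y⟩
  zero := by
    have h1 : Tendsto L (𝓝 0) (𝓝 0) := by
      have := L.continuous.tendsto (0 : G)
      rwa [map_zero] at this
    exact h1.eventually cut_rc.zero

end Radial

section Plot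

variable {X : Type*} {D : Dif X}
variable {G : Type} [NormedAddCommGroup G] [InnerProductSpace ℝ G] [FiniteDimensional ℝ G]
  [MeasurableSpace G] [BorelSpace G]
variable {V : Type} [NormedAddCommGroup V] [NormedSpace ℝ V] [FiniteDimensional ℝ V]

/-- the value of `dχ ∧ n^*σ` in a plot -/
theorem dx_val (σ : Form (Co.SB D G)) {Z : Type} [NormedAddCommGroup Z] [NormedSpace ℝ Z]
    [FiniteDimensional ℝ Z] {u : Z → X × G} {z : Z} (hu : (Co.D1 D G).At u z) :
    (Co.dx σ).val u z = dx (fderiv ℝ (fun p => rc (u p).2) z) * σ.val (Co.nrm ∘ u) z := by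
  have hs : Sm (fun p => (u p).2) z := hu.2
  have h1 : (Co.chf D G).d.val u z = dx (fderiv ℝ (fun p => rc (u p).2) z) := by
    rw [Form.d_val _ hu]
    have h2 : (Co.chf D G).val u =ᶠ[𝓝 z] Fm.fn fun p => rc (u p).2 := by
      filter_upwards [(Co.D1 D G).open' hu] with p hp
      rw [Co.chf, Form.fn_val _ _ hp]
      rfl
    rw [extd_congr h2]
    exact extd_fn ((contDiff_rc.differentiable (by simp) _).comp z hs.differentiableAt)
  rw [Co.dx, Form.mx_val]
  rcases (Co.supp_chf (D := D) (F := G)).d.out hu with h3 | h3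
  · have h4 : (Co.PB D G).At u z := ⟨hu, h3⟩
    rw [Form.pull_val _ _ h4, h1]
  · rw [← h1, h3.self_of_nhds, zero_mul, zero_mul]

theorem fderiv_prodMap_snd {G' : Type} [NormedAddCommGroup G'] [NormedSpace ℝ G'] {c : G' → G}
    {x : V} {y : G'} (hc : DifferentiableAt ℝ c y) :
    fderiv ℝ (fun p : V × G' => (p.1, c p.2)) (x, y) =
      (ContinuousLinearMap.id ℝ V).prodMap (fderiv ℝ c y) := by
  have h4 : HasFDerivAt (fun p : V × G' => (p.1, c p.2))
      ((ContinuousLinearMap.id ℝ V).prodMap (fderiv ℝ c y)) (x, y) := by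
    have := (hasFDerivAt_id (𝕜 := ℝ) x).prodMap ((x, y) : V × G') hc.hasFDerivAt
    exact this
  exact h4.fderiv

theorem sm_rad {y : G} (hy : y ≠ 0) : Sm (rad : G → G) y := by
  filter_upwards [isOpen_compl_singleton.mem_nhds hy] with z hz using contDiffAt_rad hz

theorem rad_ne {y : G} (hy : y ≠ 0) : rad y ≠ 0 := by
  rw [← norm_ne_zero_iff, norm_rad hy]
  exact one_ne_zero

/-- the values of a form on the sphere bundle along a fibre of a homogeneous plot -/
theorem radl_val (σ : Form (Co.SB D G)) {u : V × G → X × G} {x : V}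
    (hu : ∀ y ≠ 0, (Co.SB D G).At u (x, y)) (hh : ∀ s y, y ≠ 0 → u (s, rad y) = u (s, y)) :
    Radl (fun y => σ.val u (x, y)) where
  smooth y hy := ((σ.smooth (hu y hy)).comp y
    (contDiff_const.prodMk contDiff_id).contDiffAt).contDiffWithinAt
  hom y hy := by
    have h1 : Sm (fun p : V × G => (p.1, rad p.2)) (x, y) :=
      Sm.prodMk (Sm.of_contDiff contDiff_fst _)
        (Sm.comp (f := rad) (g := Prod.snd) (x := ((x, y) : V × G)) (sm_rad hy)
          (Sm.of_contDiff contDiff_snd _))
    have h2 := σ.nat (u := u) (g := fun p : V × G => (p.1, rad p.2)) (x := (x, y))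
      (hu _ (rad_ne hy)) h1
    rw [fderiv_prodMap_snd (sm_rad hy).differentiableAt] at h2
    refine Eq.trans (σ.congr (hu y hy) ?_) h2
    have h3 : ∀ᶠ p in 𝓝 ((x, y) : V × G), p.2 ≠ 0 := continuous_snd.continuousAt.eventually_ne hy
    filter_upwards [h3] with p hp
    exact (hh p.1 p.2 hp).symm

theorem at_nrm_cyl {f : V → X} {x : V} (hf : D.At f x) {y : G} (hy : y ≠ 0) :
    (Co.SB D G).At (Co.nrm ∘ cylF f) (x, y) :=
  Co.map_nrm ⟨cylF_at hf y, continuous_snd.continuousAt.eventually_ne hy⟩

theorem radl_cyl (σ : Form (Co.SB D G)) {f : V → X} {x : V} (hf : D.At f x) :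
    Radl (fun y : G => σ.val (Co.nrm ∘ cylF f) (x, y)) :=
  radl_val σ (fun y hy => at_nrm_cyl hf hy) fun s y hy => by
    change (f s, rad (rad y)) = (f s, rad y)
    rw [show rad (rad y) = rad y from rad_smul y (inv_pos.2 (norm_pos_iff.2 hy))]

/-- the sphere integral in a plot -/
theorem si_val {m : ℕ} (o : OrthonormalBasis (Fin m) ℝ G) (σ : Form (Co.SB D G)) {f : V → X}
    {x : V} (hf : D.At f x) : (Co.si o σ).val f x =
      ∫ y, slice (E := V) o (Q.ps (Q.dR rc y) * σ.val (Co.nrm ∘ cylF f) (x, y)) := by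
  rw [Co.si, Form.fi_val (Co.vc_of_van (Co.vc_dx σ)) hf]
  refine integral_congr_ae (Eventually.of_forall fun y => ?_)
  change slice _ _ = slice _ _
  rw [dx_val σ (cylF_at hf y)]
  congr 2
  have h1 : HasFDerivAt (fun p : V × G => rc p.2)
      (fderiv ℝ rc y ∘L ContinuousLinearMap.snd ℝ V G) (x, y) :=
    HasFDerivAt.comp (g := rc) (f := Prod.snd) ((x, y) : V × G)
      (contDiff_rc.differentiable (by simp) y).hasFDerivAt hasFDerivAt_snd
  change dx (fderiv ℝ (fun p : V × G => rc p.2) (x, y)) = _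
  rw [h1.fderiv, Q.ps, Q.dR, pull_dx]

end Plot

end

end Vale.Agent.P231Z.I7
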