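import Vale.Agent.P231Z.I7.Cell
import Vale.Agent.P231.H584.Formal

/-!
# P231, multiplicity seven, integrality: towers of cycles in a space with a periodic flow
-/

set_option linter.unusedSectionVars false
set_option linter.unusedVariables false

open Set Filter Module MeasureTheory Metric
open scoped ContDiff Topology

namespace Vale.Agent.P231Z.I7

noncomputable section

open Vale.Agent.P231 Vale.Agent.P231.Fm Vale.Agent.P231.W Vale.Agent.P231.H584

variable {B B' : Type*} {dB : Dif B} {D' : Dif B'} {n : ℕ}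

section Thin

variable {V : Type} [NormedAddCommGroup V] [NormedSpace ℝ V] [FiniteDimensional ℝ V]

theorem POpen.at {U : Set B} (hU : POpen dB U) {u : V → B} {x : V} (h : dB.At u x)
    (hx : u x ∈ U) : (dB.on U).At u x := ⟨h, hU h hx⟩

theorem pOpen_univ : POpen dB univ := fun _ _ => Eventually.of_forall fun _ => mem_univ _

theorem Thin.on {m : ℕ} {u : V → B} {x : V} (h : Thin dB m u x) {U : Set B} (hU : POpen dB U)
    (hx : u x ∈ U) : Thin (dB.on U) m u x := by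
  obtain ⟨G, _, _, _, v, g, h1, h2, h3, h4⟩ := h
  refine ⟨G, inferInstance, inferInstance, inferInstance, v, g, h1, h2, hU.at h3 ?_, h4⟩
  have h5 : u x = v (g x) := h4.self_of_nhds
  rwa [← h5]

theorem Thin.eval {m : ℕ} {u : V → B} {x : V} (h : Thin dB m u x) (w : Form dB)
    (b : Fin m → V) : evalForm (w.val u x) b = 0 := by
  obtain ⟨G, _, _, _, v, g, h1, h2, h3, h4⟩ := h
  have h5 : dB.At (v ∘ g) x := dB.comp h3 h2
  rw [← w.congr h5 h4.symm, w.nat h3 h2, evalForm_pull]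
  refine AlternatingMap.map_linearDependent _ _ fun h6 => ?_
  have h7 := h6.fintype_card_le_finrank
  rw [Fintype.card_fin] at h7
  omega

end Thin

/-- pull-backs of basic forms by equivariant maps are basic -/
theorem basic_eqv {Φ : B × ℝ → B} {hΦ : (dB.prod (Dif.lin ℝ)).Map dB Φ} {Φ' : B' × ℝ → B'}
    {hΦ' : (D'.prod (Dif.lin ℝ)).Map D' Φ'} {f : B → B'} (hf : dB.Map D' f)
    (h : ∀ x t, f (Φ (x, t)) = Φ' (f x, t)) {w : Form D'} (hw : Basic Φ' hΦ' w) :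
    Basic Φ hΦ (Form.pull f hf w) := by
  have h1 : Form.pull Φ hΦ (Form.pull f hf w) =
      Form.pull (fun p : B × ℝ => (f p.1, p.2)) (map_cyl hf) (Form.pull Φ' hΦ' w) := by
    refine (pull_pull (k := fun p : B × ℝ => Φ' (f p.1, p.2)) hΦ hf
      (fun hh => hΦ' (map_cyl hf hh)) (fun p => h _ _) w).trans ?_
    exact (pull_pull (map_cyl hf) hΦ' _ (fun p => rfl) w).symm
  rw [basic_def, h1, hw]
  refine (pull_pull (k := fun p : B × ℝ => f p.1) (map_cyl hf) Dif.map_fst (map_comp_fst hf)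
    (fun p => rfl) w).trans ?_
  exact (pull_pull Dif.map_fst hf (map_comp_fst hf) (fun p => rfl) w).symm

/-- invariant sets which are open in the plots -/
structure Inv (dB : Dif B) (Φ : B × ℝ → B) (U : Set B) : Prop where
  po : POpen dB U
  inv : ∀ b ∈ U, ∀ t, Φ (b, t) ∈ U

variable {T : ℝ} {Φ : B × ℝ → B}

theorem Inv.flow {U : Set B} (hU : Inv dB Φ U) (hΦ : IsFlow dB T Φ) : IsFlow (dB.on U) T Φ where
  map := fun h => ⟨hΦ.map ⟨h.1.1, h.2⟩, h.1.2.mono fun y hy => hU.inv _ hy _⟩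
  zero := hΦ.zero
  add := hΦ.add
  per := hΦ.per

theorem inv_univ : Inv dB Φ univ := ⟨pOpen_univ, fun _ _ _ => mem_univ _⟩

/-- a cell in an open set -/
def Cell.on (C : Cell dB n) {U : Set B} (hU : POpen dB U) (h : ∀ z ∈ C.K, C.c z ∈ U) :
    Cell (dB.on U) n := C.re C.c fun z hz => hU.at (C.plot z hz) (h z hz)

theorem Cell.on_I (C : Cell dB n) {U : Set B} (hU : POpen dB U) (h : ∀ z ∈ C.K, C.c z ∈ U)
    (w : Form dB) : (C.on hU h).I (Form.res U w) = C.I w :=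
  setIntegral_congr_fun C.meas fun z hz => by
    change evalForm ((Form.res U w).val C.c z) C.b = evalForm (w.val C.c z) C.b
    rw [Form.res_val _ (hU.at (C.plot z hz) (h z hz))]

/-- the cell is a cycle of the orbit space: Stokes' theorem for basic forms -/
def Cyc (hΦ : IsFlow dB T Φ) (C : Cell dB n) : Prop :=
  ∀ (U : Set B) (hU : Inv dB Φ U) (h : ∀ z ∈ C.K, C.c z ∈ U) (ρ : Form (dB.on U)),
    Basic Φ (hU.flow hΦ).map ρ → (C.on hU.po h).I ρ.d = 0

theorem basic_res (hΦ : IsFlow dB T Φ) {U : Set B} (hU : Inv dB Φ U) {w : Form dB}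
    (hw : Basic Φ hΦ.map w) : Basic Φ (hU.flow hΦ).map (Form.res U w) :=
  basic_eqv (f := id) Dif.map_on (fun _ _ => rfl) hw

theorem Cyc.stokes {hΦ : IsFlow dB T Φ} {C : Cell dB n} (hC : Cyc hΦ C) {ρ : Form dB}
    (hρ : Basic Φ hΦ.map ρ) : C.I ρ.d = 0 := by
  rw [← C.on_I pOpen_univ (fun _ _ => mem_univ _), ← Form.res_d]
  exact hC univ inv_univ _ _ (basic_res hΦ inv_univ hρ)

section Step

variable {X : Type*} {dX : Dif X} {Ψ : X × ℝ → X}

theorem map_sw (hΨ : IsFlow dX T Ψ) :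
    (dX.prod (Dif.lin ℝ)).Map dX (fun p : X × ℝ => Ψ (p.1, T * p.2)) :=
  fun h => hΨ.map (map_scale T h)

/-- the cell swept by the flow -/
def Cell.sw (C : Cell dX n) (hΨ : IsFlow dX T Ψ) : Cell dX (1 + n) :=
  C.cyl.map (fun p : X × ℝ => Ψ (p.1, T * p.2)) (map_sw hΨ)

theorem Cell.sw_I (C : Cell dX n) (hΨ : IsFlow dX T Ψ) (w : Form dX) :
    (C.sw hΨ).I w = C.I (J Ψ hΨ.map T w) := by
  rw [Cell.sw, Cell.map_I, Cell.cyl_I, J_def, KT,
    pull_pull (map_scale T) hΨ.map (map_sw hΨ) (fun p => rfl)]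

/-- the cell swept by the flow and a homotopy -/
def Cell.tw (C : Cell dX n) (hΨ : IsFlow dX T Ψ) (H : X × ℝ → B')
    (hH : (dX.prod (Dif.lin ℝ)).Map D' H) : Cell D' (1 + (1 + n)) :=
  (C.sw hΨ).cyl.map H hH

theorem Cell.tw_d (C : Cell dX n) (hΨ : IsFlow dX T Ψ) (H : X × ℝ → B')
    (hH : (dX.prod (Dif.lin ℝ)).Map D' H)
    (hS : ∀ ρ : Form dX, Basic Ψ hΨ.map ρ → C.I ρ.d = 0)
    (hthin : ∀ z ∈ (C.sw hΨ).K, Thin D' (1 + n) (fun y => H ((C.sw hΨ).c y, 1)) z)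
    (ρ : Form D') : (C.tw hΨ H hH).I ρ.d =
      -C.I (J Ψ hΨ.map T (Form.pull (fun x => H (x, 0)) (map_at hH 0) ρ)) := by
  have h1 := homotopy' (Form.pull H hH ρ)
  rw [← Form.pull_d, at_pull_of, at_pull_of] at h1
  have h2 : Form.K (Form.pull H hH ρ.d) = Form.pull (fun x => H (x, 1)) (map_at hH 1) ρ -
      Form.pull (fun x => H (x, 0)) (map_at hH 0) ρ - (Form.K (Form.pull H hH ρ)).d := by
    rw [h1, add_sub_cancel_right]
  have h3 : (C.sw hΨ).I (Form.pull (fun x => H (x, 1)) (map_at hH 1) ρ) = 0 := by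
    refine Cell.I_eq_zero _ fun z hz => ?_
    rw [Form.pull_val _ _ ((C.sw hΨ).plot z hz)]
    exact (hthin z hz).eval ρ _
  have h4 : (C.sw hΨ).I (Form.K (Form.pull H hH ρ)).d = 0 := by
    rw [Cell.sw_I, J_d hΨ, Cell.I_neg, hS _ (J_basic hΨ _), neg_zero]
  have h5 : (C.tw hΨ H hH).I ρ.d = (C.sw hΨ).I (Form.K (Form.pull H hH ρ.d)) :=
    (Cell.map_I _ H hH _).trans (Cell.cyl_I _ _)
  rw [h5, h2, Cell.I_sub, Cell.I_sub, h3, h4, Cell.sw_I, zero_sub,
    sub_zero]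

end Step

theorem IsFlow.red (hΦ : IsFlow dB T Φ) (hT : 0 < T) (b : B) (t : ℝ) :
    ∃ s ∈ Icc 0 T, Φ (b, t) = Φ (b, s) := by
  have h1 : Function.Periodic (fun t => Φ (b, t)) T := fun t => by
    change Φ (b, t + T) = Φ (b, t)
    rw [← hΦ.add, hΦ.per]
  obtain ⟨s, hs, h2⟩ := h1.exists_mem_Ico₀ hT t
  exact ⟨s, Ico_subset_Icc_self hs, h2⟩

section Dom

variable (Φ) in
/-- the domain of the next step -/
def dom (W : Set B) (H : B × ℝ → B) (U : Set B) : Set B :=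
  {b | ∀ t, Φ (b, t) ∈ W ∧ ∀ τ, H (Φ (b, t), τ) ∈ U}

variable {m : ℕ} {W : Set B} {H : B × ℝ → B}

theorem Htpy.red (hH : Htpy dB m W H) {b : B} (hb : b ∈ W) (τ : ℝ) :
    ∃ s ∈ Icc (0 : ℝ) 1, H (b, τ) = H (b, s) := by
  rcases le_total τ 0 with h | h
  · exact ⟨0, ⟨le_rfl, zero_le_one⟩, by rw [hH.zero b hb τ h, hH.zero b hb 0 le_rfl]⟩
  · rcases le_total 1 τ with h' | h'
    · exact ⟨1, ⟨zero_le_one, le_rfl⟩, hH.one b hb τ h'⟩
    · exact ⟨τ, ⟨h, h'⟩, rfl⟩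

theorem mem_dom (hΦ : IsFlow dB T Φ) (hT : 0 < T) (hH : Htpy dB m W H) {U : Set B} {b : B}
    (h : ∀ q ∈ Icc 0 T ×ˢ Icc (0 : ℝ) 1, Φ (b, q.1) ∈ W ∧ H (Φ (b, q.1), q.2) ∈ U) :
    b ∈ dom Φ W H U := by
  intro t
  obtain ⟨s, hs, h1⟩ := IsFlow.red hΦ hT b t
  have h2 : Φ (b, s) ∈ W := (h (s, 0) ⟨hs, le_rfl, zero_le_one⟩).1
  rw [h1]
  refine ⟨h2, fun τ => ?_⟩
  obtain ⟨r, hr, h3⟩ := hH.red h2 τ
  rw [h3]
  exact (h (s, r) ⟨hs, hr⟩).2

theorem inv_dom (hΦ : IsFlow dB T Φ) (hT : 0 < T) (hH : Htpy dB m W H) {U : Set B}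
    (hU : POpen dB U) : Inv dB Φ (dom Φ W H U) where
  po := by
    intro V _ _ _ u x hu hx
    have h1 := (isCompact_Icc.prod isCompact_Icc :
      IsCompact (Icc 0 T ×ˢ Icc (0 : ℝ) 1)).eventually_forall_of_forall_eventually (x₀ := x)
      (P := fun y q => Φ (u y, q.1) ∈ W ∧ H (Φ (u y, q.1), q.2) ∈ U) (fun q hq => by
        have k1 : dB.At (u ∘ (Prod.fst : V × ℝ × ℝ → V)) (x, q) :=
          dB.comp (u := u) (g := Prod.fst) hu (Sm.of_contDiff contDiff_fst _)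
        have k2 : (dB.prod (Dif.lin ℝ)).At (fun p : V × ℝ × ℝ => (u p.1, p.2.1)) (x, q) :=
          ⟨k1, Sm.of_contDiff (contDiff_fst.comp contDiff_snd) _⟩
        have k3 : dB.At (fun p : V × ℝ × ℝ => Φ (u p.1, p.2.1)) (x, q) := hΦ.map k2
        have k4 := POpen.at (dB := dB) (U := W) hH.po k3 (hx q.1).1
        have k5 : ((dB.on W).prod (Dif.lin ℝ)).At
            (fun p : V × ℝ × ℝ => (Φ (u p.1, p.2.1), p.2.2)) (x, q) :=
          ⟨k4, Sm.of_contDiff (contDiff_snd.comp contDiff_snd) _⟩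
        have k6 : dB.At (fun p : V × ℝ × ℝ => H (Φ (u p.1, p.2.1), p.2.2)) (x, q) := hH.map k5
        exact k4.2.and (hU k6 ((hx q.1).2 q.2)))
    exact h1.mono fun y hy => mem_dom hΦ hT hH hy
  inv := fun b hb s t => by
    rw [hΦ.add]
    exact hb _

theorem dom_sub (hΦ : IsFlow dB T Φ) {U : Set B} {b : B} (hb : b ∈ dom Φ W H U) :
    b ∈ W ∧ ∀ τ, H (b, τ) ∈ U := by
  have h := hb 0
  rwa [hΦ.zero] at h

theorem map_dom (hΦ : IsFlow dB T Φ) (hH : Htpy dB m W H) (U : Set B) :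
    ((dB.on (dom Φ W H U)).prod (Dif.lin ℝ)).Map (dB.on U) H := fun h =>
  ⟨hH.map ⟨⟨h.1.1, h.1.2.mono fun y hy => (dom_sub hΦ hy).1⟩, h.2⟩,
    h.1.2.mono fun y hy => (dom_sub hΦ hy).2 _⟩

end Dom

/-- **one step of the tower** -/
theorem step (hΦ : IsFlow dB T Φ) (hT : 0 < T) {α : Form dB}
    (hα : Form.pull Φ hΦ.map α = pr α + dt) {C : Cell dB n} (hC : Cyc hΦ C)
    {W : Set B} {H : B × ℝ → B} (hH : Htpy dB (1 + n) W H)
    (hW : ∀ z ∈ (C.sw hΦ).K, (C.sw hΦ).c z ∈ W) :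
    ∃ C' : Cell dB (1 + (1 + n)), Cyc hΦ C' ∧ ∀ w : Form dB, w.d = 0 → Basic Φ hΦ.map w →
      C'.I (T⁻¹ • α.d * w) = -C.I w := by
  have hW' : ∀ z ∈ C.K, ∀ t ∈ Icc 0 T, Φ (C.c z, t) ∈ W := by
    intro z hz t ht
    have h1 := hW (z, T⁻¹ * t) ⟨hz, mul_nonneg (inv_nonneg.2 hT.le) ht.1, by
      rw [inv_mul_le_iff₀ hT, mul_one]; exact ht.2⟩
    change Φ (C.c z, T * (T⁻¹ * t)) ∈ W at h1
    rwa [mul_inv_cancel_left₀ hT.ne'] at h1
  -- the general computation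
  have key : ∀ (U : Set B) (hU : Inv dB Φ U) (hd : ∀ z ∈ C.K, C.c z ∈ dom Φ W H U)
      (ρ : Form (dB.on U)), ((C.on (inv_dom hΦ hT hH hU.po).po hd).tw
        ((inv_dom hΦ hT hH hU.po).flow hΦ) H (map_dom hΦ hH U)).I ρ.d =
      -(C.on (inv_dom hΦ hT hH hU.po).po hd).I (J Φ ((inv_dom hΦ hT hH hU.po).flow hΦ).map T
        (Form.pull id (Dif.map_on_mono (O₁ := dom Φ W H U) (O₂ := U) fun b hb => by
          have h1 := (dom_sub hΦ hb).2 0
          rwa [hH.zero b (dom_sub hΦ hb).1 0 le_rfl] at h1) ρ)) := by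
    intro U hU hd ρ
    rw [Cell.tw_d _ _ _ _ (hC _ (inv_dom hΦ hT hH hU.po) hd)]
    · congr 3
      refine Form.ext_val fun V _ _ _ u x hu => ?_
      rw [Form.pull_val _ _ hu, Form.pull_val _ _ hu]
      refine ρ.congr (map_at (map_dom hΦ hH U) 0 hu) ?_
      filter_upwards [hu.2] with y hy
      exact hH.zero _ (dom_sub hΦ hy).1 0 le_rfl
    · intro z hz
      have h1 := ((C.on (inv_dom hΦ hT hH hU.po).po hd).sw
        ((inv_dom hΦ hT hH hU.po).flow hΦ)).plot z hz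
      refine Thin.on (hH.thin ⟨h1.1, h1.2.mono fun y hy => (dom_sub hΦ hy).1⟩) hU.po ?_
      exact (dom_sub hΦ h1.2.self_of_nhds).2 1
  have hd0 : ∀ z ∈ C.K, C.c z ∈ dom Φ W H univ := fun z hz =>
    mem_dom hΦ hT hH fun q hq => ⟨hW' z hz q.1 hq.1, mem_univ _⟩
  let C₀ : Cell (dB.on univ) (1 + (1 + n)) := (C.on (inv_dom hΦ hT hH pOpen_univ).po hd0).tw
    ((inv_dom hΦ hT hH pOpen_univ).flow hΦ) H (map_dom hΦ hH univ)
  let C' : Cell dB (1 + (1 + n)) := C₀.re C₀.c fun z hz => (C₀.plot z hz).1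
  refine ⟨C', fun U hU h ρ hρ => ?_, fun w hw hb => ?_⟩
  · have hd : ∀ z ∈ C.K, C.c z ∈ dom Φ W H U := fun z hz =>
      mem_dom hΦ hT hH fun q hq => ⟨hW' z hz q.1 hq.1, by
        have h1 := h ((z, T⁻¹ * q.1), q.2) ⟨⟨hz, mul_nonneg (inv_nonneg.2 hT.le) hq.1.1, by
          rw [inv_mul_le_iff₀ hT, mul_one]; exact hq.1.2⟩, hq.2⟩
        change H (Φ (C.c z, T * (T⁻¹ * q.1)), q.2) ∈ U at h1
        rwa [mul_inv_cancel_left₀ hT.ne'] at h1⟩
    have h1 := key U hU hd ρ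
    rw [J_of_basic T (basic_eqv (hΦ' := (hU.flow hΦ).map) (f := id) _ (fun _ _ => rfl) hρ),
      Cell.I_zero, neg_zero] at h1
    exact h1
  · have h1 := key univ inv_univ hd0 (Form.res univ (α * w))
    have h2 : C'.I (α * w).d = C₀.I (Form.res univ (α * w)).d := by
      rw [Form.res_d]
      exact (C'.on_I pOpen_univ (fun _ _ => mem_univ _) _).symm
    have h3 : (α * w).d = α.d * w := by rw [Form.d_mul, hw, mul_zero, add_zero]
    have hI := inv_dom hΦ hT hH (pOpen_univ (dB := dB))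
    have h4 : Form.pull id (Dif.map_on_mono (O₁ := dom Φ W H univ) (O₂ := univ) fun b hb =>
        mem_univ b) (Form.res univ (α * w)) =
        Form.res (dom Φ W H univ) α * Form.res (dom Φ W H univ) w := by
      rw [← Form.res_mul]
      exact pull_pull (k := id) _ _ _ (fun _ => rfl) _
    have h5 : J Φ (hI.flow hΦ).map T (Form.res (dom Φ W H univ) α) = T • 1 := by
      have h6 : Form.pull Φ (hI.flow hΦ).map (Form.res (dom Φ W H univ) α) =
          pr (Form.res (dom Φ W H univ) α) + dt := by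
        have k0 : ((dB.on (dom Φ W H univ)).prod (Dif.lin ℝ)).Map (dB.prod (Dif.lin ℝ))
            (fun p => (id p.1, p.2)) := map_cyl Dif.map_on
        have k1 := congrArg (Form.pullA _ k0) hα
        rw [map_add] at k1
        simp only [Form.pullA_apply] at k1
        have k2 : Form.pull Φ (hI.flow hΦ).map (Form.res (dom Φ W H univ) α) =
            Form.pull _ k0 (Form.pull Φ hΦ.map α) :=
          (pull_pull (k := Φ) (hI.flow hΦ).map Dif.map_on (fun hh => hΦ.map (k0 hh))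
            (fun _ => rfl) α).trans (pull_pull (k := Φ) k0 hΦ.map _ (fun _ => rfl) α).symm
        have k3 : pr (Form.res (dom Φ W H univ) α) = Form.pull _ k0 (pr α) :=
          (pull_pull (k := Prod.fst) Dif.map_fst Dif.map_on (fun hh => hh.1.1)
            (fun _ => rfl) α).trans (pull_pull (k := Prod.fst) k0 Dif.map_fst _
              (fun _ => rfl) α).symm
        have k4 : (dt : Form ((dB.on (dom Φ W H univ)).prod (Dif.lin ℝ))) =
            Form.pull _ k0 dt := by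
          rw [dt, dt, Form.pull_d]
          congr 1
          refine Form.ext_val fun V _ _ _ u x hu => ?_
          rw [Form.pull_val _ _ hu]
          exact (Form.fn_val _ Dif.map_snd hu).trans (Form.fn_val _ Dif.map_snd (k0 hu)).symm
        rw [k2, k3, k4]
        exact k1
      rw [J_def, h6, KT_add, KT_pr, KT_dt, zero_add]
    rw [h4, J_mul_basic T _ (basic_res hΦ hI hb), h5, smul_mul_assoc, one_mul, Cell.I_smul,
      C.on_I] at h1
    rw [smul_mul_assoc, Cell.I_smul, ← h3, h2, h1, mul_neg, inv_mul_cancel_left₀ hT.ne']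

end

end Vale.Agent.P231Z.I7
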